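import Mathlib

/-!
Shared definitions for the centroid-box theorem: for every convex downward closed body in the
orthant, the volume is at least the product of twice the centroid coordinates.
Bodies are encoded by their gauges on the orthant.
-/

noncomputable section

open MeasureTheory Set Function
open scoped BigOperators

namespace Vale.Agent.P254.CT

variable {n : ℕ}

/-- The closed orthant. -/
def orth (n : ℕ) : Set (Fin n → ℝ) := {x | ∀ i, 0 ≤ x i}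

/-- Coordinate vector. -/
def unit (i : Fin n) : Fin n → ℝ := Pi.single i 1

/-- Monotone sublinear positive functions on the orthant: gauges of convex downsets. -/
structure IsGauge (G : (Fin n → ℝ) → ℝ) : Prop where
  hom : ∀ x ∈ orth n, ∀ r : ℝ, 0 ≤ r → G (r • x) = r * G x
  sub : ∀ x ∈ orth n, ∀ y ∈ orth n, G (x + y) ≤ G x + G y
  mono : ∀ x ∈ orth n, ∀ y ∈ orth n, x ≤ y → G x ≤ G y
  unit_pos : ∀ i, 0 < G (unit i)

/-- Lipschitz sublinear functions on the orthant, of any sign. -/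
structure IsSub (Ψ : (Fin n → ℝ) → ℝ) : Prop where
  hom : ∀ x ∈ orth n, ∀ r : ℝ, 0 ≤ r → Ψ (r • x) = r * Ψ x
  sub : ∀ x ∈ orth n, ∀ y ∈ orth n, Ψ (x + y) ≤ Ψ x + Ψ y
  lip : ∃ L : ℝ, 0 ≤ L ∧ ∀ x ∈ orth n, ∀ y ∈ orth n, |Ψ x - Ψ y| ≤ L * ∑ i, |x i - y i|

/-- Nondecreasing in coordinate `j`. -/
def MonIn (j : Fin n) (Ψ : (Fin n → ℝ) → ℝ) : Prop :=
  ∀ x ∈ orth n, ∀ s : ℝ, 0 ≤ s → Ψ x ≤ Ψ (x + s • unit j)

/-- Integral over the orthant against `exp (-G)`. -/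
def expInt (G f : (Fin n → ℝ) → ℝ) : ℝ := ∫ x in orth n, f x * Real.exp (-G x)

/-- Normalising constant. -/
def Zexp (G : (Fin n → ℝ) → ℝ) : ℝ := expInt G fun _ => 1

/-- First moment. -/
def momExp (G : (Fin n → ℝ) → ℝ) (i : Fin n) : ℝ := expInt G fun x => x i

/-- The functional to minimise. -/
def Fn (G : (Fin n → ℝ) → ℝ) : ℝ :=
  ((n : ℝ) + 1) * Real.log (Zexp G) - ∑ i, Real.log (momExp G i)

/-- A global minimiser of `Fn` among gauges. -/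
def IsMin (G : (Fin n → ℝ) → ℝ) : Prop :=
  IsGauge G ∧ ∀ G' : (Fin n → ℝ) → ℝ, IsGauge G' → Fn G ≤ Fn G'

/-- The sum of the coordinates scaled by their means. -/
def wsum (G : (Fin n → ℝ) → ℝ) (x : Fin n → ℝ) : ℝ := ∑ i, x i * (Zexp G / momExp G i)

/-- The pairing. -/
def ip (G a b : (Fin n → ℝ) → ℝ) : ℝ := expInt G fun x => a x * b x

/-- Linear growth, measurable, constant along the open segments on which `G` is constant
in a coordinate starting from the coordinate hyperplane. -/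
structure IsSegConst (G v : (Fin n → ℝ) → ℝ) : Prop where
  meas : Measurable v
  bound : ∃ B : ℝ, ∀ x ∈ orth n, |v x| ≤ B * G x
  const : ∀ (j : Fin n), ∀ x ∈ orth n, ∀ b : ℝ, 0 < b → G (update x j b) = G (update x j 0) →
    ∀ y₁ ∈ Ioo 0 b, ∀ y₂ ∈ Ioo 0 b, v (update x j y₁) = v (update x j y₂)

/-- The body of a gauge. -/
def body (G : (Fin n → ℝ) → ℝ) : Set (Fin n → ℝ) := {x | x ∈ orth n ∧ G x ≤ 1}

/-- Volume of the body. -/
def vol (G : (Fin n → ℝ) → ℝ) : ℝ := (volume (body G)).toReal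

/-- Unnormalised first moment of the body. -/
def mom (G : (Fin n → ℝ) → ℝ) (i : Fin n) : ℝ := ∫ x in body G, x i

/-- First variation along `x k ↦ x k - s * x k ^ m`. -/
def slope (G : (Fin n → ℝ) → ℝ) (k : Fin n) (m : ℕ) : ℝ :=
  (∑ i, (∫ x in body G, (m : ℝ) * x k ^ (m - 1) * x i) / mom G i)
    + (∫ x in body G, x k ^ m) / mom G k
    - ((n : ℝ) + 1) * (∫ x in body G, (m : ℝ) * x k ^ (m - 1)) / vol G

/-- Second variation along the same path. -/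
def curv (G : (Fin n → ℝ) → ℝ) (k : Fin n) (m : ℕ) : ℝ :=
  (∑ i ∈ Finset.univ.erase k, ((∫ x in body G, (m : ℝ) * x k ^ (m - 1) * x i) / mom G i) ^ 2)
    + (((m : ℝ) + 1) * (∫ x in body G, x k ^ m) / mom G k) ^ 2
    - 2 * ((m : ℝ) * ∫ x in body G, x k ^ (2 * m - 1)) / mom G k
    - ((n : ℝ) + 1) * ((∫ x in body G, (m : ℝ) * x k ^ (m - 1)) / vol G) ^ 2

/-! ### The statements to be proved -/

/-- Step 0. -/
def MinExists : Prop := ∀ n : ℕ, 1 ≤ n → ∃ G : (Fin n → ℝ) → ℝ, IsMin G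

/-- Step 1. -/
def FirstOrder : Prop := ∀ (n : ℕ) (G Ψ : (Fin n → ℝ) → ℝ), IsMin G → IsSub Ψ →
  (∀ j, MonIn j Ψ) → 0 ≤ ip G Ψ fun x => wsum G x - G x

/-- One averaging step. -/
def OperatorStep : Prop := ∀ (n : ℕ) (G Ψ v : (Fin n → ℝ) → ℝ) (j : Fin n) (d δ : ℝ),
  IsGauge G → IsSub Ψ → IsSegConst G v → 0 < δ →
  ∃ (Ψ' : (Fin n → ℝ) → ℝ) (c : ℝ), IsSub Ψ' ∧ MonIn j Ψ' ∧
    (∀ i, MonIn i Ψ → MonIn i Ψ') ∧
    (ip G (fun x => Ψ' x + c * G x) fun x => Ψ' x + c * G x)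
      ≤ (ip G (fun x => Ψ x + d * G x) fun x => Ψ x + d * G x) + δ ∧
    |(ip G (fun x => Ψ' x + c * G x) v) - ip G (fun x => Ψ x + d * G x) v| ≤ δ

/-- Step 2. -/
def SegConstOrth : Prop := ∀ (n : ℕ) (G v : (Fin n → ℝ) → ℝ), IsMin G → IsSegConst G v →
  ip G v (fun x => wsum G x - G x) = 0

/-- Step 3, the identity. -/
def SlopeIdentity : Prop := ∀ (n : ℕ) (G : (Fin n → ℝ) → ℝ) (k : Fin n) (m : ℕ), IsGauge G →
  1 ≤ m → ∃ (v : (Fin n → ℝ) → ℝ) (c : ℝ), 0 < c ∧ IsSegConst G v ∧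
    ip G v (fun x => wsum G x - G x) = c * slope G k m

/-- Step 3, the path. -/
def SecondOrder : Prop := ∀ (n : ℕ) (G : (Fin n → ℝ) → ℝ) (k : Fin n) (m : ℕ), IsMin G →
  2 ≤ m → slope G k m = 0 → 0 ≤ curv G k m

/-- Step 4. -/
def VarBound : Prop := ∀ (n : ℕ) (G : (Fin n → ℝ) → ℝ) (a : Fin n → ℝ), IsGauge G →
  vol G * (∫ x in body G, (∑ i, a i * x i) ^ 2) - (∫ x in body G, ∑ i, a i * x i) ^ 2
    ≤ vol G * ∑ i, a i ^ 2 * ∫ x in body G, x i ^ 2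

/-- Step 5. -/
def OneVariable : Prop := ∀ (f : ℝ → ℝ) (M : ℝ), 2 < M → (∀ y ∈ Ico 0 M, 0 ≤ f y) →
  AntitoneOn f (Ico 0 M) →
  (∀ a ∈ Ico 0 M, ∀ b ∈ Ico 0 M, f a * f b ≤ f ((a + b) / 2) ^ 2) →
  (∫ y in Ioo 0 M, f y) = 1 → (∫ y in Ioo 0 M, y * f y) = 1 →
  ∃ t₀ < M, ∃ q < 1, ∀ t ∈ Ico t₀ M, f t * (3 * M ^ 2 - 8 * M + 6) ≤ q

/-- The centroid-box theorem. -/
def CentroidBox : Prop := ∀ (n : ℕ) (G : (Fin n → ℝ) → ℝ), IsGauge G →
  ∏ i, (2 * mom G i) ≤ vol G ^ (n + 1)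

end Vale.Agent.P254.CT
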