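import Mathlib
import Vale.Agent.P254.CT.Defs

/-!
Basic facts about gauges on the orthant: continuity, exponential integrability, and the radial
formula relating integrals against `exp (-G)` to integrals over the body.
-/

noncomputable section

open MeasureTheory Set Function Filter
open scoped BigOperators Nat Pointwise

namespace Vale.Agent.P254.CT

variable {n : ℕ}

lemma mem_orth {x : Fin n → ℝ} : x ∈ orth n ↔ ∀ i, 0 ≤ x i := Iff.rfl

lemma zero_mem_orth : (0 : Fin n → ℝ) ∈ orth n := fun _ => le_rfl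

lemma isClosed_orth : IsClosed (orth n) := by
  rw [show orth n = ⋂ i, {x : Fin n → ℝ | 0 ≤ x i} by ext x; simp [orth]]
  exact isClosed_iInter fun i => isClosed_le continuous_const (continuous_apply i)

lemma measurableSet_orth : MeasurableSet (orth n) := isClosed_orth.measurableSet

lemma smul_mem_orth {x : Fin n → ℝ} (hx : x ∈ orth n) {r : ℝ} (hr : 0 ≤ r) : r • x ∈ orth n :=
  fun i => mul_nonneg hr (hx i)

lemma add_mem_orth {x y : Fin n → ℝ} (hx : x ∈ orth n) (hy : y ∈ orth n) : x + y ∈ orth n :=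
  fun i => add_nonneg (hx i) (hy i)

lemma unit_mem_orth (i : Fin n) : unit i ∈ orth n := fun j => by
  by_cases h : j = i <;> simp [unit, h]

lemma update_mem_orth {x : Fin n → ℝ} (hx : x ∈ orth n) (j : Fin n) {y : ℝ} (hy : 0 ≤ y) :
    update x j y ∈ orth n := fun i => by
  by_cases h : i = j
  · subst h; simpa using hy
  · simpa [h] using hx i

lemma sum_smul_unit (x : Fin n → ℝ) : ∑ i, x i • unit i = x := by
  funext j
  simp [unit, Finset.sum_apply, Pi.single_apply]

namespace IsGauge

variable {G : (Fin n → ℝ) → ℝ} (h : IsGauge G)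
include h

lemma zero : G 0 = 0 := by simpa using h.hom 0 zero_mem_orth 0 le_rfl

lemma nonneg {x : Fin n → ℝ} (hx : x ∈ orth n) : 0 ≤ G x := by
  have := h.mono 0 zero_mem_orth x hx hx
  rwa [h.zero] at this

lemma coord_le {x : Fin n → ℝ} (hx : x ∈ orth n) (i : Fin n) : x i * G (unit i) ≤ G x := by
  rw [← h.hom (unit i) (unit_mem_orth i) (x i) (hx i)]
  refine h.mono _ (smul_mem_orth (unit_mem_orth i) (hx i)) x hx fun j => ?_
  by_cases hj : j = i
  · subst hj; simp [unit]
  · simpa [unit, hj] using hx j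

lemma le_sum {x : Fin n → ℝ} (hx : x ∈ orth n) : G x ≤ ∑ i, x i * G (unit i) := by
  have key : ∀ s : Finset (Fin n), G (∑ i ∈ s, x i • unit i) ≤ ∑ i ∈ s, x i * G (unit i) := by
    intro s
    induction s using Finset.induction_on with
    | empty => simp [h.zero]
    | insert a s has ih =>
      rw [Finset.sum_insert has, Finset.sum_insert has]
      refine (h.sub _ (smul_mem_orth (unit_mem_orth a) (hx a)) _ ?_).trans
        (add_le_add (le_of_eq (h.hom _ (unit_mem_orth a) _ (hx a))) ih)
      intro j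
      rw [Finset.sum_apply]
      exact Finset.sum_nonneg fun i _ => (smul_mem_orth (unit_mem_orth i) (hx i)) j
  simpa [sum_smul_unit] using key Finset.univ

lemma lip {x y : Fin n → ℝ} (hx : x ∈ orth n) (hy : y ∈ orth n) :
    |G x - G y| ≤ (∑ i, G (unit i)) * ∑ i, |x i - y i| := by
  have one : ∀ a ∈ orth n, ∀ b ∈ orth n, G a - G b ≤ (∑ i, G (unit i)) * ∑ i, |a i - b i| := by
    intro a ha b hb
    set c : Fin n → ℝ := fun i => |a i - b i| with hc
    have hcm : c ∈ orth n := fun i => abs_nonneg _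
    have h1 : a ≤ b + c := fun i => by
      simp only [Pi.add_apply, hc]; linarith [le_abs_self (a i - b i)]
    have h2 := (h.mono a ha _ (add_mem_orth hb hcm) h1).trans (h.sub b hb c hcm)
    have h3 : ∑ i, c i * G (unit i) ≤ (∑ i, G (unit i)) * ∑ i, c i := by
      rw [Finset.mul_sum]
      refine Finset.sum_le_sum fun i _ => ?_
      rw [mul_comm]
      exact mul_le_mul_of_nonneg_right (Finset.single_le_sum (f := fun j => G (unit j))
        (fun j _ => (h.unit_pos j).le) (Finset.mem_univ i)) (abs_nonneg _)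
    linarith [h.le_sum hcm]
  rw [abs_le]
  refine ⟨?_, one x hx y hy⟩
  have := one y hy x hx
  rw [Finset.sum_congr rfl fun i _ => abs_sub_comm (y i) (x i)] at this
  linarith

lemma isSub : IsSub G :=
  ⟨h.hom, h.sub, ∑ i, G (unit i), Finset.sum_nonneg fun i _ => (h.unit_pos i).le,
    fun _ hx _ hy => h.lip hx hy⟩

lemma monIn (j : Fin n) : MonIn j G := fun x hx s hs =>
  h.mono x hx _ (add_mem_orth hx (smul_mem_orth (unit_mem_orth j) hs))
    (le_add_of_nonneg_right (smul_mem_orth (unit_mem_orth j) hs))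

end IsGauge

namespace IsSub

variable {Ψ : (Fin n → ℝ) → ℝ} (h : IsSub Ψ)
include h

lemma zero : Ψ 0 = 0 := by simpa using h.hom 0 zero_mem_orth 0 le_rfl

lemma continuousOn : ContinuousOn Ψ (orth n) := by
  obtain ⟨L, hL0, hL⟩ := h.lip
  refine (LipschitzOnWith.of_dist_le_mul (K := Real.toNNReal (L * n)) fun x hx y hy => ?_).continuousOn
  rw [Real.coe_toNNReal _ (by positivity), Real.dist_eq]
  refine (hL x hx y hy).trans ?_
  rw [mul_assoc]
  refine mul_le_mul_of_nonneg_left ?_ hL0
  refine (Finset.sum_le_card_nsmul Finset.univ _ (dist x y) fun i _ => ?_).trans (le_of_eq (by simp))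
  rw [← Real.dist_eq]
  exact dist_le_pi_dist x y i

/-- A sublinear function is bounded by a multiple of any gauge. -/
lemma abs_le {G : (Fin n → ℝ) → ℝ} (hG : IsGauge G) :
    ∃ K : ℝ, 0 ≤ K ∧ ∀ x ∈ orth n, |Ψ x| ≤ K * G x := by
  obtain ⟨L, hL0, hL⟩ := h.lip
  refine ⟨L * ∑ i, (G (unit i))⁻¹, mul_nonneg hL0 (Finset.sum_nonneg fun i _ =>
    (inv_pos.2 (hG.unit_pos i)).le), fun x hx => ?_⟩
  have := hL x hx 0 zero_mem_orth
  rw [h.zero, sub_zero] at this
  refine this.trans ?_
  rw [mul_assoc]
  refine mul_le_mul_of_nonneg_left ?_ hL0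
  rw [Finset.sum_mul]
  refine Finset.sum_le_sum fun i _ => ?_
  rw [Pi.zero_apply, sub_zero, abs_of_nonneg (hx i), inv_mul_eq_div, le_div_iff₀ (hG.unit_pos i)]
  exact hG.coord_le hx i

end IsSub

lemma IsGauge.continuousOn {G : (Fin n → ℝ) → ℝ} (h : IsGauge G) : ContinuousOn G (orth n) :=
  h.isSub.continuousOn

lemma IsGauge.exists_min_unit {G : (Fin n → ℝ) → ℝ} (h : IsGauge G) :
    ∃ δ : ℝ, 0 < δ ∧ ∀ x ∈ orth n, δ * ∑ i, x i ≤ G x := by
  refine ⟨(1 + ∑ i, (G (unit i))⁻¹)⁻¹, inv_pos.2 (by
    have := Finset.sum_nonneg fun i (_ : i ∈ Finset.univ) => (inv_pos.2 (h.unit_pos i)).le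
    linarith), fun x hx => ?_⟩
  have hp := Finset.sum_nonneg fun i (_ : i ∈ Finset.univ) => (inv_pos.2 (h.unit_pos i)).le
  rw [inv_mul_le_iff₀ (by linarith), add_mul, Finset.sum_mul, one_mul]
  refine le_add_of_nonneg_of_le (h.nonneg hx) (Finset.sum_le_sum fun i _ => ?_)
  rw [inv_mul_eq_div, le_div_iff₀ (h.unit_pos i)]
  exact h.coord_le hx i

lemma integrable_exp_neg_sum {δ : ℝ} (hδ : 0 < δ) :
    IntegrableOn (fun x : Fin n → ℝ => Real.exp (-δ * ∑ i, x i)) (orth n) := by
  have h1 : Integrable (fun x : Fin n → ℝ =>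
      ∏ i, (Ici (0 : ℝ)).indicator (fun t => Real.exp (-δ * t)) (x i)) := by
    refine Integrable.fintype_prod (μ := fun _ => volume) fun i => ?_
    rw [integrable_indicator_iff measurableSet_Ici, integrableOn_Ici_iff_integrableOn_Ioi]
    exact exp_neg_integrableOn_Ioi 0 hδ
  rw [IntegrableOn]
  refine (h1.restrict (s := orth n)).congr ?_
  filter_upwards [ae_restrict_mem measurableSet_orth] with x hx
  rw [Finset.mul_sum, Real.exp_sum]
  exact Finset.prod_congr rfl fun i _ => indicator_of_mem (mem_Ici.2 (hx i)) _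

/-- Everything of polynomial growth in `G` is integrable against `exp (-G)`. -/
lemma IsGauge.integrableOn_exp_mul {G f : (Fin n → ℝ) → ℝ} (hG : IsGauge G) {B : ℝ} {p : ℕ}
    (hf : AEStronglyMeasurable f (volume.restrict (orth n)))
    (hb : ∀ x ∈ orth n, |f x| ≤ B * (1 + G x) ^ p) :
    IntegrableOn (fun x => f x * Real.exp (-G x)) (orth n) := by
  obtain ⟨δ, hδ, hδb⟩ := hG.exists_min_unit
  refine Integrable.mono' ((integrable_exp_neg_sum (half_pos hδ)).const_mul
    (|B| * ((2 : ℝ) ^ p * p ! * Real.exp (1 / 2)))) ?_ ?_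
  · exact hf.mul ((Real.continuous_exp.comp_continuousOn hG.continuousOn.neg).aestronglyMeasurable
      measurableSet_orth)
  · filter_upwards [ae_restrict_mem measurableSet_orth] with x hx
    have hg := hG.nonneg hx
    have h1 : (1 + G x) ^ p ≤ (2 : ℝ) ^ p * p ! * Real.exp ((1 + G x) / 2) := by
      have := Real.pow_div_factorial_le_exp (x := (1 + G x) / 2) (by linarith) p
      rw [div_le_iff₀ (by positivity), div_pow, div_le_iff₀ (by positivity)] at this
      linarith
    rw [Real.norm_eq_abs, abs_mul, abs_of_pos (Real.exp_pos _)]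
    calc |f x| * Real.exp (-G x)
        ≤ |B| * ((2 : ℝ) ^ p * p ! * Real.exp ((1 + G x) / 2)) * Real.exp (-G x) := by
          refine mul_le_mul_of_nonneg_right ?_ (Real.exp_pos _).le
          exact (hb x hx).trans ((mul_le_mul_of_nonneg_right (le_abs_self B)
            (by positivity)).trans (mul_le_mul_of_nonneg_left h1 (abs_nonneg B)))
      _ = |B| * ((2 : ℝ) ^ p * p ! * Real.exp (1 / 2)) * Real.exp (-G x / 2) := by
          have e : Real.exp ((1 + G x) / 2) * Real.exp (-G x)
              = Real.exp (1 / 2) * Real.exp (-G x / 2) := by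
            rw [← Real.exp_add, ← Real.exp_add]; ring_nf
          linear_combination (|B| * ((2 : ℝ) ^ p * p !)) * e
      _ ≤ _ := by
          refine mul_le_mul_of_nonneg_left (Real.exp_le_exp.2 ?_) (by positivity)
          linarith [hδb x hx]

/-! ### The body -/

section Body

variable {G : (Fin n → ℝ) → ℝ} (h : IsGauge G)
include h

lemma IsGauge.isClosed_body : IsClosed (body G) :=
  h.continuousOn.preimage_isClosed_of_isClosed isClosed_orth isClosed_Iic

lemma IsGauge.isCompact_body : IsCompact (body G) := by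
  refine Metric.isCompact_of_isClosed_isBounded h.isClosed_body
    ((Bornology.IsBounded.pi (S := fun i => Icc (0 : ℝ) (G (unit i))⁻¹)
      fun i => Metric.isBounded_Icc _ _).subset fun x hx i _ => ⟨hx.1 i, ?_⟩)
  rw [inv_eq_one_div, le_div_iff₀ (h.unit_pos i)]
  exact (h.coord_le hx.1 i).trans hx.2

lemma IsGauge.measurableSet_body : MeasurableSet (body G) := h.isClosed_body.measurableSet

lemma IsGauge.vol_pos : 0 < vol G := by
  set ε : ℝ := (1 + ∑ i, G (unit i))⁻¹
  have hs : 0 ≤ ∑ i, G (unit i) := Finset.sum_nonneg fun i _ => (h.unit_pos i).le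
  have hε : 0 < ε := inv_pos.2 (by linarith)
  have hsub : (univ.pi fun _ : Fin n => Icc (0 : ℝ) ε) ⊆ body G := by
    intro x hx
    have hxo : x ∈ orth n := fun i => (hx i (mem_univ _)).1
    refine ⟨hxo, (h.le_sum hxo).trans ?_⟩
    calc ∑ i, x i * G (unit i) ≤ ∑ i, ε * G (unit i) := Finset.sum_le_sum fun i _ =>
          mul_le_mul_of_nonneg_right (hx i (mem_univ _)).2 (h.unit_pos i).le
      _ = ε * ∑ i, G (unit i) := (Finset.mul_sum _ _ _).symm
      _ ≤ 1 := by rw [inv_mul_le_iff₀ (by linarith)]; linarith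
  refine ENNReal.toReal_pos (ne_of_gt ?_) h.isCompact_body.measure_lt_top.ne
  refine lt_of_lt_of_le ?_ (measure_mono hsub)
  rw [volume_pi_pi]
  simp [Real.volume_Icc, hε, pos_iff_ne_zero]

lemma IsGauge.mom_pos (i : Fin n) : 0 < mom G i := by
  unfold mom
  rw [setIntegral_pos_iff_support_of_nonneg_ae
    ((ae_restrict_mem h.measurableSet_body).mono fun x hx => hx.1 i)
    ((continuous_apply i).continuousOn.integrableOn_compact h.isCompact_body)]
  have hnull : volume {x : Fin n → ℝ | x i = 0} = 0 := by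
    rw [volume_pi]; exact Measure.pi_hyperplane (fun _ : Fin n => (volume : Measure ℝ)) i 0
  have hsub : body G ⊆ (Function.support fun x : Fin n → ℝ => x i) ∩ body G ∪ {x | x i = 0} := by
    intro x hx
    by_cases hi : x i = 0
    · exact Or.inr hi
    · exact Or.inl ⟨hi, hx⟩
  have h1 := (measure_mono hsub).trans (measure_union_le (μ := volume) _ _)
  rw [hnull, add_zero] at h1
  exact lt_of_lt_of_le (ENNReal.toReal_pos_iff.1 h.vol_pos).1 h1

lemma IsGauge.smul_body {r : ℝ} (hr : 0 < r) : r • body G = {x | x ∈ orth n ∧ G x ≤ r} := by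
  ext x
  rw [mem_smul_set_iff_inv_smul_mem₀ hr.ne']
  constructor
  · rintro ⟨h1, h2⟩
    have hx : x ∈ orth n := by
      have := smul_mem_orth h1 hr.le
      rwa [smul_inv_smul₀ hr.ne'] at this
    rw [h.hom x hx _ (inv_pos.2 hr).le, inv_mul_le_iff₀ hr, mul_one] at h2
    exact ⟨hx, h2⟩
  · rintro ⟨hx, h2⟩
    refine ⟨smul_mem_orth hx (inv_pos.2 hr).le, ?_⟩
    rw [h.hom x hx _ (inv_pos.2 hr).le, inv_mul_le_iff₀ hr, mul_one]
    exact h2

/-- Integrals of homogeneous functions over dilates of the body. -/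
lemma IsGauge.setIntegral_dilate {f : (Fin n → ℝ) → ℝ} {d : ℕ}
    (hhom : ∀ x ∈ orth n, ∀ r : ℝ, 0 < r → f (r • x) = r ^ d * f x) {r : ℝ} (hr : 0 < r) :
    ∫ x in {x | x ∈ orth n ∧ G x ≤ r}, f x = r ^ (n + d) * ∫ x in body G, f x := by
  have h1 := Measure.setIntegral_comp_smul_of_pos (μ := volume) f (body G) hr
  rw [h.smul_body hr, Module.finrank_fin_fun, smul_eq_mul,
    setIntegral_congr_fun h.measurableSet_body (fun x hx => hhom x hx.1 r hr),
    integral_const_mul, eq_inv_mul_iff_mul_eq₀ (by positivity)] at h1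
  rw [← h1, pow_add]
  ring

/-- The radial formula. -/
lemma IsGauge.radial {f : (Fin n → ℝ) → ℝ} {d : ℕ} {B : ℝ} {p : ℕ} (hf : Measurable f)
    (hhom : ∀ x ∈ orth n, ∀ r : ℝ, 0 < r → f (r • x) = r ^ d * f x)
    (hb : ∀ x ∈ orth n, |f x| ≤ B * (1 + G x) ^ p) :
    expInt G f = (n + d)! * ∫ x in body G, f x := by
  set G' : (Fin n → ℝ) → ℝ := (orth n).indicator G with hG'
  have hG'm : Measurable G' := by
    classical
    rw [hG', ← piecewise_eq_indicator]
    exact h.continuousOn.measurable_piecewise continuousOn_const measurableSet_orth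
  have hG'eq : ∀ x ∈ orth n, G' x = G x := fun x hx => indicator_of_mem hx _
  set S : Set ((Fin n → ℝ) × ℝ) := {z | G' z.1 ≤ z.2} with hS
  have hSm : MeasurableSet S := measurableSet_le (hG'm.comp measurable_fst) measurable_snd
  set u : (Fin n → ℝ) → ℝ → ℝ :=
    fun x r => S.indicator (fun z => f z.1 * Real.exp (-z.2)) (x, r) with hu
  have hum : Measurable (Function.uncurry u) :=
    ((hf.comp measurable_fst).mul (measurable_snd.neg.exp)).indicator hSm
  have hue : ∀ x ∈ orth n, u x = (Ici (G x)).indicator (fun r => f x * Real.exp (-r)) := by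
    intro x hx
    funext r
    by_cases hr : G x ≤ r <;> simp [hu, hS, hG'eq x hx, hr]
  have hei : IntegrableOn (fun r : ℝ => Real.exp (-r)) (Ioi 0) := integrableOn_exp_neg_Ioi 0
  have hsec : ∀ x ∈ orth n, ∀ c : ℝ,
      ∫ r in Ioi (0 : ℝ), (Ici (G x)).indicator (fun r => c * Real.exp (-r)) r
        = c * Real.exp (-G x) := by
    intro x hx c
    have hset : (Ioi (0 : ℝ) ∩ Ici (G x) : Set ℝ) =ᵐ[volume] Ioi (G x) := by
      refine ((ae_eq_refl (Ioi (0 : ℝ))).inter Ioi_ae_eq_Ici.symm).trans ?_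
      rw [Ioi_inter_Ioi, sup_eq_right.2 (h.nonneg hx)]; exact ae_eq_refl _
    rw [setIntegral_indicator measurableSet_Ici, setIntegral_congr_set hset, integral_const_mul,
      integral_exp_neg_Ioi]
  have hint : Integrable (Function.uncurry u)
      ((volume.restrict (orth n)).prod (volume.restrict (Ioi (0 : ℝ)))) := by
    rw [integrable_prod_iff hum.aestronglyMeasurable]
    refine ⟨?_, ?_⟩
    · filter_upwards [ae_restrict_mem measurableSet_orth] with x hx
      show Integrable (u x) _
      rw [hue x hx]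
      exact (hei.const_mul _).indicator measurableSet_Ici
    · refine (h.integrableOn_exp_mul (f := fun x => |f x|) hf.abs.aestronglyMeasurable
        fun x hx => by rw [abs_abs]; exact hb x hx).congr ?_
      filter_upwards [ae_restrict_mem measurableSet_orth] with x hx
      show |f x| * Real.exp (-G x) = ∫ r, ‖u x r‖ ∂volume.restrict (Ioi 0)
      rw [← hsec x hx |f x|]
      refine integral_congr_ae (Eventually.of_forall fun r => ?_)
      by_cases hr : G x ≤ r <;> simp [hue x hx, hr]
  have hswap := integral_integral_swap hint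
  have hl : (∫ x in orth n, ∫ r in Ioi (0 : ℝ), u x r) = expInt G f := by
    refine setIntegral_congr_fun measurableSet_orth fun x hx => ?_
    show (∫ r in Ioi (0 : ℝ), u x r) = _
    rw [hue x hx, hsec x hx]
  have hr : ∀ r ∈ Ioi (0 : ℝ), (∫ x in orth n, u x r)
      = (∫ x in body G, f x) * (Real.exp (-r) * r ^ ((n + d : ℕ) + 1 - 1 : ℝ)) := by
    intro r hr
    have e : ∀ x, u x r = {x | G' x ≤ r}.indicator (fun x => f x * Real.exp (-r)) x := fun x => by
      by_cases hx : G' x ≤ r <;> simp [hu, hS, hx]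
    simp only [e]
    rw [setIntegral_indicator (measurableSet_le hG'm measurable_const),
      show orth n ∩ {x | G' x ≤ r} = {x | x ∈ orth n ∧ G x ≤ r} by
        ext x; exact and_congr_right fun hx => by rw [mem_ofPred_eq, hG'eq x hx],
      integral_mul_const, h.setIntegral_dilate hhom hr, add_sub_cancel_right, Real.rpow_natCast]
    ring
  rw [← hl, hswap, setIntegral_congr_fun measurableSet_Ioi hr, integral_const_mul,
    ← Real.Gamma_eq_integral (by positivity), Real.Gamma_nat_eq_factorial]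
  ring

lemma IsGauge.zexp_eq : Zexp G = n ! * vol G := by
  have := h.radial (f := fun _ => (1 : ℝ)) (d := 0) (B := 1) (p := 0) measurable_const
    (fun _ _ _ _ => by simp) (fun _ _ => by simp)
  simpa [Zexp, vol, Measure.real] using this

lemma IsGauge.momExp_eq (i : Fin n) : momExp G i = (n + 1)! * mom G i := by
  refine h.radial (f := fun x => x i) (d := 1) (B := (G (unit i))⁻¹) (p := 1) (measurable_pi_apply i)
    (fun x _ r _ => by simp) (fun x hx => ?_)
  rw [abs_of_nonneg (hx i), pow_one, inv_mul_eq_div, le_div_iff₀ (h.unit_pos i)]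
  linarith [h.coord_le hx i]

lemma IsGauge.zexp_pos : 0 < Zexp G := by
  rw [h.zexp_eq]; exact mul_pos (by positivity) h.vol_pos

lemma IsGauge.momExp_pos (i : Fin n) : 0 < momExp G i := by
  rw [h.momExp_eq]; exact mul_pos (by positivity) (h.mom_pos i)

/-- The functional in terms of the body. -/
lemma IsGauge.fn_eq : Fn G = ((n : ℝ) + 1) * Real.log (vol G) - ∑ i, Real.log (mom G i)
    + (((n : ℝ) + 1) * Real.log (n ! : ℝ) - n * Real.log ((n + 1)! : ℝ)) := by
  have e : ∀ i, Real.log (momExp G i) = Real.log ((n + 1)! : ℝ) + Real.log (mom G i) := fun i => by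
    rw [h.momExp_eq, Real.log_mul (by positivity) (h.mom_pos i).ne']
  rw [Fn, h.zexp_eq, Real.log_mul (by positivity) h.vol_pos.ne', Finset.sum_congr rfl fun i _ => e i,
    Finset.sum_add_distrib, Finset.sum_const, Finset.card_univ, Fintype.card_fin, nsmul_eq_mul]
  ring

end Body

lemma IsSub.aestronglyMeasurable {Ψ : (Fin n → ℝ) → ℝ} (h : IsSub Ψ) :
    AEStronglyMeasurable Ψ (volume.restrict (orth n)) :=
  h.continuousOn.aestronglyMeasurable measurableSet_orth

/-- Products of two functions of linear growth are integrable against `exp (-G)`. -/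
lemma IsGauge.integrable_pair {G a b : (Fin n → ℝ) → ℝ} (hG : IsGauge G)
    (ha : AEStronglyMeasurable a (volume.restrict (orth n)))
    (hb : AEStronglyMeasurable b (volume.restrict (orth n))) {A B : ℝ}
    (hA : ∀ x ∈ orth n, |a x| ≤ A * G x) (hB : ∀ x ∈ orth n, |b x| ≤ B * G x) :
    IntegrableOn (fun x => a x * b x * Real.exp (-G x)) (orth n) := by
  refine hG.integrableOn_exp_mul (B := |A| * |B|) (p := 2) (ha.mul hb) fun x hx => ?_
  have hg := hG.nonneg hx
  calc |a x * b x| = |a x| * |b x| := abs_mul _ _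
    _ ≤ (|A| * G x) * (|B| * G x) := mul_le_mul
        ((hA x hx).trans (mul_le_mul_of_nonneg_right (le_abs_self A) hg))
        ((hB x hx).trans (mul_le_mul_of_nonneg_right (le_abs_self B) hg))
        (abs_nonneg _) (by positivity)
    _ = |A| * |B| * G x ^ 2 := by ring
    _ ≤ |A| * |B| * (1 + G x) ^ 2 := mul_le_mul_of_nonneg_left
        (pow_le_pow_left₀ hg (by linarith) 2) (by positivity)

lemma isSub_linear (a : Fin n → ℝ) : IsSub fun x => ∑ i, x i * a i := by
  refine ⟨fun x _ r _ => ?_, fun x _ y _ => le_of_eq ?_,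
    ∑ i, |a i|, Finset.sum_nonneg fun i _ => abs_nonneg _, fun x _ y _ => ?_⟩
  · rw [Finset.mul_sum]; exact Finset.sum_congr rfl fun i _ => by simp [mul_assoc]
  · rw [← Finset.sum_add_distrib]; exact Finset.sum_congr rfl fun i _ => by simp [add_mul]
  · rw [← Finset.sum_sub_distrib, Finset.mul_sum]
    refine (Finset.abs_sum_le_sum_abs _ _).trans (Finset.sum_le_sum fun i _ => ?_)
    rw [← sub_mul, abs_mul, mul_comm]
    exact mul_le_mul_of_nonneg_right (Finset.single_le_sum (f := fun j => |a j|)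
      (fun j _ => abs_nonneg _) (Finset.mem_univ i)) (abs_nonneg _)

lemma isSub_wsum (G : (Fin n → ℝ) → ℝ) : IsSub (wsum G) :=
  isSub_linear fun i => Zexp G / momExp G i

lemma update_eq_add_smul (x : Fin n → ℝ) (j : Fin n) (y : ℝ) :
    update x j y = update x j 0 + y • unit j := by
  funext i
  by_cases hi : i = j
  · subst hi; simp [unit]
  · simp [unit, hi]

end Vale.Agent.P254.CT
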