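import Mathlib

/-!
One-variable lemmas for the averaging operator: the limit of penalised infima and the projection
of a convex function on an interval given by the least initial average.
-/

noncomputable section

open MeasureTheory Set Filter
open scoped Topology

namespace Vale.Agent.P254.CT

/-- Penalised infima converge to the constrained minimum. -/
lemma tendsto_penalty {f e : ℝ → ℝ} {m T k₀ : ℝ} (hf : ContinuousOn f (Ici 0))
    (he : ContinuousOn e (Ici 0)) (he0 : ∀ t, 0 ≤ t → 0 ≤ e t) {t₀ : ℝ} (ht₀ : 0 ≤ t₀)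
    (het₀ : e t₀ = 0) (hm : f t₀ = m) (hmin : ∀ t, 0 ≤ t → e t = 0 → m ≤ f t)
    (htail : ∀ k, k₀ ≤ k → ∀ t, T ≤ t → 0 ≤ t → m ≤ f t + k * e t) :
    Tendsto (fun k : ℝ => ⨅ t : Ici (0 : ℝ), (f t + k * e t)) atTop (𝓝 m) := by
  rw [Metric.tendsto_atTop]
  intro ε hε
  set C : Set ℝ := {t | t ∈ Icc 0 T ∧ f t ≤ m - ε / 2} with hC
  have hCc : IsCompact C := by
    have hcl : IsClosed C :=
      (hf.mono Icc_subset_Ici_self).preimage_isClosed_of_isClosed isClosed_Icc isClosed_Iic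
    exact isCompact_Icc.of_isClosed_subset hcl fun t ht => ht.1
  obtain ⟨e₁, he₁, hCe⟩ : ∃ e₁ : ℝ, 0 < e₁ ∧ ∀ t ∈ C, e₁ ≤ e t := by
    rcases C.eq_empty_or_nonempty with h | h
    · exact ⟨1, one_pos, by simp [h]⟩
    obtain ⟨tm, htm, hmn⟩ := hCc.exists_isMinOn h (he.mono fun t ht => ht.1.1)
    refine ⟨e tm, (he0 tm htm.1.1).lt_of_ne fun hz => ?_, fun t ht => hmn ht⟩
    linarith [hmin tm htm.1.1 hz.symm, htm.2]
  obtain ⟨B, hB⟩ : ∃ B : ℝ, ∀ t ∈ Icc 0 T, m - B ≤ f t := by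
    rcases (Icc (0 : ℝ) T).eq_empty_or_nonempty with h | h
    · exact ⟨0, by simp [h]⟩
    obtain ⟨tm, _, hmn⟩ := isCompact_Icc.exists_isMinOn h (hf.mono Icc_subset_Ici_self)
    exact ⟨m - f tm, fun t ht => by linarith [show f tm ≤ f t from hmn ht]⟩
  refine ⟨max k₀ (max 0 (B / e₁)), fun k hk => ?_⟩
  simp only [max_le_iff] at hk
  have hlow : ∀ t : Ici (0 : ℝ), m - ε / 2 ≤ f t + k * e t := by
    rintro ⟨t, ht⟩
    rw [mem_Ici] at ht
    have hke : 0 ≤ k * e t := mul_nonneg hk.2.1 (he0 t ht)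
    rcases le_total T t with hT | hT
    · linarith [htail k hk.1 t hT ht]
    by_cases hft : f t ≤ m - ε / 2
    · have h1 := hCe t ⟨⟨ht, hT⟩, hft⟩
      have h2 : B ≤ k * e₁ := (div_le_iff₀ he₁).1 hk.2.2
      have h3 := mul_le_mul_of_nonneg_left h1 hk.2.1
      linarith [hB t ⟨ht, hT⟩]
    · linarith [not_le.1 hft]
  have h1 : (⨅ t : Ici (0 : ℝ), (f t + k * e t)) ≤ m :=
    (ciInf_le ⟨m - ε / 2, forall_mem_range.2 hlow⟩ ⟨t₀, ht₀⟩).trans (by simp [het₀, hm])
  have h2 := le_ciInf hlow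
  rw [Real.dist_eq, abs_lt]
  constructor <;> linarith

/-- The least initial average of a convex function on an interval. -/
lemma exists_projection {ψ : ℝ → ℝ} {l : ℝ} (hl : 0 ≤ l) (hc : ContinuousOn ψ (Icc 0 l))
    (hconv : ConvexOn ℝ (Icc 0 l) ψ) :
    ∃ τ ∈ Icc 0 l, ∃ m : ℝ, (∫ θ in (0 : ℝ)..1, ψ (θ * τ)) = m ∧
      (∀ t ∈ Icc 0 l, m ≤ ∫ θ in (0 : ℝ)..1, ψ (θ * t)) ∧
      (∫ y in (0 : ℝ)..τ, ψ y) = τ * m ∧
      (∀ y ∈ Icc 0 l, y ≤ τ → ∃ s ∈ Icc y l, ψ s ≤ m) ∧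
      (∀ y ∈ Icc 0 l, τ < y → m ≤ ψ y ∧ ∀ s ∈ Icc y l, ψ y ≤ ψ s) := by
  set A : ℝ → ℝ := fun t => ∫ θ in (0 : ℝ)..1, ψ (θ * t) with hA
  have hmem : ∀ t ∈ Icc 0 l, ∀ θ ∈ Icc (0 : ℝ) 1, θ * t ∈ Icc 0 l := fun t ht θ hθ =>
    ⟨mul_nonneg hθ.1 ht.1, (mul_le_of_le_one_left ht.1 hθ.2).trans ht.2⟩
  have hAt : ∀ t, t * A t = ∫ y in (0 : ℝ)..t, ψ y := fun t => by
    have := intervalIntegral.smul_integral_comp_mul_right (a := (0 : ℝ)) (b := 1) ψ t
    simpa [hA] using this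
  have hAc : ContinuousOn A (Icc 0 l) := by
    set φ : ℝ → ℝ := IccExtend hl ((Icc 0 l).restrict ψ) with hφ
    have hφc : Continuous φ := hc.restrict.Icc_extend'
    have h2 : Continuous fun t : ℝ => ∫ θ in (0 : ℝ)..1, φ (θ * t) :=
      intervalIntegral.continuous_parametric_intervalIntegral_of_continuous'
        (f := fun t θ => φ (θ * t)) (hφc.comp (continuous_snd.mul continuous_fst)) 0 1
    refine h2.continuousOn.congr fun t ht => intervalIntegral.integral_congr fun θ hθ => ?_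
    rw [uIcc_of_le zero_le_one] at hθ
    exact (IccExtend_of_mem hl ((Icc 0 l).restrict ψ) (hmem t ht θ hθ)).symm
  obtain ⟨τ, hτ, hmn⟩ := isCompact_Icc.exists_isMinOn (nonempty_Icc.2 hl) hAc
  set m := A τ with hm
  have hle : ∀ t ∈ Icc 0 l, m ≤ A t := fun t ht => hmn ht
  have hint : ∀ a b, a ∈ Icc 0 l → b ∈ Icc 0 l → IntervalIntegrable ψ volume a b := fun a b ha hb =>
    (hc.mono (uIcc_subset_Icc ha hb)).intervalIntegrable
  have hsum : ∀ t ∈ Icc 0 l, t * m ≤ ∫ y in (0 : ℝ)..t, ψ y := fun t ht => by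
    rw [← hAt]; exact mul_le_mul_of_nonneg_left (hle t ht) ht.1
  have hτle : ψ τ ≤ m := by
    rcases eq_or_lt_of_le hτ.1 with h0 | h0
    · rw [hm, ← h0]; simp [hA]
    by_contra hno
    rw [not_le] at hno
    obtain ⟨c, hc1, hc2⟩ := exists_between hno
    have hev : ∀ᶠ y in 𝓝[Icc 0 l] τ, c < ψ y := (hc τ hτ).eventually (eventually_gt_nhds hc2)
    obtain ⟨ε, hε, hball⟩ := Metric.mem_nhdsWithin_iff.1 hev
    set a := max 0 (τ - ε / 2)
    have ha : a ∈ Icc 0 l := ⟨le_max_left _ _, max_le hl (by linarith [hτ.2])⟩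
    have haτ : a < τ := max_lt h0 (by linarith)
    have h1 : (∫ _y in a..τ, c) ≤ ∫ y in a..τ, ψ y := by
      refine intervalIntegral.integral_mono_on haτ.le intervalIntegrable_const (hint a τ ha hτ)
        fun y hy => (hball ⟨?_, ha.1.trans hy.1, hy.2.trans hτ.2⟩).le
      rw [Metric.mem_ball, Real.dist_eq, abs_lt]
      constructor <;> linarith [hy.1, hy.2, le_max_right 0 (τ - ε / 2)]
    have h2 := intervalIntegral.integral_add_adjacent_intervals
      (hint 0 a ⟨le_rfl, hl⟩ ha) (hint a τ ha hτ)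
    rw [← hAt τ, ← hm] at h2
    rw [intervalIntegral.integral_const, smul_eq_mul] at h1
    nlinarith [hsum a ha, mul_lt_mul_of_pos_left hc1 (sub_pos.2 haτ)]
  have hge : ∀ b ∈ Icc 0 l, τ < b → m ≤ ψ b := by
    intro b hb hτb
    by_contra hno
    rw [not_le] at hno
    -- the chord from `τ` to `b` lies below `m`, strictly near `b`
    have hch : ∀ y ∈ Icc τ b, ψ y ≤ m - (y - τ) / (b - τ) * (m - ψ b) := by
      intro y hy
      set w := (y - τ) / (b - τ) with hw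
      have hw0 : 0 ≤ w := div_nonneg (by linarith [hy.1]) (by linarith)
      have hw1 : w ≤ 1 := (div_le_one (by linarith)).2 (by linarith [hy.2])
      have h3 := hconv.2 hτ hb (sub_nonneg.2 hw1) hw0 (sub_add_cancel 1 w)
      have hyw : (1 - w) * τ + w * b = y := by
        rw [hw]; field_simp [(sub_pos.2 hτb).ne']; ring
      simp only [smul_eq_mul, hyw] at h3
      nlinarith [mul_le_mul_of_nonneg_left hτle (show (0 : ℝ) ≤ 1 - w by linarith)]
    have h1 : (∫ y in τ..b, ψ y) ≤ ∫ y in τ..b, (m - (y - τ) / (b - τ) * (m - ψ b)) :=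
      intervalIntegral.integral_mono_on hτb.le (hint τ b hτ hb)
        (Continuous.intervalIntegrable (by fun_prop) _ _) hch
    have h4 : (∫ y in τ..b, (m - (y - τ) / (b - τ) * (m - ψ b)))
        = (b - τ) * m - (b - τ) / 2 * (m - ψ b) := by
      rw [intervalIntegral.integral_sub intervalIntegrable_const
          (Continuous.intervalIntegrable (by fun_prop) _ _),
        intervalIntegral.integral_mul_const, intervalIntegral.integral_div,
        intervalIntegral.integral_comp_sub_right (fun y => y), integral_id,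
        intervalIntegral.integral_const, smul_eq_mul]
      field_simp [(sub_pos.2 hτb).ne']
      ring
    have h2 := intervalIntegral.integral_add_adjacent_intervals
      (hint 0 τ ⟨le_rfl, hl⟩ hτ) (hint τ b hτ hb)
    rw [← hAt τ, ← hm] at h2
    nlinarith [hsum b hb, mul_pos (sub_pos.2 hτb) (sub_pos.2 hno)]
  refine ⟨τ, hτ, m, hm.symm, hle, (hAt τ).symm, fun y hy hyτ => ⟨τ, ⟨hyτ, hτ.2⟩, hτle⟩,
    fun y hy hτy => ⟨hge y hy hτy, fun s hs => ?_⟩⟩
  rcases eq_or_lt_of_le hs.1 with hys | hys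
  · rw [hys]
  set w := (y - τ) / (s - τ) with hw
  have hw0 : 0 < w := div_pos (by linarith) (by linarith)
  have hw1 : w ≤ 1 := (div_le_one (by linarith)).2 (by linarith)
  have hsl : s ∈ Icc 0 l := ⟨hy.1.trans hs.1, hs.2⟩
  have h3 := hconv.2 hτ hsl (sub_nonneg.2 hw1) hw0.le (sub_add_cancel 1 w)
  have hyw : (1 - w) * τ + w * s = y := by
    rw [hw]; field_simp [(show s - τ ≠ 0 by linarith)]; ring
  simp only [smul_eq_mul, hyw] at h3
  nlinarith [mul_le_mul_of_nonneg_left (hτle.trans (hge y hy hτy)) (show (0 : ℝ) ≤ 1 - w by linarith)]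

end Vale.Agent.P254.CT
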