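import Mathlib
import Vale.Agent.P254.CT.Base
import Vale.Agent.P254.CT.Penalty

/-!
The penalised averaging operator in one coordinate: sublinearity, bounds, and pointwise limits.
-/

noncomputable section

open MeasureTheory Set Function Filter
open scoped BigOperators Topology

namespace Vale.Agent.P254.CT

variable {n : ℕ}

lemma isSub_iInf {Φ : (Fin n → ℝ) → ℝ → ℝ}
    (hom : ∀ x ∈ orth n, ∀ s : ℝ, 0 ≤ s → ∀ r : ℝ, 0 ≤ r → Φ (r • x) (r * s) = r * Φ x s)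
    (sub : ∀ x ∈ orth n, ∀ y ∈ orth n, ∀ s t : ℝ, 0 ≤ s → 0 ≤ t →
      Φ (x + y) (s + t) ≤ Φ x s + Φ y t)
    (lip : ∃ L : ℝ, 0 ≤ L ∧ ∀ x ∈ orth n, ∀ y ∈ orth n, ∀ s : ℝ, 0 ≤ s →
      |Φ x s - Φ y s| ≤ L * ∑ i, |x i - y i|)
    (nonneg : ∀ x ∈ orth n, ∀ s : ℝ, 0 ≤ s → 0 ≤ Φ x s) :
    IsSub fun x => ⨅ s : Ici (0 : ℝ), Φ x s := by
  have hb : ∀ x ∈ orth n, BddBelow (range fun s : Ici (0 : ℝ) => Φ x s) := fun x hx =>
    ⟨0, forall_mem_range.2 fun s => nonneg x hx s s.2⟩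
  have hle : ∀ x ∈ orth n, ∀ r : ℝ, 0 < r →
      (⨅ s : Ici (0 : ℝ), Φ (r • x) s) ≤ r * ⨅ s : Ici (0 : ℝ), Φ x s := by
    intro x hx r hr
    rw [Real.mul_iInf_of_nonneg hr.le]
    refine le_ciInf fun s => ?_
    rw [← hom x hx s s.2 r hr.le]
    exact ciInf_le (hb _ (smul_mem_orth hx hr.le)) ⟨r * s, mul_nonneg hr.le s.2⟩
  refine ⟨fun x hx r hr => ?_, fun x hx y hy => ?_, ?_⟩
  · rcases eq_or_lt_of_le hr with h | h
    · subst h
      rw [zero_mul]
      refine le_antisymm ((ciInf_le (hb _ (smul_mem_orth hx le_rfl)) ⟨0, self_mem_Ici⟩).trans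
        (le_of_eq ?_)) (le_ciInf fun s => nonneg _ (smul_mem_orth hx le_rfl) s s.2)
      have := hom x hx 0 le_rfl 0 le_rfl
      simpa using this
    · refine le_antisymm (hle x hx r h) ?_
      have h2 := hle _ (smul_mem_orth hx hr) r⁻¹ (inv_pos.2 h)
      rw [inv_smul_smul₀ h.ne'] at h2
      exact (le_inv_mul_iff₀ h).1 h2
  · rw [← sub_le_iff_le_add]
    refine le_ciInf fun s => ?_
    rw [sub_le_comm]
    refine le_ciInf fun t => ?_
    rw [sub_le_iff_le_add']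
    exact (ciInf_le (hb _ (add_mem_orth hx hy)) ⟨s + t, mem_Ici.2 (add_nonneg (mem_Ici.1 s.2) (mem_Ici.1 t.2))⟩).trans
      (sub x hx y hy s t s.2 t.2)
  · obtain ⟨L, hL0, hL⟩ := lip
    refine ⟨L, hL0, fun x hx y hy => ?_⟩
    have one : ∀ a ∈ orth n, ∀ b ∈ orth n,
        (⨅ s : Ici (0 : ℝ), Φ a s) - L * ∑ i, |a i - b i| ≤ ⨅ s : Ici (0 : ℝ), Φ b s :=
      fun a ha b hb' => le_ciInf fun s => by
        have := abs_le.1 (hL a ha b hb' s s.2)
        linarith [ciInf_le (hb a ha) s]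
    rw [abs_le]
    refine ⟨?_, by linarith [one x hx y hy]⟩
    have := one y hy x hx
    rw [Finset.sum_congr rfl fun i _ => abs_sub_comm (y i) (x i)] at this
    linarith

lemma IsSub.sup {a b : (Fin n → ℝ) → ℝ} (ha : IsSub a) (hb : IsSub b) :
    IsSub fun x => max (a x) (b x) := by
  obtain ⟨A, hA0, hA⟩ := ha.lip
  obtain ⟨B, hB0, hB⟩ := hb.lip
  refine ⟨fun x hx r hr => by rw [ha.hom x hx r hr, hb.hom x hx r hr, mul_max_of_nonneg _ _ hr],
    fun x hx y hy => max_le ((ha.sub x hx y hy).trans (add_le_add (le_max_left _ _) (le_max_left _ _)))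
      ((hb.sub x hx y hy).trans (add_le_add (le_max_right _ _) (le_max_right _ _))),
    max A B, le_max_of_le_left hA0, fun x hx y hy => ?_⟩
  refine (abs_max_sub_max_le_max _ _ _ _).trans (max_le ?_ ?_)
  · exact (hA x hx y hy).trans (mul_le_mul_of_nonneg_right (le_max_left _ _)
      (Finset.sum_nonneg fun i _ => abs_nonneg _))
  · exact (hB x hx y hy).trans (mul_le_mul_of_nonneg_right (le_max_right _ _)
      (Finset.sum_nonneg fun i _ => abs_nonneg _))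

lemma IsSub.add_gauge {G Ψ : (Fin n → ℝ) → ℝ} (hΨ : IsSub Ψ) (hG : IsGauge G) {c : ℝ}
    (hc : 0 ≤ c) : IsSub fun x => Ψ x + c * G x := by
  obtain ⟨L, hL0, hL⟩ := hΨ.lip
  obtain ⟨L', hL0', hL'⟩ := hG.isSub.lip
  refine ⟨fun x hx r hr => by rw [hΨ.hom x hx r hr, hG.hom x hx r hr]; ring,
    fun x hx y hy => by
      nlinarith [hΨ.sub x hx y hy, mul_le_mul_of_nonneg_left (hG.sub x hx y hy) hc],
    L + c * L', by positivity, fun x hx y hy => ?_⟩
  calc |Ψ x + c * G x - (Ψ y + c * G y)| = |(Ψ x - Ψ y) + c * (G x - G y)| := by ring_nf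
    _ ≤ |Ψ x - Ψ y| + |c * (G x - G y)| := abs_add_le _ _
    _ ≤ L * (∑ i, |x i - y i|) + c * (L' * ∑ i, |x i - y i|) := add_le_add (hL x hx y hy)
        (by rw [abs_mul, abs_of_nonneg hc]; exact mul_le_mul_of_nonneg_left (hL' x hx y hy) hc)
    _ = (L + c * L') * ∑ i, |x i - y i| := by ring

/-- Setting coordinate `j` to zero. -/
def zeroAt (j : Fin n) (x : Fin n → ℝ) : Fin n → ℝ := update x j 0

lemma zeroAt_mem {x : Fin n → ℝ} (hx : x ∈ orth n) (j : Fin n) : zeroAt j x ∈ orth n :=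
  update_mem_orth hx j le_rfl

lemma zeroAt_add (j : Fin n) (x y : Fin n → ℝ) : zeroAt j (x + y) = zeroAt j x + zeroAt j y := by
  funext i; by_cases h : i = j <;> simp [zeroAt, h]

lemma zeroAt_smul (j : Fin n) (r : ℝ) (x : Fin n → ℝ) : zeroAt j (r • x) = r • zeroAt j x := by
  funext i; by_cases h : i = j <;> simp [zeroAt, h]

lemma zeroAt_abs (j : Fin n) (x y : Fin n → ℝ) :
    ∑ i, |zeroAt j x i - zeroAt j y i| ≤ ∑ i, |x i - y i| :=
  Finset.sum_le_sum fun i _ => by by_cases h : i = j <;> simp [zeroAt, h]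

lemma ray_mem {x : Fin n → ℝ} (hx : x ∈ orth n) (j : Fin n) {s : ℝ} (hs : 0 ≤ s) :
    x + s • unit j ∈ orth n :=
  add_mem_orth hx (smul_mem_orth (unit_mem_orth j) hs)

lemma IsSub.continuousOn_ray {Ψ : (Fin n → ℝ) → ℝ} (h : IsSub Ψ) {x : Fin n → ℝ} (hx : x ∈ orth n)
    (j : Fin n) : ContinuousOn (fun s : ℝ => Ψ (x + s • unit j)) (Ici 0) :=
  h.continuousOn.comp (by fun_prop) fun _ hs => ray_mem hx j hs

lemma IsSub.convexOn_ray {Ψ : (Fin n → ℝ) → ℝ} (h : IsSub Ψ) {x : Fin n → ℝ} (hx : x ∈ orth n)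
    (j : Fin n) : ConvexOn ℝ (Ici 0) (fun s : ℝ => Ψ (x + s • unit j)) := by
  refine ⟨convex_Ici 0, fun s hs t ht a b ha hb hab => ?_⟩
  have e : x + (a • s + b • t) • unit j = a • (x + s • unit j) + b • (x + t • unit j) := by
    have : a • x + b • x = x := by rw [← add_smul, hab, one_smul]
    calc x + (a • s + b • t) • unit j
        = (a • x + b • x) + ((a * s) • unit j + (b * t) • unit j) := by
          rw [this, ← add_smul, smul_eq_mul, smul_eq_mul]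
      _ = _ := by simp only [smul_add, smul_smul]; abel
  simp only [smul_eq_mul] at e ⊢
  rw [e]
  refine (h.sub _ (smul_mem_orth (ray_mem hx j hs) ha) _ (smul_mem_orth (ray_mem hx j ht) hb)).trans ?_
  rw [h.hom _ (ray_mem hx j hs) a ha, h.hom _ (ray_mem hx j ht) b hb]

/-- Average of `Ψ` on an initial interval of the line through `x` in direction `j`. -/
def avgRay (Ψ : (Fin n → ℝ) → ℝ) (j : Fin n) (x : Fin n → ℝ) (t : ℝ) : ℝ :=
  ∫ θ in (0 : ℝ)..1, Ψ (zeroAt j x + (θ * t) • unit j)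

lemma continuousOn_avg_integrand {Ψ : (Fin n → ℝ) → ℝ} (h : IsSub Ψ) {x : Fin n → ℝ}
    (hx : x ∈ orth n) (j : Fin n) {t : ℝ} (ht : 0 ≤ t) :
    ContinuousOn (fun θ : ℝ => Ψ (zeroAt j x + (θ * t) • unit j)) (Icc 0 1) :=
  h.continuousOn.comp (by fun_prop) fun θ hθ =>
    ray_mem (zeroAt_mem hx j) j (mul_nonneg hθ.1 ht)

lemma intervalIntegrable_avg {Ψ : (Fin n → ℝ) → ℝ} (h : IsSub Ψ) {x : Fin n → ℝ}
    (hx : x ∈ orth n) (j : Fin n) {t : ℝ} (ht : 0 ≤ t) :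
    IntervalIntegrable (fun θ : ℝ => Ψ (zeroAt j x + (θ * t) • unit j)) volume 0 1 :=
  (continuousOn_avg_integrand h hx j ht).intervalIntegrable_of_Icc zero_le_one

/-- The operator. -/
def avgOp (Φ : (Fin n → ℝ) → ℝ) (j : Fin n) (x : Fin n → ℝ) : ℝ :=
  max (⨅ t : Ici (0 : ℝ), avgRay Φ j x t) (⨅ s : Ici (0 : ℝ), Φ (x + (s : ℝ) • unit j))

section Op

variable {Φ : (Fin n → ℝ) → ℝ} (h : IsSub Φ) (h0 : ∀ x ∈ orth n, 0 ≤ Φ x) (j : Fin n)
include h h0

lemma avgRay_nonneg {x : Fin n → ℝ} (hx : x ∈ orth n) {t : ℝ} (ht : 0 ≤ t) :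
    0 ≤ avgRay Φ j x t :=
  intervalIntegral.integral_nonneg zero_le_one fun θ hθ =>
    h0 _ (ray_mem (zeroAt_mem hx j) j (mul_nonneg hθ.1 ht))

lemma isSub_avgOp : IsSub (avgOp Φ j) := by
  obtain ⟨L, hL0, hL⟩ := h.lip
  refine IsSub.sup (isSub_iInf (Φ := fun x t => avgRay Φ j x t) ?_ ?_ ?_
      fun x hx t ht => avgRay_nonneg h h0 j hx ht)
    (isSub_iInf (Φ := fun x s => Φ (x + s • unit j)) ?_ ?_ ?_
      fun x hx s hs => h0 _ (ray_mem hx j hs))
  · intro x hx t ht r hr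
    rw [avgRay, avgRay, ← intervalIntegral.integral_const_mul]
    refine intervalIntegral.integral_congr fun θ hθ => ?_
    rw [uIcc_of_le zero_le_one] at hθ
    show Φ _ = _ * Φ _
    rw [← h.hom _ (ray_mem (zeroAt_mem hx j) j (mul_nonneg hθ.1 ht)) r hr, zeroAt_smul, smul_add,
      smul_smul]
    ring_nf
  · intro x hx y hy s t hs ht
    rw [avgRay, avgRay, avgRay, ← intervalIntegral.integral_add (intervalIntegrable_avg h hx j hs)
      (intervalIntegrable_avg h hy j ht)]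
    refine intervalIntegral.integral_mono_on zero_le_one
      (intervalIntegrable_avg h (add_mem_orth hx hy) j (add_nonneg hs ht))
      ((intervalIntegrable_avg h hx j hs).add (intervalIntegrable_avg h hy j ht)) fun θ hθ => ?_
    refine le_trans (le_of_eq ?_) (h.sub _ (ray_mem (zeroAt_mem hx j) j (mul_nonneg hθ.1 hs)) _
      (ray_mem (zeroAt_mem hy j) j (mul_nonneg hθ.1 ht)))
    rw [zeroAt_add, mul_add, add_smul]
    congr 1
    abel
  · refine ⟨L, hL0, fun x hx y hy t ht => ?_⟩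
    rw [avgRay, avgRay, ← intervalIntegral.integral_sub (intervalIntegrable_avg h hx j ht)
      (intervalIntegrable_avg h hy j ht)]
    refine (intervalIntegral.norm_integral_le_of_norm_le_const (C := L * ∑ i, |x i - y i|)
      (f := fun θ => Φ (zeroAt j x + (θ * t) • unit j) - Φ (zeroAt j y + (θ * t) • unit j))
      fun θ hθ => ?_).trans (by simp)
    rw [uIoc_of_le zero_le_one] at hθ
    rw [Real.norm_eq_abs]
    refine (hL _ (ray_mem (zeroAt_mem hx j) j (mul_nonneg hθ.1.le ht)) _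
      (ray_mem (zeroAt_mem hy j) j (mul_nonneg hθ.1.le ht))).trans
      (mul_le_mul_of_nonneg_left ?_ hL0)
    simpa using zeroAt_abs j x y
  · intro x hx s hs r hr
    rw [← h.hom _ (ray_mem hx j hs) r hr, smul_add, smul_smul]
  · intro x hx y hy s t hs ht
    refine le_trans (le_of_eq ?_) (h.sub _ (ray_mem hx j hs) _ (ray_mem hy j ht))
    rw [add_smul]
    congr 1
    abel
  · refine ⟨L, hL0, fun x hx y hy s hs => ?_⟩
    simpa using hL _ (ray_mem hx j hs) _ (ray_mem hy j hs)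

lemma monIn_avgOp : MonIn j (avgOp Φ j) := by
  intro x hx s hs
  have hz : zeroAt j (x + s • unit j) = zeroAt j x := by
    funext i; by_cases hi : i = j <;> simp [zeroAt, unit, hi]
  refine max_le_max (le_of_eq (by simp only [avgRay, hz])) (le_ciInf fun t => ?_)
  refine le_trans (ciInf_le ⟨0, forall_mem_range.2 fun u : Ici (0 : ℝ) =>
    h0 _ (ray_mem hx j u.2)⟩ ⟨s + t, mem_Ici.2 (add_nonneg hs (mem_Ici.1 t.2))⟩) (le_of_eq ?_)
  simp only [add_smul, add_assoc]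

lemma monIn_avgOp_of_monIn {i : Fin n} (hi : MonIn i Φ) : MonIn i (avgOp Φ j) := by
  by_cases hij : i = j
  · subst hij; exact monIn_avgOp h h0 i
  intro x hx s hs
  have hz : zeroAt j (x + s • unit i) = zeroAt j x + s • unit i := by
    funext k
    by_cases hk : k = j
    · subst hk; simp [zeroAt, unit, Ne.symm hij]
    · simp [zeroAt, hk]
  refine max_le_max (ciInf_mono ⟨0, forall_mem_range.2 fun t : Ici (0 : ℝ) =>
      avgRay_nonneg h h0 j hx t.2⟩ fun t => ?_)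
    (ciInf_mono ⟨0, forall_mem_range.2 fun t : Ici (0 : ℝ) => h0 _ (ray_mem hx j t.2)⟩ fun t => ?_)
  · refine intervalIntegral.integral_mono_on zero_le_one (intervalIntegrable_avg h hx j t.2)
      (intervalIntegrable_avg h (ray_mem hx i hs) j t.2) fun θ hθ => ?_
    rw [hz, add_right_comm]
    exact hi _ (ray_mem (zeroAt_mem hx j) j (mul_nonneg hθ.1 t.2)) s hs
  · rw [add_right_comm]
    exact hi _ (ray_mem hx j t.2) s hs

end Op

/-! ### Penalised operator -/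

section Limit

variable {G Ψ : (Fin n → ℝ) → ℝ} (hG : IsGauge G) (hΨ : IsSub Ψ) (j : Fin n)
  {K : ℝ} (hK0 : 0 ≤ K) (hK : ∀ x ∈ orth n, |Ψ x| ≤ K * G x)
include hG hΨ hK0 hK

lemma pen_lower {Λ : ℝ} (hΛ : K ≤ Λ) {x : Fin n → ℝ} (hx : x ∈ orth n) :
    (Λ - K) * G x ≤ Ψ x + Λ * G x := by
  have := abs_le.1 (hK x hx)
  linarith

lemma pen_nonneg {Λ : ℝ} (hΛ : K ≤ Λ) {x : Fin n → ℝ} (hx : x ∈ orth n) :
    0 ≤ Ψ x + Λ * G x :=
  (mul_nonneg (sub_nonneg.2 hΛ) (hG.nonneg hx)).trans (pen_lower hG hΨ hK0 hK hΛ hx)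

lemma pen_bdd {Λ : ℝ} (hΛ : K ≤ Λ) {x : Fin n → ℝ} (hx : x ∈ orth n) :
    BddBelow (range fun t : Ici (0 : ℝ) => avgRay (fun z => Ψ z + Λ * G z) j x t) ∧
    BddBelow (range fun s : Ici (0 : ℝ) => Ψ (x + (s : ℝ) • unit j) + Λ * G (x + (s : ℝ) • unit j)) :=
  ⟨⟨0, forall_mem_range.2 fun t => avgRay_nonneg (hΨ.add_gauge hG (hK0.trans hΛ))
      (fun z hz => pen_nonneg hG hΨ hK0 hK hΛ hz) j hx t.2⟩,
    ⟨0, forall_mem_range.2 fun s => pen_nonneg hG hΨ hK0 hK hΛ (ray_mem hx j s.2)⟩⟩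

lemma zeroAt_le {x : Fin n → ℝ} (hx : x ∈ orth n) : G (zeroAt j x) ≤ G x :=
  hG.mono _ (zeroAt_mem hx j) x hx fun i => by
    by_cases hi : i = j
    · subst hi; simpa [zeroAt] using hx i
    · simp [zeroAt, hi]

lemma avgOp_bound {Λ : ℝ} (hΛ : K ≤ Λ) {x : Fin n → ℝ} (hx : x ∈ orth n) :
    |avgOp (fun z => Ψ z + Λ * G z) j x - Λ * G x| ≤ K * G x := by
  obtain ⟨hb1, hb2⟩ := pen_bdd hG hΨ j hK0 hK hΛ hx
  have hlow : (Λ - K) * G x ≤ ⨅ s : Ici (0 : ℝ), (Ψ (x + (s : ℝ) • unit j)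
      + Λ * G (x + (s : ℝ) • unit j)) := le_ciInf fun s =>
    (mul_le_mul_of_nonneg_left (hG.monIn j x hx s s.2) (sub_nonneg.2 hΛ)).trans
      (pen_lower hG hΨ hK0 hK hΛ (ray_mem hx j s.2))
  have hup1 := ciInf_le hb1 ⟨0, self_mem_Ici⟩
  have hup2 := ciInf_le hb2 ⟨0, self_mem_Ici⟩
  have hA0 : avgRay (fun z => Ψ z + Λ * G z) j x 0 = Ψ (zeroAt j x) + Λ * G (zeroAt j x) := by
    simp [avgRay]
  simp only [hA0] at hup1
  simp only [zero_smul, add_zero] at hup2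
  have h1 := abs_le.1 (hK x hx)
  have h2 := abs_le.1 (hK _ (zeroAt_mem hx j))
  have h3 := mul_le_mul_of_nonneg_left (zeroAt_le hG hΨ j hK0 hK hx) (add_nonneg (hK0.trans hΛ) hK0)
  rw [abs_le]
  constructor
  · have := hlow.trans (le_max_right (⨅ t : Ici (0 : ℝ), avgRay (fun z => Ψ z + Λ * G z) j x t) _)
    show -(K * G x) ≤ max _ _ - _
    linarith
  · show max _ _ - _ ≤ _
    rw [sub_le_iff_le_add]
    exact max_le (by linarith) (by linarith)

end Limit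

end Vale.Agent.P254.CT
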