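import Mathlib
import Vale.Agent.P254.CT.OperatorAux

/-!
Pointwise limits of the penalised averaging operator.
-/

noncomputable section

open MeasureTheory Set Function Filter
open scoped BigOperators Topology

namespace Vale.Agent.P254.CT

variable {n : ℕ} {G Ψ : (Fin n → ℝ) → ℝ}

lemma tendsto_avgPart {ψ e : ℝ → ℝ} {l τ m g K u : ℝ} (hψc : ContinuousOn ψ (Ici 0))
    (hec : ContinuousOn e (Ici 0)) (he0 : ∀ t, 0 ≤ t → 0 ≤ e t) (hu : 0 < u)
    (hl : ∀ t, 0 ≤ t → (e t = 0 ↔ t ≤ l)) (hτ : τ ∈ Icc 0 l)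
    (hmA : (∫ θ in (0 : ℝ)..1, ψ (θ * τ)) = m)
    (hmin : ∀ t ∈ Icc 0 l, m ≤ ∫ θ in (0 : ℝ)..1, ψ (θ * t)) (hK : 0 ≤ K)
    (hlow' : ∀ Λ, 2 * K + 1 ≤ Λ → ∀ t, 0 ≤ t → Λ / 2 * (t * u) - Λ * g ≤ ψ t + Λ * e t) :
    Tendsto (fun Λ : ℝ => ⨅ t : Ici (0 : ℝ),
      ((∫ θ in (0 : ℝ)..1, ψ (θ * t)) + Λ * ∫ θ in (0 : ℝ)..1, e (θ * t))) atTop (𝓝 m) := by
  have hcomp : ∀ f : ℝ → ℝ, ContinuousOn f (Ici 0) →
      ContinuousOn (fun t => ∫ θ in (0 : ℝ)..1, f (θ * t)) (Ici 0) := by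
    intro f hf
    set φ : ℝ → ℝ := fun t => f (max t 0) with hφ
    have hφc : Continuous φ :=
      hf.comp_continuous (continuous_id.max continuous_const) fun t => mem_Ici.2 (le_max_right _ _)
    refine (intervalIntegral.continuous_parametric_intervalIntegral_of_continuous'
      (f := fun t θ => φ (θ * t)) (hφc.comp (continuous_snd.mul continuous_fst))
        0 1).continuousOn.congr fun t ht => intervalIntegral.integral_congr fun θ hθ => ?_
    rw [uIcc_of_le zero_le_one] at hθ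
    show f (θ * t) = f (max (θ * t) 0)
    rw [max_eq_left (mul_nonneg hθ.1 ht)]
  refine tendsto_penalty (f := fun t => ∫ θ in (0 : ℝ)..1, ψ (θ * t))
    (e := fun t => ∫ θ in (0 : ℝ)..1, e (θ * t)) (hcomp ψ hψc) (hcomp e hec)
    (fun t ht => intervalIntegral.integral_nonneg zero_le_one fun θ hθ =>
      he0 _ (mul_nonneg hθ.1 ht)) hτ.1 ?_ hmA (fun t ht h0 => hmin t ⟨ht, ?_⟩)
    (k₀ := 2 * K + 1) (T := (4 * g + 4 * |m|) / u) ?_
  · rw [intervalIntegral.integral_congr (g := fun _ => (0 : ℝ)) fun θ hθ => ?_]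
    · simp
    rw [uIcc_of_le zero_le_one] at hθ
    exact (hl _ (mul_nonneg hθ.1 hτ.1)).2 ((mul_le_of_le_one_left hτ.1 hθ.2).trans hτ.2)
  · by_contra hlt
    rw [not_le] at hlt
    have hpos : 0 < ∫ θ in (0 : ℝ)..1, e (θ * t) := by
      refine intervalIntegral.integral_pos zero_lt_one (hec.comp (by fun_prop) fun θ hθ =>
        mul_nonneg hθ.1 ht) (fun θ hθ => he0 _ (mul_nonneg hθ.1.le ht))
        ⟨1, right_mem_Icc.2 zero_le_one, ?_⟩
      rw [one_mul]
      refine lt_of_le_of_ne (he0 t ht) fun h => ?_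
      exact absurd ((hl t ht).1 h.symm) (not_le.2 hlt)
    linarith
  · intro Λ hΛ t hT ht
    rw [div_le_iff₀ hu] at hT
    have hii : ∀ f : ℝ → ℝ, ContinuousOn f (Ici 0) →
        IntervalIntegrable (fun θ => f (θ * t)) volume 0 1 := fun f hf =>
      (hf.comp (by fun_prop) fun θ hθ => mul_nonneg hθ.1 ht).intervalIntegrable_of_Icc zero_le_one
    have h1 : (∫ θ in (0 : ℝ)..1, (Λ / 2 * (t * u) * θ - Λ * g))
        ≤ ∫ θ in (0 : ℝ)..1, (ψ (θ * t) + Λ * e (θ * t)) := by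
      refine intervalIntegral.integral_mono_on zero_le_one
        (Continuous.intervalIntegrable (by fun_prop) _ _) ((hii ψ hψc).add ((hii e hec).const_mul Λ))
        fun θ hθ => ?_
      have := hlow' Λ hΛ (θ * t) (mul_nonneg hθ.1 ht)
      linarith
    rw [intervalIntegral.integral_sub (Continuous.intervalIntegrable (by fun_prop) _ _)
      intervalIntegrable_const, intervalIntegral.integral_const_mul, integral_id,
      intervalIntegral.integral_const, intervalIntegral.integral_add (hii ψ hψc)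
      ((hii e hec).const_mul Λ), intervalIntegral.integral_const_mul, smul_eq_mul] at h1
    have h2 := mul_le_mul_of_nonneg_left hT (show (0 : ℝ) ≤ Λ by linarith)
    have h3 := le_mul_of_one_le_left (abs_nonneg m) (show (1 : ℝ) ≤ Λ by linarith)
    linarith [le_abs_self m]

lemma tendsto_shiftPart {ψ e : ℝ → ℝ} {l y s₁ g K u : ℝ} (hψc : ContinuousOn ψ (Ici 0))
    (hec : ContinuousOn e (Ici 0)) (he0 : ∀ t, 0 ≤ t → 0 ≤ e t) (hu : 0 < u)
    (hl : ∀ t, 0 ≤ t → (e t = 0 ↔ t ≤ l)) (hy : 0 ≤ y) (hs₁ : s₁ ∈ Icc y l)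
    (hmn : IsMinOn ψ (Icc y l) s₁) (hK : 0 ≤ K)
    (hlow' : ∀ Λ, 2 * K + 1 ≤ Λ → ∀ t, 0 ≤ t → Λ / 2 * (t * u) - Λ * g ≤ ψ t + Λ * e t) :
    Tendsto (fun Λ : ℝ => ⨅ s : Ici (0 : ℝ), (ψ (y + s) + Λ * e (y + s))) atTop (𝓝 (ψ s₁)) := by
  refine tendsto_penalty (f := fun s => ψ (y + s)) (e := fun s => e (y + s))
    (hψc.comp (by fun_prop) fun s hs => add_nonneg hy hs)
    (hec.comp (by fun_prop) fun s hs => add_nonneg hy hs)
    (fun s hs => he0 _ (add_nonneg hy hs)) (t₀ := s₁ - y) (sub_nonneg.2 hs₁.1) ?_ (by simp)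
    (fun s hs h0 => hmn ⟨by linarith, ?_⟩) (k₀ := 2 * K + 1)
    (T := (2 * g + 2 * |ψ s₁|) / u) ?_
  · show e (y + (s₁ - y)) = 0
    rw [add_sub_cancel]; exact (hl s₁ (hy.trans hs₁.1)).2 hs₁.2
  · exact (hl _ (add_nonneg hy hs)).1 h0
  · intro Λ hΛ s hT hs
    rw [div_le_iff₀ hu] at hT
    have := hlow' Λ hΛ (y + s) (add_nonneg hy hs)
    show ψ s₁ ≤ ψ (y + s) + Λ * e (y + s)
    nlinarith [le_abs_self (ψ s₁), abs_nonneg (ψ s₁),
      mul_nonneg hy hu.le]

/-- The pointwise limit of the penalised operator, with the penalty removed. -/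
def opLimit (G Ψ : (Fin n → ℝ) → ℝ) (j : Fin n) (x : Fin n → ℝ) : ℝ :=
  limUnder atTop fun Λ : ℝ => avgOp (fun z => Ψ z + Λ * G z) j x - Λ * G x

section

variable (hG : IsGauge G) (hΨ : IsSub Ψ) (j : Fin n)
include hG

lemma gauge_ray_mono {z : Fin n → ℝ} (hz : z ∈ orth n) {a b : ℝ} (ha : 0 ≤ a) (hab : a ≤ b) :
    G (z + a • unit j) ≤ G (z + b • unit j) := by
  have := hG.monIn j _ (ray_mem hz j ha) (b - a) (sub_nonneg.2 hab)
  rwa [add_assoc, ← add_smul, add_sub_cancel] at this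

/-- The segment from the coordinate hyperplane on which the gauge is constant. -/
lemma exists_segment {z : Fin n → ℝ} (hz : z ∈ orth n) :
    ∃ l, 0 ≤ l ∧ ∀ t : ℝ, 0 ≤ t → (G (z + t • unit j) = G z ↔ t ≤ l) := by
  set S : Set ℝ := {t | t ∈ Ici (0 : ℝ) ∧ G (z + t • unit j) ≤ G z}
  have hne : S.Nonempty := ⟨0, self_mem_Ici, by simp⟩
  have hb : BddAbove S := ⟨G z / G (unit j), fun t ht => by
    rw [le_div_iff₀ (hG.unit_pos j)]
    have h1 := hG.coord_le (ray_mem hz j ht.1) j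
    have h2 : t ≤ (z + t • unit j) j := by simp [unit, hz j]
    exact ((mul_le_mul_of_nonneg_right h2 (hG.unit_pos j).le).trans h1).trans ht.2⟩
  have hcl : IsClosed S :=
    (hG.isSub.continuousOn_ray hz j).preimage_isClosed_of_isClosed isClosed_Ici isClosed_Iic
  have hmem : sSup S ∈ S := hcl.csSup_mem hne hb
  refine ⟨sSup S, hmem.1, fun t ht => ⟨fun h => le_csSup hb ⟨ht, h.le⟩, fun h => le_antisymm
    ((gauge_ray_mono hG j hz ht h).trans hmem.2) ?_⟩⟩
  have := gauge_ray_mono hG j hz (le_refl (0 : ℝ)) ht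
  simpa using this

include hΨ

/-- Off the segments nothing changes. -/
lemma tendsto_avgOp_off {x : Fin n → ℝ} (hx : x ∈ orth n) (hlt : G (zeroAt j x) < G x) :
    Tendsto (fun Λ : ℝ => avgOp (fun z => Ψ z + Λ * G z) j x - Λ * G x) atTop (𝓝 (Ψ x)) := by
  obtain ⟨K, hK0, hK⟩ := hΨ.abs_le hG
  obtain ⟨L, hL0, hL⟩ := hΨ.lip
  set η := G x - G (zeroAt j x) with hη
  have hη0 : 0 < η := sub_pos.2 hlt
  have hxj : 0 < x j := by
    rcases eq_or_lt_of_le (hx j) with h | h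
    · exfalso
      have : zeroAt j x = x := update_eq_self_iff.2 h
      rw [this] at hlt
      exact lt_irrefl _ hlt
    · exact h
  refine tendsto_const_nhds.congr' ?_
  filter_upwards [eventually_ge_atTop K, eventually_ge_atTop (L * x j / η),
    eventually_ge_atTop ((Ψ (zeroAt j x) - Ψ x) / η)] with Λ h1 h2 h3
  rw [div_le_iff₀ hη0] at h2 h3
  obtain ⟨hb1, hb2⟩ := pen_bdd hG hΨ j hK0 hK h1 hx
  have hE : (⨅ s : Ici (0 : ℝ), (Ψ (x + (s : ℝ) • unit j) + Λ * G (x + (s : ℝ) • unit j)))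
      = Ψ x + Λ * G x := by
    refine le_antisymm ((ciInf_le hb2 ⟨0, self_mem_Ici⟩).trans (by simp)) (le_ciInf fun s => ?_)
    obtain ⟨s, hs⟩ := s
    rw [mem_Ici] at hs
    show _ ≤ Ψ (x + s • unit j) + Λ * G (x + s • unit j)
    -- slopes of a convex function increase
    have hG2 : s * η ≤ x j * (G (x + s • unit j) - G x) := by
      set w := x j / (x j + s) with hw
      have hw0 : 0 ≤ w := div_nonneg hxj.le (by linarith)
      have hw1 : w ≤ 1 := (div_le_one (by linarith)).2 (by linarith)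
      have e : x = (1 - w) • zeroAt j x + w • (x + s • unit j) := by
        funext i
        by_cases hi : i = j
        · subst hi
          simp only [zeroAt, unit, Pi.add_apply, Pi.smul_apply, update_self, Pi.single_eq_same,
            smul_eq_mul, mul_zero, mul_one, zero_add, hw]
          field_simp [(show x i + s ≠ 0 by linarith)]
        · simp [zeroAt, unit, hi]; ring
      have h4 := hG.sub _ (smul_mem_orth (zeroAt_mem hx j) (sub_nonneg.2 hw1)) _
        (smul_mem_orth (ray_mem hx j hs) hw0)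
      rw [← e, hG.hom _ (zeroAt_mem hx j) _ (sub_nonneg.2 hw1), hG.hom _ (ray_mem hx j hs) _ hw0] at h4
      have h5 : (x j + s) * G x ≤ s * G (zeroAt j x) + x j * G (x + s • unit j) := by
        have h6 := mul_le_mul_of_nonneg_left h4 (show (0 : ℝ) ≤ x j + s by linarith)
        have h7 : (x j + s) * w = x j := by rw [hw]; field_simp [(show x j + s ≠ 0 by linarith)]
        linear_combination h6 + (G (x + s • unit j) - G (zeroAt j x)) * h7
      rw [hη]; linarith
    have hpsi : Ψ x - Ψ (x + s • unit j) ≤ L * s := by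
      refine (le_abs_self _).trans ((hL x hx _ (ray_mem hx j hs)).trans (le_of_eq ?_))
      congr 1
      rw [Finset.sum_eq_single j (fun i _ hi => by simp [unit, hi]) (by simp)]
      simp [unit, abs_of_nonneg hs]
    have h8 : L * s ≤ Λ * (G (x + s • unit j) - G x) := by
      refine le_of_mul_le_mul_left ?_ hxj
      calc x j * (L * s) = s * (L * x j) := by ring
        _ ≤ s * (Λ * η) := mul_le_mul_of_nonneg_left h2 hs
        _ = Λ * (s * η) := by ring
        _ ≤ Λ * (x j * (G (x + s • unit j) - G x)) :=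
          mul_le_mul_of_nonneg_left hG2 (hK0.trans h1)
        _ = _ := by ring
    linarith
  have hC : (⨅ t : Ici (0 : ℝ), avgRay (fun z => Ψ z + Λ * G z) j x t) ≤ Ψ x + Λ * G x := by
    refine (ciInf_le hb1 ⟨0, self_mem_Ici⟩).trans ?_
    show avgRay _ j x 0 ≤ _
    simp only [avgRay, mul_zero, zero_smul, add_zero, intervalIntegral.integral_const, sub_zero,
      one_smul]
    rw [hη] at h3
    linarith
  simp only [avgOp, hE, max_eq_right hC, add_sub_cancel_right]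

/-- On a segment the operator tends to the projection given by the least initial average. -/
lemma tendsto_avgOp_on {z : Fin n → ℝ} (hz : z ∈ orth n) (hzj : z j = 0) {l : ℝ} (hl0 : 0 ≤ l)
    (hl : ∀ t : ℝ, 0 ≤ t → (G (z + t • unit j) = G z ↔ t ≤ l)) :
    ∃ τ ∈ Icc 0 l, ∃ m : ℝ, (∫ y in (0 : ℝ)..τ, Ψ (z + y • unit j)) = τ * m ∧
      ∀ y ∈ Icc 0 l, Tendsto (fun Λ : ℝ => avgOp (fun u => Ψ u + Λ * G u) j (z + y • unit j)
        - Λ * G (z + y • unit j)) atTop (𝓝 (if y ≤ τ then m else Ψ (z + y • unit j))) := by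
  obtain ⟨K, hK0, hK⟩ := hΨ.abs_le hG
  set ψ : ℝ → ℝ := fun t => Ψ (z + t • unit j) with hψ
  set e : ℝ → ℝ := fun t => G (z + t • unit j) - G z with he
  have hψc : ContinuousOn ψ (Ici 0) := hΨ.continuousOn_ray hz j
  have hec : ContinuousOn e (Ici 0) := (hG.isSub.continuousOn_ray hz j).sub continuousOn_const
  have he0 : ∀ t, 0 ≤ t → 0 ≤ e t := fun t ht => by
    have := gauge_ray_mono hG j hz (le_refl (0 : ℝ)) ht
    simp only [zero_smul, add_zero] at this
    simp only [he]; linarith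
  obtain ⟨τ, hτ, m, hmA, hmin, hint, hlow, hhigh⟩ := exists_projection hl0
    (hψc.mono Icc_subset_Ici_self) ((hΨ.convexOn_ray hz j).subset Icc_subset_Ici_self (convex_Icc 0 l))
  refine ⟨τ, hτ, m, hint, fun y hy => ?_⟩
  have hGy : G (z + y • unit j) = G z := (hl y hy.1).2 hy.2
  have hz0 : zeroAt j (z + y • unit j) = z := by
    funext i
    by_cases hi : i = j
    · subst hi; simp [zeroAt, hzj]
    · simp [zeroAt, unit, hi]
  have huj := hG.unit_pos j
  have hlow' : ∀ Λ, 2 * K + 1 ≤ Λ → ∀ t, 0 ≤ t →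
      Λ / 2 * (t * G (unit j)) ≤ Ψ (z + t • unit j) + Λ * G (z + t • unit j) := by
    intro Λ hΛ t ht
    refine le_trans ?_ (pen_lower hG hΨ hK0 hK (show K ≤ Λ by linarith) (ray_mem hz j ht))
    refine mul_le_mul (by linarith) ?_ (by positivity) (by linarith)
    refine le_trans (le_of_eq ?_) (hG.coord_le (ray_mem hz j ht) j)
    simp [unit, hzj]
  have hle0 : ∀ t, 0 ≤ t → (e t = 0 ↔ t ≤ l) := fun t ht => by
    rw [← hl t ht]; simp only [he, sub_eq_zero]
  have hlow2 : ∀ Λ, 2 * K + 1 ≤ Λ → ∀ t, 0 ≤ t →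
      Λ / 2 * (t * G (unit j)) - Λ * G z ≤ ψ t + Λ * e t := fun Λ hΛ t ht => by
    have := hlow' Λ hΛ t ht
    simp only [hψ, he]
    linarith
  have hCt := tendsto_avgPart hψc hec he0 huj hle0 hτ hmA hmin hK0 hlow2
  obtain ⟨s₁, hs₁, hmn⟩ := isCompact_Icc.exists_isMinOn (nonempty_Icc.2 hy.2)
    (hψc.mono fun t ht => hy.1.trans ht.1)
  have hEt := tendsto_shiftPart hψc hec he0 huj hle0 hy.1 hs₁ hmn hK0 hlow2
  have hmax : max m (ψ s₁) = if y ≤ τ then m else ψ y := by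
    split_ifs with hyτ
    · obtain ⟨s, hs, hsm⟩ := hlow y hy hyτ
      exact max_eq_left ((show ψ s₁ ≤ ψ s from hmn hs).trans hsm)
    · obtain ⟨h1, h2⟩ := hhigh y hy (not_le.1 hyτ)
      have : ψ s₁ = ψ y := le_antisymm (hmn ⟨le_rfl, hy.2⟩) (h2 s₁ hs₁)
      rw [this, max_eq_right h1]
  show Tendsto _ _ (𝓝 (if y ≤ τ then m else ψ y))
  rw [← hmax]
  refine (hCt.max hEt).congr' ?_
  filter_upwards [eventually_ge_atTop K] with Λ hΛ
  obtain ⟨hb1, hb2⟩ := pen_bdd hG hΨ j hK0 hK hΛ (ray_mem hz j hy.1)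
  rw [hGy, avgOp, ← max_sub_sub_right, ciInf_sub hb1, ciInf_sub hb2]
  congr 1
  · refine iInf_congr fun t => ?_
    have hii : ∀ {F : (Fin n → ℝ) → ℝ}, IsSub F →
        IntervalIntegrable (fun θ => F (z + (θ * (t : ℝ)) • unit j)) volume 0 1 := fun {F} hF => by
      have := intervalIntegrable_avg hF hz j t.2
      rwa [show zeroAt j z = z from update_eq_self_iff.2 hzj.symm] at this
    simp only [avgRay, hz0, hψ, he]
    rw [intervalIntegral.integral_sub (hii hG.isSub) intervalIntegrable_const,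
      intervalIntegral.integral_add (hii hΨ) ((hii hG.isSub).const_mul Λ),
      intervalIntegral.integral_const_mul, intervalIntegral.integral_const]
    simp only [sub_zero, one_smul]
    ring
  · refine iInf_congr fun s => ?_
    simp only [hψ, he, add_smul, ← add_assoc]
    ring

lemma opLimit_off {x : Fin n → ℝ} (hx : x ∈ orth n) (hlt : G (zeroAt j x) < G x) :
    opLimit G Ψ j x = Ψ x :=
  (tendsto_avgOp_off hG hΨ j hx hlt).limUnder_eq

lemma tendsto_opLimit {x : Fin n → ℝ} (hx : x ∈ orth n) :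
    Tendsto (fun Λ : ℝ => avgOp (fun u => Ψ u + Λ * G u) j x - Λ * G x) atTop
      (𝓝 (opLimit G Ψ j x)) := by
  refine tendsto_nhds_limUnder ?_
  obtain ⟨K, hK0, hK⟩ := hΨ.abs_le hG
  rcases (zeroAt_le hG hΨ j hK0 hK hx).lt_or_eq with h | h
  · exact ⟨_, tendsto_avgOp_off hG hΨ j hx h⟩
  have hzj : zeroAt j x j = 0 := by simp [zeroAt]
  obtain ⟨l, hl0, hl⟩ := exists_segment hG j (zeroAt_mem hx j)
  obtain ⟨τ, _, m, _, ht⟩ := tendsto_avgOp_on hG hΨ j (zeroAt_mem hx j) hzj hl0 hl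
  have e : zeroAt j x + x j • unit j = x := by
    rw [zeroAt, ← update_eq_add_smul, update_eq_self]
  have := ht (x j) ⟨hx j, (hl _ (hx j)).1 (by rw [e, h])⟩
  rw [e] at this
  exact ⟨_, this⟩

end

end Vale.Agent.P254.CT
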