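import Mathlib
import Vale.Agent.P254.CT.OperatorLimit

/-!
The averaging step in one coordinate: the pinned statement `OperatorStep`.
-/

noncomputable section

open MeasureTheory Set Function Filter
open scoped BigOperators Topology

namespace Vale.Agent.P254.CT

/-- Integrals on the orthant as iterated integrals along the lines in one coordinate. -/
lemma integral_orth_lines {m : ℕ} (j : Fin (m + 1)) {h : (Fin (m + 1) → ℝ) → ℝ}
    (hi : IntegrableOn h (orth (m + 1))) :
    ∫ x in orth (m + 1), h x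
      = ∫ z in orth m, ∫ y in Ici (0 : ℝ), h (j.insertNth y z) := by
  set e := MeasurableEquiv.piFinSuccAbove (fun _ : Fin (m + 1) => ℝ) j with he
  have hmp : MeasurePreserving e volume volume :=
    volume_preserving_piFinSuccAbove (fun _ : Fin (m + 1) => ℝ) j
  have hsymm : ∀ (y : ℝ) (z : Fin m → ℝ), e.symm (y, z) = j.insertNth y z := fun y z => by simp [e, Fin.insertNthEquiv]
  have hset : e.symm ⁻¹' orth (m + 1) = (Ici (0 : ℝ)) ×ˢ orth m := by
    ext ⟨y, z⟩
    simp only [mem_preimage, hsymm, mem_prod, mem_Ici, mem_orth]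
    constructor
    · intro H
      exact ⟨by simpa using H j, fun i => by simpa using H (j.succAbove i)⟩
    · rintro ⟨hy, hz⟩ i
      induction i using Fin.succAboveCases j <;> simp [hy, hz]
  have h1 := (hmp.symm e).setIntegral_preimage_emb e.symm.measurableEmbedding h (orth (m + 1))
  rw [hset] at h1
  have h2 : IntegrableOn (fun p : ℝ × (Fin m → ℝ) => h (e.symm p)) ((Ici (0 : ℝ)) ×ˢ orth m) := by
    have := ((hmp.symm e).integrableOn_comp_preimage e.symm.measurableEmbedding).2 hi
    rwa [hset] at this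
  rw [← h1, Measure.volume_eq_prod, ← Measure.prod_restrict]
  rw [IntegrableOn, Measure.volume_eq_prod, ← Measure.prod_restrict] at h2
  rw [integral_prod_symm _ h2]
  simp only [hsymm]

variable {m : ℕ} {G Ψ v : (Fin (m + 1) → ℝ) → ℝ}

/-- On each line the limit preserves the pairing with `v` and decreases squares. -/
lemma opLimit_line (hG : IsGauge G) (hΨ : IsSub Ψ) (hv : IsSegConst G v) (j : Fin (m + 1)) (d : ℝ)
    {z : Fin m → ℝ} (hz : z ∈ orth m) :
    (∫ y in Ici (0 : ℝ), ((opLimit G Ψ j (j.insertNth y z) + d * G (j.insertNth y z)) ^ 2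
        - (Ψ (j.insertNth y z) + d * G (j.insertNth y z)) ^ 2) * Real.exp (-G (j.insertNth y z))) ≤ 0
    ∧ (∫ y in Ici (0 : ℝ), (opLimit G Ψ j (j.insertNth y z) - Ψ (j.insertNth y z))
        * v (j.insertNth y z) * Real.exp (-G (j.insertNth y z))) = 0 := by
  set b : Fin (m + 1) → ℝ := j.insertNth (0 : ℝ) z with hb
  have hbo : b ∈ orth (m + 1) := fun i => by
    induction i using Fin.succAboveCases j <;> simp [hb, hz _]
  have hbj : b j = 0 := by simp [hb]
  have hins : ∀ y : ℝ, j.insertNth y z = b + y • unit j := fun y => by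
    rw [← update_eq_self j b, hbj, ← update_eq_add_smul, hb, Fin.update_insertNth]
  have hzero : ∀ y : ℝ, zeroAt j (b + y • unit j) = b := fun y => by
    funext i
    by_cases hi : i = j
    · subst hi; simp [zeroAt, hbj]
    · simp [zeroAt, unit, hi]
  obtain ⟨l, hl0, hl⟩ := exists_segment hG j hbo
  obtain ⟨τ, hτ, μ, hint, hlim⟩ := tendsto_avgOp_on hG hΨ j hbo hbj hl0 hl
  have hon : ∀ y ∈ Icc 0 l, opLimit G Ψ j (b + y • unit j)
      = if y ≤ τ then μ else Ψ (b + y • unit j) := fun y hy => (hlim y hy).limUnder_eq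
  have hoff : ∀ y : ℝ, 0 ≤ y → l < y → opLimit G Ψ j (b + y • unit j) = Ψ (b + y • unit j) := by
    intro y hy hly
    refine opLimit_off hG hΨ j (ray_mem hbo j hy) ?_
    rw [hzero]
    have := gauge_ray_mono hG j hbo (le_refl (0 : ℝ)) hy
    simp only [zero_smul, add_zero] at this
    exact this.lt_of_ne fun h => absurd ((hl y hy).1 h.symm) (not_le.2 hly)
  -- reduce to the interval `[0, τ]`
  have hred : ∀ F : ℝ → ℝ → ℝ, (∀ y, F (Ψ (b + y • unit j)) y = 0) →
      (∫ y in Ici (0 : ℝ), F (opLimit G Ψ j (b + y • unit j)) y)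
        = ∫ y in Icc 0 τ, F μ y := by
    intro F hF
    rw [setIntegral_eq_of_subset_of_forall_sdiff_eq_zero measurableSet_Ici
      (show Icc 0 τ ⊆ Ici (0 : ℝ) from Icc_subset_Ici_self) fun y hy => ?_]
    · exact setIntegral_congr_fun measurableSet_Icc fun y hy => by
        show F _ y = F μ y
        rw [hon y ⟨hy.1, hy.2.trans hτ.2⟩, if_pos hy.2]
    · obtain ⟨hy0, hyn⟩ := hy
      have hyτ : τ < y := lt_of_not_ge fun h => hyn ⟨hy0, h⟩
      rcases le_or_gt y l with h | h
      · rw [hon y ⟨hy0, h⟩, if_neg (not_le.2 hyτ)]; exact hF y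
      · rw [hoff y hy0 h]; exact hF y
  have hGseg : ∀ y ∈ Icc 0 τ, G (b + y • unit j) = G b := fun y hy =>
    (hl y hy.1).2 (hy.2.trans hτ.2)
  have hψi : IntervalIntegrable (fun y => Ψ (b + y • unit j)) volume 0 τ :=
    ((hΨ.continuousOn_ray hbo j).mono (show Icc 0 τ ⊆ Ici (0 : ℝ) from Icc_subset_Ici_self)).intervalIntegrable_of_Icc hτ.1
  simp only [hins]
  constructor
  · rw [hred (fun u y => ((u + d * G (b + y • unit j)) ^ 2
        - (Ψ (b + y • unit j) + d * G (b + y • unit j)) ^ 2) * Real.exp (-G (b + y • unit j)))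
      (fun y => by simp), integral_Icc_eq_integral_Ioc, ← intervalIntegral.integral_of_le hτ.1]
    refine (intervalIntegral.integral_mono_on hτ.1 ?_ ?_ (g := fun y =>
      2 * (μ + d * G b) * (μ - Ψ (b + y • unit j)) * Real.exp (-G b)) fun y hy => ?_).trans
        (le_of_eq ?_)
    · refine ContinuousOn.intervalIntegrable_of_Icc hτ.1 ?_
      have h1 := (hΨ.continuousOn_ray hbo j).mono (show Icc 0 τ ⊆ Ici (0 : ℝ) from Icc_subset_Ici_self)
      have h2 := (hG.isSub.continuousOn_ray hbo j).mono (show Icc 0 τ ⊆ Ici (0 : ℝ) from Icc_subset_Ici_self)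
      exact (((continuousOn_const.add (continuousOn_const.mul h2)).pow 2).sub
        ((h1.add (continuousOn_const.mul h2)).pow 2)).mul (Real.continuous_exp.comp_continuousOn h2.neg)
    · exact ((intervalIntegrable_const.sub hψi).const_mul _).mul_const _
    · rw [hGseg y hy]
      refine mul_le_mul_of_nonneg_right ?_ (Real.exp_pos _).le
      nlinarith [sq_nonneg (μ - Ψ (b + y • unit j))]
    · rw [intervalIntegral.integral_mul_const, intervalIntegral.integral_const_mul,
        intervalIntegral.integral_sub intervalIntegrable_const hψi, hint,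
        intervalIntegral.integral_const, smul_eq_mul]
      ring
  · rw [hred (fun u y => (u - Ψ (b + y • unit j)) * v (b + y • unit j)
      * Real.exp (-G (b + y • unit j))) (fun y => by simp), integral_Icc_eq_integral_Ioo]
    rcases eq_or_lt_of_le hτ.1 with h0 | h0
    · simp [← h0]
    have hseg : G (update b j τ) = G (update b j 0) := by
      rw [update_eq_add_smul b j τ, show update b j 0 = b from update_eq_self_iff.2 hbj.symm]
      exact hGseg τ ⟨hτ.1, le_rfl⟩
    have hv0 : ∀ y ∈ Ioo 0 τ, v (b + y • unit j) = v (update b j (τ / 2)) := by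
      intro y hy
      have := hv.const j b hbo τ h0 hseg y hy (τ / 2) ⟨by linarith, by linarith⟩
      rwa [update_eq_add_smul b j y, show update b j 0 = b from update_eq_self_iff.2 hbj.symm] at this
    rw [setIntegral_congr_fun measurableSet_Ioo (g := fun y =>
      (μ - Ψ (b + y • unit j)) * (v (update b j (τ / 2)) * Real.exp (-G b))) fun y hy => ?_,
      integral_mul_const, ← integral_Ioc_eq_integral_Ioo, ← intervalIntegral.integral_of_le hτ.1,
      intervalIntegral.integral_sub intervalIntegrable_const hψi, hint,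
      intervalIntegral.integral_const, smul_eq_mul]
    · ring
    · show _ * _ * _ = _
      rw [hv0 y hy, hGseg y (Ioo_subset_Icc_self hy)]
      ring

/-- One averaging step. -/
theorem operatorStep : OperatorStep := by
  intro n G Ψ v j d δ hG hΨ hv hδ
  obtain ⟨m, rfl⟩ : ∃ m, n = m + 1 := ⟨n - 1, by have := j.isLt; omega⟩
  obtain ⟨K, hK0, hK⟩ := hΨ.abs_le hG
  obtain ⟨B, hB⟩ := hv.bound
  set μ := volume.restrict (orth (m + 1)) with hμ
  set Φ : ℝ → (Fin (m + 1) → ℝ) → ℝ :=
    fun Λ x => avgOp (fun u => Ψ u + Λ * G u) j x - Λ * G x with hΦ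
  set L : (Fin (m + 1) → ℝ) → ℝ := opLimit G Ψ j with hL
  have hsub : ∀ {Λ : ℝ}, K ≤ Λ → IsSub fun u => Ψ u + Λ * G u := fun hΛ =>
    hΨ.add_gauge hG (hK0.trans hΛ)
  have hnn : ∀ {Λ : ℝ}, K ≤ Λ → ∀ x ∈ orth (m + 1), 0 ≤ Ψ x + Λ * G x := fun hΛ x hx =>
    pen_nonneg hG hΨ hK0 hK hΛ hx
  have hΦb : ∀ {Λ : ℝ}, K ≤ Λ → ∀ x ∈ orth (m + 1), |Φ Λ x| ≤ K * G x := fun hΛ x hx =>
    avgOp_bound hG hΨ j hK0 hK hΛ hx
  have hlim : ∀ x ∈ orth (m + 1), Tendsto (fun Λ => Φ Λ x) atTop (𝓝 (L x)) := fun x hx =>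
    tendsto_opLimit hG hΨ j hx
  have hΦm : ∀ {Λ : ℝ}, K ≤ Λ → AEStronglyMeasurable (Φ Λ) μ := fun hΛ =>
    (isSub_avgOp (hsub hΛ) (hnn hΛ) j).aestronglyMeasurable.sub
      (hG.isSub.aestronglyMeasurable.const_mul _)
  have hLm : AEStronglyMeasurable L μ := by
    refine aestronglyMeasurable_of_tendsto_ae (u := atTop) (f := fun k : ℕ => Φ (K + k))
      (fun k => hΦm (by simp)) ?_
    filter_upwards [ae_restrict_mem measurableSet_orth] with x hx
    exact (hlim x hx).comp (tendsto_atTop_add_const_left _ K tendsto_natCast_atTop_atTop)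
  have hLb : ∀ x ∈ orth (m + 1), |L x| ≤ K * G x := fun x hx =>
    le_of_tendsto (hlim x hx).abs ((eventually_ge_atTop K).mono fun Λ hΛ => hΦb hΛ x hx)
  have hGb : ∀ x ∈ orth (m + 1), |G x| ≤ 1 * G x := fun x hx => by
    rw [one_mul, abs_of_nonneg (hG.nonneg hx)]
  have hshift : ∀ (f : (Fin (m + 1) → ℝ) → ℝ), (∀ x ∈ orth (m + 1), |f x| ≤ K * G x) →
      ∀ x ∈ orth (m + 1), |f x + d * G x| ≤ (K + |d|) * G x := fun f hf x hx => by
    refine (abs_add_le _ _).trans ?_
    rw [add_mul, abs_mul, abs_of_nonneg (hG.nonneg hx)]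
    exact add_le_add (hf x hx) le_rfl
  have hdG : AEStronglyMeasurable (fun x => d * G x) μ := hG.isSub.aestronglyMeasurable.const_mul _
  have hvm : AEStronglyMeasurable v μ := hv.meas.aestronglyMeasurable
  -- integrability
  have hLd : AEStronglyMeasurable (fun x => L x + d * G x) μ := hLm.add hdG
  have hΨd : AEStronglyMeasurable (fun x => Ψ x + d * G x) μ := hΨ.aestronglyMeasurable.add hdG
  have iL2 := hG.integrable_pair hLd hLd (hshift L hLb) (hshift L hLb)
  have iΨ2 := hG.integrable_pair hΨd hΨd (hshift Ψ hK) (hshift Ψ hK)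
  have iLv := hG.integrable_pair hLd hvm (hshift L hLb) hB
  have iΨv := hG.integrable_pair hΨd hvm (hshift Ψ hK) hB
  -- exact properties of the limit
  have hline : ∀ z ∈ orth m, _ := fun z hz => opLimit_line hG hΨ hv j d hz
  have hsq : ip G (fun x => L x + d * G x) (fun x => L x + d * G x)
      ≤ ip G (fun x => Ψ x + d * G x) fun x => Ψ x + d * G x := by
    rw [← sub_nonpos, ip, ip, expInt, expInt, ← integral_sub iL2 iΨ2]
    have hi : IntegrableOn (fun x => ((L x + d * G x) ^ 2 - (Ψ x + d * G x) ^ 2) * Real.exp (-G x))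
        (orth (m + 1)) :=
      (iL2.sub iΨ2).congr (Eventually.of_forall fun x => by simp only [Pi.sub_apply]; ring)
    refine le_trans (le_of_eq (integral_congr_ae (Eventually.of_forall fun x => ?_)))
      (le_of_eq_of_le (integral_orth_lines j hi)
        (setIntegral_nonpos measurableSet_orth fun z hz => (hline z hz).1))
    ring
  have hpair : ip G (fun x => L x + d * G x) v = ip G (fun x => Ψ x + d * G x) v := by
    rw [← sub_eq_zero, ip, ip, expInt, expInt, ← integral_sub iLv iΨv]
    have hi : IntegrableOn (fun x => (L x - Ψ x) * v x * Real.exp (-G x)) (orth (m + 1)) :=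
      (iLv.sub iΨv).congr (Eventually.of_forall fun x => by simp only [Pi.sub_apply]; ring)
    refine (integral_congr_ae (Eventually.of_forall fun x => ?_)).trans
      ((integral_orth_lines j hi).trans
        (setIntegral_eq_zero_of_forall_eq_zero fun z hz => (hline z hz).2))
    ring
  -- dominated convergence
  have hdom : ∀ (g : (Fin (m + 1) → ℝ) → ℝ → ℝ) (C : ℝ),
      (∀ {f : (Fin (m + 1) → ℝ) → ℝ}, AEStronglyMeasurable f μ →
        AEStronglyMeasurable (fun x => g x (f x + d * G x) * Real.exp (-G x)) μ) →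
      (∀ x ∈ orth (m + 1), Continuous (g x)) →
      (∀ x ∈ orth (m + 1), ∀ u, |u| ≤ (K + |d|) * G x → |g x u| ≤ C * (1 + G x) ^ 2) →
      Tendsto (fun Λ => expInt G fun x => g x (Φ Λ x + d * G x)) atTop
        (𝓝 (expInt G fun x => g x (L x + d * G x))) := by
    intro g C hgm hgc hgb
    refine tendsto_integral_filter_of_dominated_convergence
      (fun x => |C| * (1 + G x) ^ 2 * Real.exp (-G x))
      ((eventually_ge_atTop K).mono fun Λ hΛ => hgm (hΦm hΛ)) ?_ ?_ ?_
    · filter_upwards [eventually_ge_atTop K] with Λ hΛ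
      filter_upwards [ae_restrict_mem measurableSet_orth] with x hx
      rw [Real.norm_eq_abs, abs_mul, abs_of_pos (Real.exp_pos _)]
      exact mul_le_mul_of_nonneg_right ((hgb x hx _ (hshift _ (hΦb hΛ) x hx)).trans
        (mul_le_mul_of_nonneg_right (le_abs_self C) (sq_nonneg _))) (Real.exp_pos _).le
    · refine hG.integrableOn_exp_mul (B := |C|) (p := 2) ((aestronglyMeasurable_const.mul
        ((aestronglyMeasurable_const.add hG.isSub.aestronglyMeasurable).pow 2))) fun x hx => ?_
      have := hG.nonneg hx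
      exact le_of_eq (abs_of_nonneg (by positivity))
    · filter_upwards [ae_restrict_mem measurableSet_orth] with x hx
      exact (((hgc x hx).tendsto _).comp ((hlim x hx).add_const _)).mul_const _
  have he : AEStronglyMeasurable (fun x => Real.exp (-G x)) μ :=
    Real.continuous_exp.comp_aestronglyMeasurable hG.isSub.aestronglyMeasurable.neg
  have t1 := hdom (fun _ u => u * u) ((K + |d|) ^ 2)
    (fun hf => ((hf.add hdG).mul (hf.add hdG)).mul he) (fun x _ => by fun_prop)
    fun x hx u hu => by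
      rw [abs_mul, ← sq, ← mul_pow]
      refine pow_le_pow_left₀ (abs_nonneg u) (hu.trans ?_) 2
      exact mul_le_mul_of_nonneg_left (by linarith) (by positivity)
  have t2 := hdom (fun x u => u * v x) ((K + |d|) * |B|)
    (fun hf => ((hf.add hdG).mul hvm).mul he) (fun x _ => by fun_prop)
    fun x hx u hu => by
      have hg := hG.nonneg hx
      rw [abs_mul, sq]
      calc |u| * |v x| ≤ ((K + |d|) * G x) * (|B| * G x) := mul_le_mul hu
            ((hB x hx).trans (mul_le_mul_of_nonneg_right (le_abs_self B) hg)) (abs_nonneg _)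
            (by positivity)
        _ ≤ ((K + |d|) * (1 + G x)) * (|B| * (1 + G x)) := by gcongr <;> linarith
        _ = _ := by ring
  obtain ⟨Λ, hΛK, h1, h2⟩ := ((eventually_ge_atTop K).and
    ((t1.eventually (eventually_le_nhds (lt_add_of_pos_right _ hδ))).and
      (t2.eventually (Metric.closedBall_mem_nhds _ hδ)))).exists
  have e : ∀ x, avgOp (fun u => Ψ u + Λ * G u) j x + (d - Λ) * G x = Φ Λ x + d * G x := fun x => by
    simp only [hΦ]; ring
  refine ⟨avgOp (fun u => Ψ u + Λ * G u) j, d - Λ, isSub_avgOp (hsub hΛK) (hnn hΛK) j,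
    monIn_avgOp (hsub hΛK) (hnn hΛK) j, fun i hi => monIn_avgOp_of_monIn (hsub hΛK) (hnn hΛK) j
      fun x hx s hs => add_le_add (hi x hx s hs)
        (mul_le_mul_of_nonneg_left (hG.monIn i x hx s hs) (hK0.trans hΛK)), ?_, ?_⟩
  · simp only [e]
    exact h1.trans (add_le_add hsq le_rfl)
  · simp only [e]
    rw [← hpair, ← Real.dist_eq]
    exact h2

end Vale.Agent.P254.CT
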