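import Mathlib
import Vale.Agent.P254.CT.Base
import Vale.Agent.P254.CT.Operator
import Vale.Agent.P254.MidpointPL

/-!
Fibres and slices of a body in one coordinate.
-/

noncomputable section

open MeasureTheory Set Function Filter
open scoped BigOperators Topology ENNReal

namespace Vale.Agent.P254.CT

variable {m : ℕ} (G : (Fin (m + 1) → ℝ) → ℝ) (k : Fin (m + 1))

/-- The slice at height `y`. -/
def sliceAt (y : ℝ) : Set (Fin m → ℝ) := {z | z ∈ orth m ∧ G (k.insertNth y z) ≤ 1}

/-- The length of the fibre above `z`. -/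
def fibre (z : Fin m → ℝ) : ℝ := sSup {y : ℝ | 0 ≤ y ∧ z ∈ sliceAt G k y}

/-- The largest fibre length. -/
def fibreMax : ℝ := (G (unit k))⁻¹

lemma ins_mem {y : ℝ} (hy : 0 ≤ y) {z : Fin m → ℝ} (hz : z ∈ orth m) :
    k.insertNth y z ∈ orth (m + 1) := fun i => by
  induction i using Fin.succAboveCases k <;> simp [hy, hz _]

lemma ins_eq (y : ℝ) (z : Fin m → ℝ) :
    k.insertNth y z = k.insertNth 0 z + y • unit k := by
  funext i
  induction i using Fin.succAboveCases k with
  | x => simp [unit]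
  | p i => simp [unit, Fin.succAbove_ne k i]

variable {G} (hG : IsGauge G)
include hG

lemma ins_mono {a b : ℝ} (ha : 0 ≤ a) (hab : a ≤ b) {z : Fin m → ℝ} (hz : z ∈ orth m) :
    G (k.insertNth a z) ≤ G (k.insertNth b z) := by
  rw [ins_eq k a, ins_eq k b]
  exact gauge_ray_mono hG k (ins_mem k le_rfl hz) ha hab

lemma fibreMax_pos : 0 < fibreMax G k := inv_pos.2 (hG.unit_pos k)

lemma slice_le_max {y : ℝ} (hy : 0 ≤ y) {z : Fin m → ℝ} (hz : z ∈ sliceAt G k y) :
    y ≤ fibreMax G k := by
  have := (hG.coord_le (ins_mem k hy hz.1) k).trans hz.2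
  rw [Fin.insertNth_apply_same] at this
  rw [fibreMax, inv_eq_one_div, le_div_iff₀ (hG.unit_pos k)]
  exact this

lemma isClosed_sliceAt {y : ℝ} (hy : 0 ≤ y) : IsClosed (sliceAt G k y) :=
  (hG.continuousOn.comp (Continuous.continuousOn (by fun_prop)) fun _ hz => ins_mem k hy hz)
    |>.preimage_isClosed_of_isClosed isClosed_orth isClosed_Iic

lemma fibre_bdd (z : Fin m → ℝ) : BddAbove {y : ℝ | 0 ≤ y ∧ z ∈ sliceAt G k y} :=
  ⟨fibreMax G k, fun _ hy => slice_le_max k hG hy.1 hy.2⟩

lemma fibre_nonneg (z : Fin m → ℝ) : 0 ≤ fibre G k z := Real.sSup_nonneg fun _ hy => hy.1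

lemma fibre_le_max (z : Fin m → ℝ) : fibre G k z ≤ fibreMax G k :=
  Real.sSup_le (fun _ hy => slice_le_max k hG hy.1 hy.2) (fibreMax_pos k hG).le

lemma fibre_zero {z : Fin m → ℝ} (hz : z ∉ sliceAt G k 0) : fibre G k z = 0 := by
  have : {y : ℝ | 0 ≤ y ∧ z ∈ sliceAt G k y} = ∅ :=
    eq_empty_iff_forall_notMem.2 fun y hy => hz ⟨hy.2.1,
      (ins_mono k hG le_rfl hy.1 hy.2.1).trans hy.2.2⟩
  rw [fibre, this, Real.sSup_empty]

lemma le_fibre {y : ℝ} (hy : 0 ≤ y) {z : Fin m → ℝ} (hz : z ∈ sliceAt G k y) :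
    y ≤ fibre G k z := le_csSup (fibre_bdd k hG z) ⟨hy, hz⟩

lemma mem_slice_of_le {y : ℝ} (hy : 0 ≤ y) {z : Fin m → ℝ} (hz : z ∈ sliceAt G k 0)
    (hle : y ≤ fibre G k z) : z ∈ sliceAt G k y := by
  have hcl : IsClosed {t : ℝ | t ∈ Ici (0 : ℝ) ∧ G (k.insertNth t z) ≤ 1} :=
    (hG.continuousOn.comp (Continuous.continuousOn (by fun_prop)) fun _ ht => ins_mem k ht hz.1)
      |>.preimage_isClosed_of_isClosed isClosed_Ici isClosed_Iic
  have he : {t : ℝ | t ∈ Ici (0 : ℝ) ∧ G (k.insertNth t z) ≤ 1}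
      = {t : ℝ | 0 ≤ t ∧ z ∈ sliceAt G k t} := by
    ext t; exact ⟨fun h => ⟨h.1, hz.1, h.2⟩, fun h => ⟨h.1, h.2.2⟩⟩
  rw [he] at hcl
  have hmem := hcl.csSup_mem ⟨0, le_rfl, hz⟩ (fibre_bdd k hG z)
  exact ⟨hz.1, (ins_mono k hG hy hle hz.1).trans hmem.2.2⟩

lemma mem_slice_iff {y : ℝ} (hy : 0 < y) (z : Fin m → ℝ) :
    z ∈ sliceAt G k y ↔ y ≤ fibre G k z := by
  refine ⟨le_fibre k hG hy.le, fun h => ?_⟩
  refine mem_slice_of_le k hG hy.le (by_contra fun hz => ?_) h
  rw [fibre_zero k hG hz] at h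
  linarith

lemma measurable_fibre : Measurable (fibre G k) := by
  refine measurable_of_Ici fun y => ?_
  rcases le_or_gt y 0 with h | h
  · rw [show fibre G k ⁻¹' Ici y = univ from eq_univ_of_forall fun z => h.trans (fibre_nonneg k hG z)]
    exact MeasurableSet.univ
  · rw [show fibre G k ⁻¹' Ici y = sliceAt G k y from
      Set.ext fun z => (mem_slice_iff k hG h z).symm]
    exact (isClosed_sliceAt k hG h.le).measurableSet

lemma isCompact_sliceAt {y : ℝ} (hy : 0 ≤ y) : IsCompact (sliceAt G k y) := by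
  refine Metric.isCompact_of_isClosed_isBounded (isClosed_sliceAt k hG hy)
    ((Bornology.IsBounded.pi (S := fun i => Icc (0 : ℝ) (G (unit (k.succAbove i)))⁻¹)
      fun i => Metric.isBounded_Icc _ _).subset fun z hz i _ => ⟨hz.1 i, ?_⟩)
  rw [inv_eq_one_div, le_div_iff₀ (hG.unit_pos _)]
  have := (hG.coord_le (ins_mem k hy hz.1) (k.succAbove i)).trans hz.2
  simpa using this

/-- Integrals over the body fibre by fibre. -/
lemma integral_body_fibre {f : (Fin (m + 1) → ℝ) → ℝ} (hf : IntegrableOn f (body G)) :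
    ∫ x in body G, f x
      = ∫ z in orth m, ∫ y in (0 : ℝ)..fibre G k z, f (k.insertNth y z) := by
  have hb := hG.measurableSet_body
  have h1 : ∫ x in body G, f x = ∫ x in orth (m + 1), (body G).indicator f x := by
    rw [setIntegral_indicator hb, inter_eq_right.2 fun x hx => hx.1]
  rw [h1, integral_orth_lines k (((integrable_indicator_iff hb).2 hf).integrableOn)]
  refine setIntegral_congr_fun measurableSet_orth fun z hz => ?_
  show (∫ y in Ici (0 : ℝ), (body G).indicator f (k.insertNth y z)) = _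
  rw [intervalIntegral.integral_of_le (fibre_nonneg k hG z), ← integral_Icc_eq_integral_Ioc]
  by_cases h0 : z ∈ sliceAt G k 0
  · rw [setIntegral_eq_of_subset_of_forall_sdiff_eq_zero measurableSet_Ici
      (show Icc 0 (fibre G k z) ⊆ Ici (0 : ℝ) from Icc_subset_Ici_self) (f := fun y =>
        (body G).indicator f (k.insertNth y z)) fun y hy => ?_]
    · exact setIntegral_congr_fun measurableSet_Icc fun y hy => indicator_of_mem
        (show k.insertNth y z ∈ body G from
          ⟨ins_mem k hy.1 hz, (mem_slice_of_le k hG hy.1 h0 hy.2).2⟩) f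
    · refine indicator_of_notMem (fun h => hy.2 ⟨hy.1, le_fibre k hG hy.1 ⟨hz, h.2⟩⟩) _
  · rw [fibre_zero k hG h0]
    simp only [Icc_self, integral_singleton, measureReal_def, Real.volume_singleton,
      ENNReal.toReal_zero, zero_smul]
    refine setIntegral_eq_zero_of_forall_eq_zero fun y hy => indicator_of_notMem (fun h => h0
      ⟨hz, (ins_mono k hG le_rfl hy hz).trans h.2⟩) _

/-- Monomial form. -/
lemma integral_body_pow (e : ℕ) {h : (Fin m → ℝ) → ℝ} (hh : Continuous h) :
    ∫ x in body G, x k ^ e * h (k.removeNth x)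
      = (∫ z in orth m, h z * fibre G k z ^ (e + 1)) / ((e : ℝ) + 1) := by
  have hi : IntegrableOn (fun x : Fin (m + 1) → ℝ => x k ^ e * h (k.removeNth x)) (body G) := by
    refine (Continuous.continuousOn ?_).integrableOn_compact hG.isCompact_body
    exact ((continuous_apply k).pow e).mul (hh.comp (continuous_pi fun i => continuous_apply _))
  rw [integral_body_fibre k hG hi, ← integral_div]
  refine setIntegral_congr_fun measurableSet_orth fun z _ => ?_
  show (∫ y in (0 : ℝ)..fibre G k z, _) = _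
  simp only [Fin.insertNth_apply_same, Fin.removeNth_insertNth, intervalIntegral.integral_mul_const,
    integral_pow]
  simp
  ring

lemma integrable_fibre_pow (e : ℕ) {h : (Fin m → ℝ) → ℝ} (hh : Continuous h) :
    IntegrableOn (fun z => h z * fibre G k z ^ (e + 1)) (orth m) := by
  have hs := isCompact_sliceAt k hG le_rfl
  obtain ⟨B, hB⟩ := hs.exists_bound_of_continuousOn hh.continuousOn
  refine IntegrableOn.of_forall_sdiff_eq_zero (s := sliceAt G k 0) ?_ measurableSet_orth
    fun z hz => by rw [fibre_zero k hG hz.2]; simp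
  refine Measure.integrableOn_of_bounded (M := B * fibreMax G k ^ (e + 1)) hs.measure_lt_top.ne
    (hh.measurable.mul ((measurable_fibre k hG).pow_const _)).aestronglyMeasurable ?_
  filter_upwards [ae_restrict_mem hs.measurableSet] with z hz
  rw [Real.norm_eq_abs, abs_mul, abs_of_nonneg (pow_nonneg (fibre_nonneg k hG z) _)]
  exact mul_le_mul (hB z hz) (pow_le_pow_left₀ (fibre_nonneg k hG z) (fibre_le_max k hG z) _)
    (pow_nonneg (fibre_nonneg k hG z) _) ((norm_nonneg _).trans (hB z hz))

/-- Integrals over the body slice by slice. -/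
lemma integral_body_slice {φ : ℝ → ℝ} (hφ : Continuous φ) :
    ∫ x in body G, φ (x k)
      = ∫ y in Ioo 0 (fibreMax G k), φ y * (volume (sliceAt G k y)).toReal := by
  set e := MeasurableEquiv.piFinSuccAbove (fun _ : Fin (m + 1) => ℝ) k
  have hmp : MeasurePreserving e volume volume :=
    volume_preserving_piFinSuccAbove (fun _ : Fin (m + 1) => ℝ) k
  have hsymm : ∀ (y : ℝ) (z : Fin m → ℝ), e.symm (y, z) = k.insertNth y z := fun y z => by
    simp [e, Fin.insertNthEquiv]
  have hb := hG.measurableSet_body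
  have hi : Integrable ((body G).indicator fun x => φ (x k)) :=
    (integrable_indicator_iff hb).2
      ((hφ.comp (continuous_apply k)).continuousOn.integrableOn_compact hG.isCompact_body)
  have h2 : Integrable (fun p : ℝ × (Fin m → ℝ) => (body G).indicator (fun x => φ (x k)) (e.symm p)) :=
    ((hmp.symm e).integrable_comp_emb e.symm.measurableEmbedding).2 hi
  rw [← integral_indicator hb, ← (hmp.symm e).integral_comp e.symm.measurableEmbedding,
    Measure.volume_eq_prod, integral_prod _ h2]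
  simp only [hsymm]
  rw [← setIntegral_eq_integral_of_forall_compl_eq_zero
    (s := Icc 0 (fibreMax G k)) fun y hy => ?_]
  · rw [integral_Icc_eq_integral_Ioo]
    refine setIntegral_congr_fun measurableSet_Ioo fun y hy => ?_
    have : (fun z => (body G).indicator (fun x => φ (x k)) (k.insertNth y z))
        = (sliceAt G k y).indicator (fun _ => φ y) := by
      funext z
      by_cases hz : z ∈ sliceAt G k y
      · rw [indicator_of_mem hz, indicator_of_mem (show k.insertNth y z ∈ body G from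
          ⟨ins_mem k hy.1.le hz.1, hz.2⟩), Fin.insertNth_apply_same]
      · rw [indicator_of_notMem hz, indicator_of_notMem]
        exact fun h => hz ⟨fun i => by simpa using h.1 (k.succAbove i), h.2⟩
    show (∫ z, (body G).indicator (fun x => φ (x k)) (k.insertNth y z)) = _
    rw [this, integral_indicator (isClosed_sliceAt k hG hy.1.le).measurableSet, setIntegral_const,
      smul_eq_mul, measureReal_def, mul_comm]
  · refine integral_eq_zero_of_ae (Eventually.of_forall fun z => indicator_of_notMem (fun h => hy ?_) _)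
    have h0 : 0 ≤ y := by simpa using h.1 k
    exact ⟨h0, slice_le_max k hG h0 ⟨fun i => by simpa using h.1 (k.succAbove i), h.2⟩⟩

lemma slice_anti {a b : ℝ} (ha : 0 ≤ a) (hab : a ≤ b) : sliceAt G k b ⊆ sliceAt G k a :=
  fun _ hz => ⟨hz.1, (ins_mono k hG ha hab hz.1).trans hz.2⟩

/-- Midpoint log-concavity of the slice volumes. -/
lemma slice_midpoint {a b : ℝ} (ha : 0 ≤ a) (hb : 0 ≤ b) :
    (volume (sliceAt G k a)).toReal * (volume (sliceAt G k b)).toReal
      ≤ (volume (sliceAt G k ((a + b) / 2))).toReal ^ 2 := by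
  have hc : 0 ≤ (a + b) / 2 := by linarith
  set r := ∑ i, (G (unit i))⁻¹ with hr
  have hbox : ∀ y : ℝ, 0 ≤ y → sliceAt G k y ⊆ univ.pi fun _ => Icc (-r) r := by
    intro y hy z hz i _
    have h1 := (hG.coord_le (ins_mem k hy hz.1) (k.succAbove i)).trans hz.2
    rw [Fin.insertNth_apply_succAbove, ← le_div_iff₀ (hG.unit_pos _), one_div] at h1
    have h2 : (G (unit (k.succAbove i)))⁻¹ ≤ r := Finset.single_le_sum
      (f := fun i => (G (unit i))⁻¹) (fun i _ => (inv_pos.2 (hG.unit_pos i)).le) (Finset.mem_univ _)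
    exact ⟨by linarith [hz.1 i, inv_pos.2 (hG.unit_pos (k.succAbove i))], h1.trans h2⟩
  have hle : ∀ y : ℝ, 0 ≤ y → ∀ z, (sliceAt G k y).indicator (fun _ => (1 : ℝ≥0∞)) z
      ≤ (univ.pi fun _ => Icc (-r) r).indicator (fun _ => 1) z := fun y hy z =>
    indicator_le_indicator_of_subset (hbox y hy) (fun _ => zero_le) z
  have hm : ∀ y : ℝ, 0 ≤ y → Measurable ((sliceAt G k y).indicator fun _ => (1 : ℝ≥0∞)) :=
    fun y hy => measurable_const.indicator (isClosed_sliceAt k hG hy).measurableSet
  have h := pi_mul_le_sq r (M := 1) ENNReal.one_ne_top (hm a ha) (hm b hb) (hm _ hc) (hle a ha)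
    (hle b hb) (hle _ hc) fun x y => ?_
  · simp only [lintegral_indicator_const (isClosed_sliceAt k hG ha).measurableSet,
      lintegral_indicator_const (isClosed_sliceAt k hG hb).measurableSet,
      lintegral_indicator_const (isClosed_sliceAt k hG hc).measurableSet, one_mul] at h
    rw [← ENNReal.toReal_mul, ← ENNReal.toReal_pow]
    exact ENNReal.toReal_mono (ENNReal.pow_ne_top (isCompact_sliceAt k hG hc).measure_lt_top.ne) h
  · by_cases hx : x ∈ sliceAt G k a
    swap; · simp [hx]
    by_cases hy : y ∈ sliceAt G k b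
    swap; · simp [hy]
    have hmid : (fun i => (x i + y i) / 2) ∈ sliceAt G k ((a + b) / 2) := by
      refine ⟨fun i => by linarith [hx.1 i, hy.1 i], ?_⟩
      have e : k.insertNth ((a + b) / 2) (fun i => (x i + y i) / 2)
          = (1 / 2 : ℝ) • k.insertNth a x + (1 / 2 : ℝ) • k.insertNth b y := by
        funext i
        induction i using Fin.succAboveCases k <;> simp <;> ring
      rw [e]
      refine (hG.sub _ (smul_mem_orth (ins_mem k ha hx.1) (by norm_num)) _
        (smul_mem_orth (ins_mem k hb hy.1) (by norm_num))).trans ?_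
      rw [hG.hom _ (ins_mem k ha hx.1) _ (by norm_num), hG.hom _ (ins_mem k hb hy.1) _ (by norm_num)]
      linarith [hx.2, hy.2]
    simp [hx, hy, hmid]

/-- Near any point of the open slice, the slice has positive volume. -/
lemma slice_pos_near {y : ℝ} (hy : 0 ≤ y) {z : Fin m → ℝ} (hz : z ∈ orth m)
    (hlt : G (k.insertNth y z) < 1) {W : Set (Fin m → ℝ)} (hW : IsOpen W) (hzW : z ∈ W) :
    0 < volume (W ∩ sliceAt G k y) := by
  have hc : ContinuousOn (fun w => G (k.insertNth y w)) (orth m) :=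
    hG.continuousOn.comp (Continuous.continuousOn (by fun_prop)) fun _ hw => ins_mem k hy hw
  have hev := (hc z hz).eventually (eventually_lt_nhds hlt)
  obtain ⟨U, hU, hzU, hUsub⟩ := mem_nhdsWithin.1 hev
  obtain ⟨ε, hε, hball⟩ := Metric.isOpen_iff.1 (hU.inter hW) z ⟨hzU, hzW⟩
  have hsub : (univ.pi fun i => Ioo (z i) (z i + ε / 2)) ⊆ W ∩ sliceAt G k y := by
    intro w hw
    have hwo : w ∈ orth m := fun i => (hz i).trans (hw i (mem_univ _)).1.le
    have hwb : w ∈ Metric.ball z ε := by
      rw [Metric.mem_ball, dist_pi_lt_iff hε]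
      intro i
      rw [Real.dist_eq, abs_lt]
      constructor <;> linarith [(hw i (mem_univ _)).1, (hw i (mem_univ _)).2]
    exact ⟨(hball hwb).2, hwo, le_of_lt (hUsub ⟨(hball hwb).1, hwo⟩)⟩
  refine lt_of_lt_of_le ?_ (measure_mono hsub)
  rw [volume_pi_pi]
  simp [Real.volume_Ioo, hε, pos_iff_ne_zero]

end Vale.Agent.P254.CT
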