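import Mathlib
import Vale.Agent.P254.CT.Fibre

/-!
The second variation bounded by weighted powers of the fibre length.
-/

noncomputable section

open MeasureTheory Set Function Filter
open scoped BigOperators Topology

namespace Vale.Agent.P254.CT

/-- Weighted mean of a function of the base point, the weight being the fibre length. -/
def fmean {m : ℕ} (G : (Fin (m + 1) → ℝ) → ℝ) (k : Fin (m + 1)) (h : (Fin m → ℝ) → ℝ) : ℝ :=
  (∫ z in orth m, h z * fibre G k z) / vol G

variable {m : ℕ} {G : (Fin (m + 1) → ℝ) → ℝ} (hG : IsGauge G) (k : Fin (m + 1))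
include hG

lemma vol_eq_fibre : vol G = ∫ z in orth m, fibre G k z := by
  have := integral_body_pow k hG 0 (h := fun _ => (1 : ℝ)) continuous_const
  simpa [vol, Measure.real] using this

lemma mom_eq_fibre : mom G k = (∫ z in orth m, fibre G k z ^ 2) / 2 := by
  have := integral_body_pow k hG 1 (h := fun _ => (1 : ℝ)) continuous_const
  norm_num at this
  exact this

lemma integrable_mul_fibre {h : (Fin m → ℝ) → ℝ} (hh : Measurable h) {B : ℝ}
    (hB : ∀ z, |h z| ≤ B) : IntegrableOn (fun z => h z * fibre G k z) (orth m) := by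
  have h0 := integrable_fibre_pow k hG 0 (h := fun _ => (1 : ℝ)) continuous_const
  simp only [zero_add, pow_one, one_mul] at h0
  exact h0.bdd_mul (c := B) hh.aestronglyMeasurable (Eventually.of_forall fun z => hB z)

/-- The curvature bound in terms of weighted powers of the fibre length. -/
lemma curv_le (hvar : VarBound) {lam : ℝ} (hlam : 0 < lam)
    (hsq : ∀ i, i ≠ k → vol G * (∫ x in body G, x i ^ 2) ≤ lam * mom G i ^ 2) (p : ℕ)
    (hslope : slope G k (p + 1) = 0) :
    curv G k (p + 1) ≤ (mom G k / vol G) ^ (2 * p) *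
      (lam * (fmean G k (fun z => (fibre G k z / (mom G k / vol G)) ^ (2 * p))
          - fmean G k (fun z => (fibre G k z / (mom G k / vol G)) ^ p) ^ 2)
        + (fmean G k (fun z => (fibre G k z / (mom G k / vol G)) ^ (p + 1))
          - fmean G k (fun z => (fibre G k z / (mom G k / vol G)) ^ p)) ^ 2
        + fmean G k (fun z => (fibre G k z / (mom G k / vol G)) ^ p) ^ 2
        - fmean G k (fun z => (fibre G k z / (mom G k / vol G)) ^ (2 * p + 1))) := by
  set A := fibre G k with hA
  set V := vol G with hV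
  have hV0 : 0 < V := hG.vol_pos
  have hMk : 0 < mom G k := hG.mom_pos k
  set c := mom G k / V with hc
  have hc0 : 0 < c := div_pos hMk hV0
  have hscale : ∀ e : ℕ, fmean G k (fun z => (A z / c) ^ e)
      = (∫ z in orth m, A z ^ (e + 1)) / (c ^ e * V) := fun e => by
    rw [fmean, ← div_div]
    congr 1
    rw [← integral_div]
    refine setIntegral_congr_fun measurableSet_orth fun z _ => ?_
    show (A z / c) ^ e * A z = _
    rw [div_pow, pow_succ]; ring
  set I : ℕ → ℝ := fun e => ∫ z in orth m, A z ^ (e + 1) with hI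
  have hxk : ∀ e : ℕ, ∫ x in body G, x k ^ e = I e / ((e : ℝ) + 1) := fun e => by
    have := integral_body_pow k hG e (h := fun _ => (1 : ℝ)) continuous_const
    simpa [hI, hA] using this
  -- the coordinates other than `k`
  set b : Fin m → ℝ := fun i => ∫ z in orth m, z i * A z ^ (p + 1) with hb
  set μ : Fin m → ℝ := fun i => mom G (k.succAbove i) with hμ
  have hμ0 : ∀ i, 0 < μ i := fun i => hG.mom_pos _
  have hμe : ∀ i, μ i = ∫ z in orth m, z i * A z := fun i => by
    have := integral_body_pow k hG 0 (h := fun z : Fin m → ℝ => z i) (continuous_apply i)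
    simpa [hμ, mom, hA, Fin.removeNth] using this
  have hbe : ∀ i, ∫ x in body G, ((p + 1 : ℕ) : ℝ) * x k ^ (p + 1 - 1) * x (k.succAbove i) = b i :=
    fun i => by
      have h1 := integral_body_pow k hG p (h := fun z : Fin m → ℝ => z i) (continuous_apply i)
      simp only [Nat.add_sub_cancel, mul_assoc, integral_const_mul]
      simp only [Fin.removeNth] at h1
      rw [h1]; push_cast; field_simp; rfl
  have ha : ∫ x in body G, ((p + 1 : ℕ) : ℝ) * x k ^ (p + 1 - 1) = I p := by
    simp only [Nat.add_sub_cancel, integral_const_mul, hxk]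
    push_cast; field_simp
  have hbk : ∫ x in body G, ((p + 1 : ℕ) : ℝ) * x k ^ (p + 1 - 1) * x k
      = ((p : ℝ) + 1) * (I (p + 1) / ((p : ℝ) + 1 + 1)) := by
    simp only [Nat.add_sub_cancel, mul_assoc, integral_const_mul, ← pow_succ, hxk]
    push_cast; ring
  set C : Fin m → ℝ := fun i => b i / μ i - I p / V with hC
  set S := ∑ i, C i ^ 2 with hS
  set R := I (p + 1) / mom G k with hR
  set P := I p / V with hP
  have hsum : ∑ i, C i = 2 * P - R := by
    unfold slope at hslope
    rw [Fin.sum_univ_succAbove _ k, hbk, ha, hxk] at hslope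
    simp only [hbe] at hslope
    rw [hC, Finset.sum_sub_distrib, Finset.sum_const, Finset.card_univ, Fintype.card_fin,
      nsmul_eq_mul]
    push_cast at hslope
    have e : ((p : ℝ) + 1) * (I (p + 1) / ((p : ℝ) + 1 + 1)) / mom G k
        + I (p + 1) / ((p : ℝ) + 1 + 1) / mom G k = R := by
      rw [hR]; field_simp
    have e2 : ((m : ℝ) + 1 + 1) * I p / V = ((m : ℝ) + 2) * P := by rw [hP]; ring
    change _ - (m : ℝ) * P = _
    linarith
  have hcurv : curv G k (p + 1) = S + (R - P) ^ 2 + P ^ 2 - I (2 * p + 1) / mom G k := by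
    unfold curv
    have hs : ∀ F : Fin (m + 1) → ℝ, ∑ i ∈ Finset.univ.erase k, F i = ∑ i, F (k.succAbove i) := by
      intro F
      have := Finset.add_sum_erase Finset.univ F (Finset.mem_univ k)
      rw [Fin.sum_univ_succAbove F k] at this
      linarith
    rw [hs, ha, hxk (2 * (p + 1) - 1), hxk (p + 1)]
    simp only [hbe]
    rw [show 2 * (p + 1) - 1 = 2 * p + 1 by omega]
    push_cast
    have e1 : ∀ i, (b i / μ i) ^ 2 = C i ^ 2 + 2 * P * C i + P ^ 2 := fun i => by
      simp only [hC, hP]; ring
    rw [Finset.sum_congr rfl fun i _ => e1 i, Finset.sum_add_distrib, Finset.sum_add_distrib,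
      ← Finset.mul_sum, hsum, Finset.sum_const, Finset.card_univ, Fintype.card_fin, nsmul_eq_mul,
      ← hS]
    have e2 : ((p : ℝ) + 1 + 1) * (I (p + 1) / ((p : ℝ) + 1 + 1)) / mom G k = R := by
      rw [hR]; field_simp
    have e3 : 2 * (((p : ℝ) + 1) * (I (2 * p + 1) / (2 * (p : ℝ) + 1 + 1))) / mom G k
        = I (2 * p + 1) / mom G k := by field_simp; ring
    rw [e2, e3, ← hP]
    ring
  -- Cauchy-Schwarz against the variance bound
  set d : Fin m → ℝ := fun i => C i * V / μ i with hd
  set w : (Fin m → ℝ) → ℝ := fun z => ∑ i, d i * z i with hw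
  have hwc : Continuous w := by fun_prop
  have hint : ∀ (e : ℕ) {h : (Fin m → ℝ) → ℝ}, Continuous h →
      IntegrableOn (fun z => h z * A z ^ (e + 1)) (orth m) := fun e _ hh =>
    integrable_fibre_pow k hG e hh
  have hwA : ∫ z in orth m, w z * A z = V * ∑ i, C i := by
    simp only [hw, Finset.sum_mul, mul_assoc]
    rw [integral_finsetSum _ fun i _ => ?_]
    · rw [Finset.mul_sum]
      refine Finset.sum_congr rfl fun i _ => ?_
      rw [integral_const_mul, ← hμe, hd]
      field_simp [(hμ0 i).ne']
    · simpa using (hint 0 (continuous_apply i)).const_mul (d i)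
  have hwu : ∫ z in orth m, w z * A z ^ (p + 1) = ∑ i, d i * b i := by
    simp only [hw, Finset.sum_mul, mul_assoc]
    rw [integral_finsetSum _ fun i _ => (hint p (continuous_apply i)).const_mul (d i)]
    exact Finset.sum_congr rfl fun i _ => integral_const_mul _ _
  have hvw : (∫ z in orth m, w z ^ 2 * A z) * V - (∫ z in orth m, w z * A z) ^ 2
      ≤ V * (lam * V * S) := by
    have h := hvar (m + 1) G (k.insertNth 0 d) hG
    have e1 : ∀ x : Fin (m + 1) → ℝ,
        ∑ i, (k.insertNth (α := fun _ => ℝ) 0 d) i * x i = w (k.removeNth x) := fun x => by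
      rw [Fin.sum_univ_succAbove _ k]
      simp [hw, Fin.removeNth]
    simp only [e1] at h
    have h2 := integral_body_pow k hG 0 (h := fun z => w z ^ 2) (hwc.pow 2)
    have h3 := integral_body_pow k hG 0 hwc
    simp only [pow_zero, one_mul, CharP.cast_eq_zero, zero_add, div_one, pow_one] at h2 h3
    rw [h2, h3, ← hA, ← hV] at h
    rw [mul_comm (∫ z in orth m, w z ^ 2 * A z) V]
    refine h.trans (mul_le_mul_of_nonneg_left ?_ hV0.le)
    rw [Fin.sum_univ_succAbove _ k, Fin.insertNth_apply_same, hS, Finset.mul_sum]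
    simp only [ne_eq, OfNat.ofNat_ne_zero, not_false_eq_true, zero_pow, zero_mul, zero_add,
      Fin.insertNth_apply_succAbove]
    refine Finset.sum_le_sum fun i _ => ?_
    have := hsq (k.succAbove i) (Fin.succAbove_ne k i)
    calc d i ^ 2 * ∫ x in body G, x (k.succAbove i) ^ 2
        = C i ^ 2 * V / μ i ^ 2 * (V * ∫ x in body G, x (k.succAbove i) ^ 2) := by
          rw [hd]; field_simp
      _ ≤ C i ^ 2 * V / μ i ^ 2 * (lam * μ i ^ 2) :=
          mul_le_mul_of_nonneg_left this (by positivity)
      _ = lam * V * C i ^ 2 := by field_simp [(hμ0 i).ne']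
  have hVar : ∫ z in orth m, (w z - ∑ i, C i) ^ 2 * A z ≤ lam * V * S := by
    have e : ∀ z, (w z - ∑ i, C i) ^ 2 * A z
        = w z ^ 2 * A z - 2 * (∑ i, C i) * (w z * A z) + (∑ i, C i) ^ 2 * A z := fun z => by ring
    have i1 : IntegrableOn (fun z => w z ^ 2 * A z) (orth m) := by
      simpa using hint 0 (hwc.pow 2)
    have i2 : IntegrableOn (fun z => 2 * (∑ i, C i) * (w z * A z)) (orth m) := by
      have h0 : IntegrableOn (fun z => w z * A z) (orth m) := by simpa using hint 0 hwc
      exact h0.const_mul _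
    have i3 : IntegrableOn (fun z => (∑ i, C i) ^ 2 * A z) (orth m) := by
      simpa using hint 0 (continuous_const (y := (∑ i, C i) ^ 2))
    simp only [e]
    have i12 : IntegrableOn (fun z => w z ^ 2 * A z - 2 * (∑ i, C i) * (w z * A z)) (orth m) :=
      i1.sub i2
    rw [integral_add i12 i3, integral_sub i1 i2, integral_const_mul, integral_const_mul,
      hwA, ← vol_eq_fibre hG k, ← hV]
    rw [hwA] at hvw
    refine le_of_mul_le_mul_left ?_ hV0
    nlinarith
  have hSle : S ≤ lam * (I (2 * p) / V - P ^ 2) := by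
    have hpt : ∀ z, 2 * ((w z - ∑ i, C i) * (A z ^ p - P)) * A z
        ≤ (1 / lam) * ((w z - ∑ i, C i) ^ 2 * A z) + lam * ((A z ^ p - P) ^ 2 * A z) := by
      intro z
      have h1 : 2 * ((w z - ∑ i, C i) * (A z ^ p - P))
          ≤ (1 / lam) * (w z - ∑ i, C i) ^ 2 + lam * (A z ^ p - P) ^ 2 := by
        have h2 := mul_nonneg (one_div_pos.2 hlam).le
          (sq_nonneg ((w z - ∑ i, C i) - lam * (A z ^ p - P)))
        have h3 : (1 / lam) * ((w z - ∑ i, C i) - lam * (A z ^ p - P)) ^ 2
            = (1 / lam) * (w z - ∑ i, C i) ^ 2 + lam * (A z ^ p - P) ^ 2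
              - 2 * ((w z - ∑ i, C i) * (A z ^ p - P)) := by field_simp; ring
        linarith
      have := mul_le_mul_of_nonneg_right h1 (fibre_nonneg k hG z)
      rw [← hA] at this
      linarith
    have j1 : IntegrableOn (fun z => A z ^ (p + 1)) (orth m) := by
      simpa using hint p (continuous_const (y := (1 : ℝ)))
    have j2 : IntegrableOn (fun z => A z ^ (2 * p + 1)) (orth m) := by
      simpa using hint (2 * p) (continuous_const (y := (1 : ℝ)))
    have j0 : IntegrableOn (fun z => A z) (orth m) := by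
      simpa using hint 0 (continuous_const (y := (1 : ℝ)))
    have jw : IntegrableOn (fun z => w z * A z) (orth m) := by simpa using hint 0 hwc
    have jwp : IntegrableOn (fun z => w z * A z ^ (p + 1)) (orth m) := hint p hwc
    have jl : IntegrableOn (fun z => 2 * ((w z - ∑ i, C i) * (A z ^ p - P)) * A z) (orth m) :=
      ((((jwp.const_mul 2).sub (jw.const_mul (2 * P))).sub (j1.const_mul (2 * ∑ i, C i))).add
        (j0.const_mul (2 * (∑ i, C i) * P))).congr (Eventually.of_forall fun z => by
          simp only [Pi.add_apply, Pi.sub_apply]; ring)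
    have jv : IntegrableOn (fun z => (w z - ∑ i, C i) ^ 2 * A z) (orth m) := by
      simpa using hint 0 (h := fun z => (w z - ∑ i, C i) ^ 2) (by fun_prop)
    have jr : IntegrableOn (fun z => (A z ^ p - P) ^ 2 * A z) (orth m) :=
      ((j2.sub (j1.const_mul (2 * P))).add (j0.const_mul (P ^ 2))).congr
        (Eventually.of_forall fun z => by simp only [Pi.add_apply, Pi.sub_apply]; ring)
    have jvr : IntegrableOn (fun z => 1 / lam * ((w z - ∑ i, C i) ^ 2 * A z)
        + lam * ((A z ^ p - P) ^ 2 * A z)) (orth m) :=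
      (jv.const_mul (1 / lam)).add (jr.const_mul lam)
    have h := setIntegral_mono jl jvr hpt
    rw [integral_add (jv.const_mul (1 / lam)) (jr.const_mul lam), integral_const_mul, integral_const_mul] at h
    have el : ∫ z in orth m, 2 * ((w z - ∑ i, C i) * (A z ^ p - P)) * A z = 2 * (V * S) := by
      have e : ∀ z, 2 * ((w z - ∑ i, C i) * (A z ^ p - P)) * A z = 2 * (w z * A z ^ (p + 1))
          - 2 * P * (w z * A z) - 2 * (∑ i, C i) * A z ^ (p + 1) + 2 * (∑ i, C i) * P * A z :=
        fun z => by ring
      simp only [e]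
      have t1 : IntegrableOn (fun z => 2 * (w z * A z ^ (p + 1)) - 2 * P * (w z * A z)) (orth m) :=
        (jwp.const_mul 2).sub (jw.const_mul (2 * P))
      have t2 : IntegrableOn (fun z => 2 * (w z * A z ^ (p + 1)) - 2 * P * (w z * A z)
          - 2 * (∑ i, C i) * A z ^ (p + 1)) (orth m) := t1.sub (j1.const_mul _)
      rw [integral_add t2 (j0.const_mul _), integral_sub t1 (j1.const_mul _),
        integral_sub (jwp.const_mul 2) (jw.const_mul _), integral_const_mul, integral_const_mul,
        integral_const_mul, integral_const_mul, hwu, hwA, ← vol_eq_fibre hG k, ← hV]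
      change 2 * _ - _ - 2 * (∑ i, C i) * I p + _ = _
      have e5 : ∑ i, d i * b i = V * (S + P * ∑ i, C i) := by
        rw [hS, Finset.mul_sum, ← Finset.sum_add_distrib, Finset.mul_sum]
        refine Finset.sum_congr rfl fun i _ => ?_
        simp only [hd, hC, hP]; field_simp [(hμ0 i).ne']; ring
      rw [e5, hP]; field_simp; ring
    have er : ∫ z in orth m, (A z ^ p - P) ^ 2 * A z = I (2 * p) - V * P ^ 2 := by
      have e : ∀ z, (A z ^ p - P) ^ 2 * A z
          = A z ^ (2 * p + 1) - 2 * P * A z ^ (p + 1) + P ^ 2 * A z := fun z => by ring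
      simp only [e]
      have t1 : IntegrableOn (fun z => A z ^ (2 * p + 1) - 2 * P * A z ^ (p + 1)) (orth m) :=
        j2.sub (j1.const_mul _)
      rw [integral_add t1 (j0.const_mul _),
        integral_sub j2 (j1.const_mul _), integral_const_mul, integral_const_mul,
        ← vol_eq_fibre hG k, ← hV]
      change I (2 * p) - 2 * P * I p + _ = _
      rw [hP]; field_simp; ring
    rw [el, er] at h
    have h6 : (1 / lam) * (∫ z in orth m, (w z - ∑ i, C i) ^ 2 * A z) ≤ V * S := by
      rw [one_div, inv_mul_le_iff₀ hlam]; linarith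
    refine le_of_mul_le_mul_left (a := V) ?_ hV0
    have h7 : V * (lam * (I (2 * p) / V - P ^ 2)) = lam * (I (2 * p) - V * P ^ 2) := by field_simp
    linarith
  rw [hcurv]
  refine le_trans (b := lam * (I (2 * p) / V - P ^ 2) + (R - P) ^ 2 + P ^ 2
    - I (2 * p + 1) / mom G k) (by linarith) (le_of_eq ?_)
  simp only [hscale, hR, hP, hI]
  have hck : mom G k = c * V := by rw [hc]; field_simp
  rw [hck]
  field_simp
  ring

end Vale.Agent.P254.CT
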