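import Mathlib
import Vale.Agent.P254.CT.CurvBound

/-!
The bracket in the curvature bound is negative for large powers.
-/

noncomputable section

open MeasureTheory Set Function Filter
open scoped BigOperators Topology

namespace Vale.Agent.P254.CT

/-- The final real inequality. -/
lemma neg_combine {M t η π π' a b U1 U2 U3 U4 : ℝ} (hM : 2 < M)
    (hU1 : 0 ≤ U1) (hU3 : 0 ≤ U3) (hU3' : U3 ≤ M * U1) (hsq : U1 ^ 2 ≤
      (1 + η) * (π * U2) + (1 + 1 / η) * a ^ 2)
    (hU4 : t * U2 - t * a ^ 2 ≤ U4) (hU2 : b ^ 2 * π' ≤ U2)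
    (hβ : 0 < t - 2 / 3 * M - (1 + η) * π * ((M - 1) ^ 2 + 1 - 2 / 3 * M))
    (hab : (((M - 1) ^ 2 + 1 - 2 / 3 * M) * (1 + 1 / η) + t + 1) * a ^ 2
      < (t - 2 / 3 * M - (1 + η) * π * ((M - 1) ^ 2 + 1 - 2 / 3 * M)) * π' * b ^ 2) :
    2 / 3 * M * (U2 - U1 ^ 2) + (U3 - U1) ^ 2 + U1 ^ 2 - U4 < 0 := by
  set κ := (M - 1) ^ 2 + 1 - 2 / 3 * M with hκ
  have hκ0 : 0 ≤ κ := by rw [hκ]; nlinarith [sq_nonneg (M - 4 / 3)]
  set β := t - 2 / 3 * M - (1 + η) * π * κ with hβd
  have h1 : (U3 - U1) ^ 2 ≤ (M - 1) ^ 2 * U1 ^ 2 := by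
    rw [← mul_pow]
    refine sq_le_sq' ?_ ?_ <;> nlinarith
  have h2 := mul_le_mul_of_nonneg_left hsq hκ0
  have h3 : κ * ((1 + η) * (π * U2) + (1 + 1 / η) * a ^ 2)
      = (1 + η) * π * κ * U2 + κ * (1 + 1 / η) * a ^ 2 := by ring
  have h4 : (U3 - U1) ^ 2 + U1 ^ 2 - 2 / 3 * M * U1 ^ 2 ≤ κ * U1 ^ 2 := by
    rw [hκ, sub_mul, add_mul, one_mul]; linarith
  have h5 := mul_le_mul_of_nonneg_left hU2 hβ.le
  have h6 : 0 ≤ a ^ 2 := sq_nonneg a
  have h7 : β * U2 = t * U2 - 2 / 3 * M * U2 - (1 + η) * π * κ * U2 := by rw [hβd]; ring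
  linarith

/-- The choice of the parameters. -/
lemma params {M t₀ q : ℝ} (hM : 2 < M) (ht₀ : t₀ < M) (hq : q < 1) :
    ∃ η t : ℝ, 0 < η ∧ 1 ≤ t ∧ t₀ ≤ t ∧ t < M ∧ ∀ F π : ℝ, F * (3 * M ^ 2 - 8 * M + 6) ≤ q →
      π ≤ M * F → 0 < t - 2 / 3 * M - (1 + η) * π * ((M - 1) ^ 2 + 1 - 2 / 3 * M) := by
  set q' := max q 0 with hq'
  have hq'1 : q' < 1 := max_lt hq one_pos
  have hq'0 : 0 ≤ q' := le_max_right _ _
  set η := (1 - q') / 2 with hη
  have hη0 : 0 < η := by rw [hη]; linarith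
  have hηq : (1 + η) * q' < 1 := by rw [hη]; nlinarith
  set γ := 1 - (1 + η) * q' with hγ
  have hγ0 : 0 < M * γ := mul_pos (by linarith) (by rw [hγ]; linarith)
  set t := max (max t₀ 1) (M - M / 6 * γ) with ht
  refine ⟨η, t, hη0, (le_max_right _ _).trans (le_max_left _ _),
    (le_max_left _ _).trans (le_max_left _ _), max_lt (max_lt ht₀ (by linarith)) (by linarith),
    fun F π hF hπ => ?_⟩
  have hκ0 : 0 ≤ (M - 1) ^ 2 + 1 - 2 / 3 * M := by nlinarith [sq_nonneg (M - 4 / 3)]
  have h1 := mul_le_mul_of_nonneg_right hπ hκ0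
  have h2 : M * F * ((M - 1) ^ 2 + 1 - 2 / 3 * M) = M / 3 * (F * (3 * M ^ 2 - 8 * M + 6)) := by ring
  have h3 := mul_le_mul_of_nonneg_left (hF.trans (le_max_left q 0)) (show 0 ≤ M / 3 by linarith)
  have h4 : (1 + η) * π * ((M - 1) ^ 2 + 1 - 2 / 3 * M) ≤ M / 3 * ((1 + η) * q') := by
    calc (1 + η) * π * ((M - 1) ^ 2 + 1 - 2 / 3 * M)
        = (1 + η) * (π * ((M - 1) ^ 2 + 1 - 2 / 3 * M)) := by ring
      _ ≤ (1 + η) * (M / 3 * q') :=
          mul_le_mul_of_nonneg_left (by rw [hq']; linarith) (by linarith)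
      _ = _ := by ring
  have h5 : M - M / 6 * γ ≤ t := le_max_right _ _
  have h6 : M / 3 * ((1 + η) * q') = M / 3 - M / 3 * γ := by rw [hγ]; ring
  linarith

variable {m : ℕ} {G : (Fin (m + 1) → ℝ) → ℝ} (hG : IsGauge G) (k : Fin (m + 1))
include hG

lemma fmean_mono {h₁ h₂ : (Fin m → ℝ) → ℝ}
    (i1 : IntegrableOn (fun z => h₁ z * fibre G k z) (orth m))
    (i2 : IntegrableOn (fun z => h₂ z * fibre G k z) (orth m)) (h : ∀ z, h₁ z ≤ h₂ z) :
    fmean G k h₁ ≤ fmean G k h₂ :=
  div_le_div_of_nonneg_right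
    (setIntegral_mono i1 i2 fun z => mul_le_mul_of_nonneg_right (h z) (fibre_nonneg k hG z))
    hG.vol_pos.le

lemma fmean_nonneg {h : (Fin m → ℝ) → ℝ} (h0 : ∀ z, 0 ≤ h z) : 0 ≤ fmean G k h :=
  div_nonneg (setIntegral_nonneg measurableSet_orth fun z _ =>
    mul_nonneg (h0 z) (fibre_nonneg k hG z)) hG.vol_pos.le

omit hG in
lemma fmean_lin {h₁ h₂ : (Fin m → ℝ) → ℝ} (a b : ℝ)
    (i1 : IntegrableOn (fun z => h₁ z * fibre G k z) (orth m))
    (i2 : IntegrableOn (fun z => h₂ z * fibre G k z) (orth m)) :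
    IntegrableOn (fun z => (a * h₁ z + b * h₂ z) * fibre G k z) (orth m) ∧
      fmean G k (fun z => a * h₁ z + b * h₂ z) = a * fmean G k h₁ + b * fmean G k h₂ := by
  have e : ∀ z, (a * h₁ z + b * h₂ z) * fibre G k z
      = a * (h₁ z * fibre G k z) + b * (h₂ z * fibre G k z) := fun z => by ring
  refine ⟨by simp only [e]; exact (i1.const_mul a).add (i2.const_mul b), ?_⟩
  simp only [fmean, e]
  rw [integral_add (i1.const_mul a) (i2.const_mul b), integral_const_mul, integral_const_mul]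
  ring

lemma fmean_one : fmean G k (fun _ => 1) = 1 := by
  simp only [fmean, one_mul, ← vol_eq_fibre hG k]
  exact div_self hG.vol_pos.ne'

/-- Power inequalities for a bounded nonnegative function. -/
lemma fmean_powers {ℓ : (Fin m → ℝ) → ℝ} (hm : Measurable ℓ) (h0 : ∀ z, 0 ≤ ℓ z) {M : ℝ}
    (hM : ∀ z, ℓ z ≤ M) {t t' η : ℝ} (ht : 0 ≤ t) (htt : t ≤ t') (hη : 0 < η) (p : ℕ)
    (hπ : 0 < fmean G k ({z | t < ℓ z}.indicator fun _ => 1)) :
    0 ≤ fmean G k (fun z => ℓ z ^ p) ∧ 0 ≤ fmean G k (fun z => ℓ z ^ (p + 1)) ∧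
    fmean G k (fun z => ℓ z ^ (p + 1)) ≤ M * fmean G k (fun z => ℓ z ^ p) ∧
    fmean G k (fun z => ℓ z ^ p) ^ 2 ≤ (1 + η) *
        (fmean G k ({z | t < ℓ z}.indicator fun _ => 1) * fmean G k (fun z => ℓ z ^ (2 * p)))
        + (1 + 1 / η) * (t ^ p) ^ 2 ∧
    t * fmean G k (fun z => ℓ z ^ (2 * p)) - t * (t ^ p) ^ 2
      ≤ fmean G k (fun z => ℓ z ^ (2 * p + 1)) ∧
    (t' ^ p) ^ 2 * fmean G k ({z | t' < ℓ z}.indicator fun _ => 1)
      ≤ fmean G k (fun z => ℓ z ^ (2 * p)) := by
  have ip : ∀ e : ℕ, IntegrableOn (fun z => ℓ z ^ e * fibre G k z) (orth m) := fun e =>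
    integrable_mul_fibre hG k (hm.pow_const e) (B := M ^ e) fun z => by
      rw [abs_of_nonneg (pow_nonneg (h0 z) e)]; exact pow_le_pow_left₀ (h0 z) (hM z) e
  have iind : ∀ s, IntegrableOn
      (fun z => {z | s < ℓ z}.indicator (fun _ => (1 : ℝ)) z * fibre G k z) (orth m) := fun s =>
    integrable_mul_fibre hG k (measurable_const.indicator (measurableSet_lt measurable_const hm))
      (B := 1) fun z => by by_cases h : s < ℓ z <;> simp [h]
  have i1 : IntegrableOn (fun z => (1 : ℝ) * fibre G k z) (orth m) :=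
    integrable_mul_fibre hG k measurable_const (B := 1) fun _ => by simp
  have iX : IntegrableOn
      (fun z => {z | t < ℓ z}.indicator (fun z => ℓ z ^ p) z * fibre G k z) (orth m) :=
    integrable_mul_fibre hG k ((hm.pow_const p).indicator (measurableSet_lt measurable_const hm))
      (B := M ^ p) fun z => by
        have := pow_le_pow_left₀ (h0 z) (hM z) p
        by_cases h : t < ℓ z
        · simpa [h, abs_of_nonneg (h0 z)] using this
        · simpa [h] using (pow_nonneg (h0 z) p).trans this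
  have hU1 := fmean_nonneg hG k fun z => pow_nonneg (h0 z) p
  refine ⟨hU1, fmean_nonneg hG k fun z => pow_nonneg (h0 z) _, ?_, ?_, ?_, ?_⟩
  · obtain ⟨i, e⟩ := fmean_lin k M 0 (ip p) i1
    refine le_of_le_of_eq (fmean_mono hG k (ip (p + 1)) i fun z => ?_) (e.trans (by ring))
    rw [pow_succ', zero_mul, add_zero]
    exact mul_le_mul_of_nonneg_right (hM z) (pow_nonneg (h0 z) p)
  · set π := fmean G k ({z | t < ℓ z}.indicator fun _ => 1)
    set U1 := fmean G k (fun z => ℓ z ^ p)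
    set U2 := fmean G k (fun z => ℓ z ^ (2 * p))
    set X := fmean G k ({z | t < ℓ z}.indicator fun z => ℓ z ^ p)
    have hX : U1 ≤ t ^ p + X := by
      obtain ⟨i, e⟩ := fmean_lin k (t ^ p) 1 i1 iX
      refine le_of_le_of_eq (fmean_mono hG k (ip p) i fun z => ?_)
        (e.trans (by rw [fmean_one hG k]; ring))
      by_cases h : t < ℓ z
      · simp [h]; positivity
      · simp [h]; exact pow_le_pow_left₀ (h0 z) (not_lt.1 h) p
    have hX2 : X ^ 2 ≤ π * U2 := by
      obtain ⟨i, e⟩ := fmean_lin k ((X / π) ^ 2) 1 (iind t) (ip (2 * p))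
      obtain ⟨i', e'⟩ := fmean_lin k (2 * (X / π)) 0 iX i1
      have hle := fmean_mono hG k i' i fun z => ?_
      · rw [e, e', zero_mul, add_zero, one_mul] at hle
        have h1 : (X / π) ^ 2 * π = X / π * X := by field_simp
        have h2 : X / π * X * π = X ^ 2 := by field_simp
        have h3 := mul_le_mul_of_nonneg_right (show X / π * X ≤ U2 by linarith) hπ.le
        linarith
      · by_cases h : t < ℓ z
        · simp [h, pow_mul']
          linarith [two_mul_le_add_sq (X / π) (ℓ z ^ p)]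
        · simp [h, pow_mul']
          positivity
    have h2 := mul_nonneg (one_div_pos.2 hη).le (sq_nonneg (η * X - t ^ p))
    have h3 : 1 / η * (η * X - t ^ p) ^ 2
        = η * X ^ 2 + 1 / η * (t ^ p) ^ 2 - 2 * (t ^ p) * X := by field_simp; ring
    have h4 := mul_le_mul_of_nonneg_left hX2 (show 0 ≤ 1 + η by linarith)
    have h5 := pow_le_pow_left₀ hU1 hX 2
    have h6 : (t ^ p + X) ^ 2 = (t ^ p) ^ 2 + 2 * t ^ p * X + X ^ 2 := by ring
    linarith
  · obtain ⟨i, e⟩ := fmean_lin k t (-(t * (t ^ p) ^ 2)) (ip (2 * p)) i1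
    rw [fmean_one hG k] at e
    have hle := fmean_mono hG k i (ip (2 * p + 1)) fun z => ?_
    · rw [e] at hle; linarith
    · rw [pow_succ' (ℓ z)]
      rcases le_total t (ℓ z) with h | h
      · have := mul_le_mul_of_nonneg_right h (pow_nonneg (h0 z) (2 * p))
        have := mul_nonneg ht (sq_nonneg (t ^ p))
        linarith
      · have h1 : ℓ z ^ (2 * p) ≤ (t ^ p) ^ 2 := by
          rw [← pow_mul, mul_comm p 2]; exact pow_le_pow_left₀ (h0 z) h _
        have := mul_le_mul_of_nonneg_left h1 ht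
        have := mul_nonneg (h0 z) (pow_nonneg (h0 z) (2 * p))
        linarith
  · obtain ⟨i, e⟩ := fmean_lin k ((t' ^ p) ^ 2) 0 (iind t') i1
    refine le_of_eq_of_le (Eq.trans (by ring) e.symm) (fmean_mono hG k i (ip (2 * p)) fun z => ?_)
    by_cases h : t' < ℓ z
    · simp [h]
      rw [← pow_mul, mul_comm p 2]
      exact pow_le_pow_left₀ (ht.trans htt) h.le _
    · simp [h]; exact pow_nonneg (h0 z) _

/-- The weight of the top of the fibres is positive. -/
lemma fmean_top_pos {c t : ℝ} (hc : 0 < c) (ht : 0 ≤ t) (htM : c * t < fibreMax G k) :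
    0 < fmean G k ({z | t < fibre G k z / c}.indicator fun _ => 1) := by
  have hm : Measurable fun z => fibre G k z / c := (measurable_fibre k hG).div_const c
  set y := (c * t + fibreMax G k) / 2 with hy
  have hy0 : 0 < y := by rw [hy]; linarith [fibreMax_pos k hG, mul_nonneg hc.le ht]
  have hpos : 0 < volume (univ ∩ sliceAt G k y) := by
    refine slice_pos_near k hG hy0.le (z := 0) zero_mem_orth ?_ isOpen_univ (mem_univ _)
    have e : k.insertNth y (0 : Fin m → ℝ) = y • unit k := by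
      funext i
      induction i using Fin.succAboveCases k with
      | x => simp [unit]
      | p i => simp [unit, Fin.succAbove_ne k i]
    rw [e, hG.hom _ (unit_mem_orth k) _ hy0.le, ← lt_div_iff₀ (hG.unit_pos k), one_div, ← fibreMax, hy]
    linarith
  rw [univ_inter] at hpos
  refine div_pos ?_ hG.vol_pos
  have h01 : ∀ z, 0 ≤ {z | t < fibre G k z / c}.indicator (fun _ => (1 : ℝ)) z := fun z =>
    indicator_nonneg (fun _ _ => zero_le_one) z
  rw [setIntegral_pos_iff_support_of_nonneg_ae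
    (Eventually.of_forall fun z => mul_nonneg (h01 z) (fibre_nonneg k hG z))
    (integrable_mul_fibre hG k (measurable_const.indicator (measurableSet_lt measurable_const hm))
      (B := 1) fun z => by by_cases h : t < fibre G k z / c <;> simp [h])]
  refine lt_of_lt_of_le hpos (measure_mono fun z hz => ⟨?_, hz.1⟩)
  have hyz : y ≤ fibre G k z := le_fibre k hG hy0.le hz
  have h1 : t < fibre G k z / c := by
    rw [lt_div_iff₀ hc]
    rw [hy] at hyz
    linarith
  have h2 : 0 < fibre G k z := hy0.trans_le hyz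
  simp [h1, h2.ne']

/-- The weight of the top of the fibres against the slice volume. -/
lemma fmean_top_le {c t : ℝ} (hc : 0 < c) (ht : 0 < t) :
    fmean G k ({z | t < fibre G k z / c}.indicator fun _ => 1)
      ≤ fibreMax G k * (volume (sliceAt G k (c * t))).toReal / vol G := by
  have hm : Measurable fun z => fibre G k z / c := (measurable_fibre k hG).div_const c
  have hsl := isCompact_sliceAt k hG (mul_pos hc ht).le
  have h1 : ∫ z in orth m, {z | t < fibre G k z / c}.indicator (fun _ => (1 : ℝ)) z * fibre G k z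
      ≤ ∫ z in orth m, (sliceAt G k (c * t)).indicator (fun _ => fibreMax G k) z := by
    refine setIntegral_mono (integrable_mul_fibre hG k
      (measurable_const.indicator (measurableSet_lt measurable_const hm))
      (B := 1) fun z => by by_cases h : t < fibre G k z / c <;> simp [h]) ?_ fun z => ?_
    · exact ((integrable_indicator_iff hsl.measurableSet).2
        (integrableOn_const hsl.measure_lt_top.ne)).integrableOn
    by_cases h : t < fibre G k z / c
    · have hA : c * t < fibre G k z := by rw [lt_div_iff₀ hc] at h; linarith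
      have hz : z ∈ sliceAt G k (c * t) := (mem_slice_iff k hG (mul_pos hc ht) z).2 hA.le
      simp [h, hz, fibre_le_max k hG z]
    · simp [h]
      exact indicator_nonneg (fun _ _ => (fibreMax_pos k hG).le) z
  rw [setIntegral_indicator hsl.measurableSet, inter_eq_right.2 fun z hz => hz.1,
    setIntegral_const, smul_eq_mul, measureReal_def, mul_comm _ (fibreMax G k)] at h1
  exact div_le_div_of_nonneg_right h1 hG.vol_pos.le

/-- The one-variable bound applied to the slice volumes. -/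
lemma profile_bound (hone : OneVariable) {c M : ℝ} (hc : c = mom G k / vol G)
    (hMc : M = fibreMax G k / c) (hM : 2 < M) :
    ∃ t₀ < M, ∃ q < 1, ∀ t ∈ Ico t₀ M,
      c * (volume (sliceAt G k (c * t))).toReal / vol G * (3 * M ^ 2 - 8 * M + 6) ≤ q := by
  have hV := hG.vol_pos
  have hc0 : 0 < c := hc ▸ div_pos (hG.mom_pos k) hV
  have hcM : c * M = fibreMax G k := by rw [hMc]; field_simp
  have hM0 : 0 < M := by linarith
  refine hone (fun s => c * (volume (sliceAt G k (c * s))).toReal / vol G) M hM ?_ ?_ ?_ ?_ ?_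
  · intro s _; positivity
  · intro a ha b _ hab
    refine div_le_div_of_nonneg_right (mul_le_mul_of_nonneg_left ?_ hc0.le) hV.le
    exact ENNReal.toReal_mono (isCompact_sliceAt k hG (mul_nonneg hc0.le ha.1)).measure_lt_top.ne
      (measure_mono (slice_anti k hG (mul_nonneg hc0.le ha.1) (mul_le_mul_of_nonneg_left hab hc0.le)))
  · intro a ha b hb
    have h := slice_midpoint k hG (mul_nonneg hc0.le ha.1) (mul_nonneg hc0.le hb.1)
    rw [show c * ((a + b) / 2) = (c * a + c * b) / 2 by ring, div_mul_div_comm, div_pow,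
      ← sq (vol G), mul_mul_mul_comm, ← sq, mul_pow]
    exact div_le_div_of_nonneg_right (mul_le_mul_of_nonneg_left h (sq_nonneg c)) (sq_nonneg _)
  all_goals
    have hfint : ∀ e : ℕ, (∫ s in Ioo 0 M, s ^ e * (c * (volume (sliceAt G k (c * s))).toReal / vol G))
        = (∫ x in body G, x k ^ e) / (c ^ e * vol G) := by
      intro e
      rw [integral_body_slice k hG (continuous_pow e), ← integral_Ioc_eq_integral_Ioo,
        ← integral_Ioc_eq_integral_Ioo, ← intervalIntegral.integral_of_le hM0.le,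
        ← intervalIntegral.integral_of_le (fibreMax_pos k hG).le]
      have h := intervalIntegral.smul_integral_comp_mul_left (a := (0 : ℝ)) (b := M)
        (fun y => y ^ e * (volume (sliceAt G k y)).toReal) c
      rw [mul_zero, hcM, smul_eq_mul] at h
      rw [← h, ← intervalIntegral.integral_const_mul, ← intervalIntegral.integral_div]
      refine intervalIntegral.integral_congr fun s _ => ?_
      show s ^ e * (c * (volume (sliceAt G k (c * s))).toReal / vol G) = _
      rw [mul_pow]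
      field_simp
  · have h := hfint 0
    simp only [pow_zero, one_mul, setIntegral_const, smul_eq_mul, mul_one] at h
    rw [h, measureReal_def]
    exact div_self hV.ne'
  · have h := hfint 1
    simp only [pow_one] at h
    rw [h, hc]
    change mom G k / _ = 1
    field_simp [(hG.mom_pos k).ne']

/-- A negative bracket for large powers. -/
lemma exists_neg_bracket (hone : OneVariable) (hM : 2 < fibreMax G k / (mom G k / vol G)) :
    ∃ p : ℕ, 1 ≤ p ∧
      (2 / 3 * (fibreMax G k / (mom G k / vol G))) *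
        (fmean G k (fun z => (fibre G k z / (mom G k / vol G)) ^ (2 * p))
          - fmean G k (fun z => (fibre G k z / (mom G k / vol G)) ^ p) ^ 2)
        + (fmean G k (fun z => (fibre G k z / (mom G k / vol G)) ^ (p + 1))
          - fmean G k (fun z => (fibre G k z / (mom G k / vol G)) ^ p)) ^ 2
        + fmean G k (fun z => (fibre G k z / (mom G k / vol G)) ^ p) ^ 2
        - fmean G k (fun z => (fibre G k z / (mom G k / vol G)) ^ (2 * p + 1)) < 0 := by
  obtain ⟨c, hc⟩ : ∃ c, c = mom G k / vol G := ⟨_, rfl⟩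
  rw [← hc] at hM ⊢
  obtain ⟨M, hMc⟩ : ∃ M, M = fibreMax G k / c := ⟨_, rfl⟩
  rw [← hMc] at hM ⊢
  have hc0 : 0 < c := hc ▸ div_pos (hG.mom_pos k) hG.vol_pos
  have hcM : c * M = fibreMax G k := by rw [hMc]; field_simp
  obtain ⟨t₀, ht₀, q, hq1, hq⟩ := profile_bound hG k hone hc hMc hM
  obtain ⟨η, t, hη, ht1, htt₀, htM, hpar⟩ := params hM ht₀ hq1
  obtain ⟨t', ht'⟩ : ∃ t', t' = (t + M) / 2 := ⟨_, rfl⟩
  have hπ := fmean_top_pos hG k hc0 (show 0 ≤ t by linarith)
    (by rw [← hcM]; exact mul_lt_mul_of_pos_left htM hc0)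
  have hπ' := fmean_top_pos hG k hc0 (show 0 ≤ t' by linarith)
    (by rw [← hcM]; exact mul_lt_mul_of_pos_left (by linarith) hc0)
  have hπf := fmean_top_le hG k hc0 (show 0 < t by linarith)
  have hβ := hpar _ _ (hq t ⟨htt₀, htM⟩) (hπf.trans (le_of_eq (by rw [← hcM]; ring)))
  set π := fmean G k ({z | t < fibre G k z / c}.indicator fun _ => 1)
  set π' := fmean G k ({z | t' < fibre G k z / c}.indicator fun _ => 1)
  set β := t - 2 / 3 * M - (1 + η) * π * ((M - 1) ^ 2 + 1 - 2 / 3 * M)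
  set K := ((M - 1) ^ 2 + 1 - 2 / 3 * M) * (1 + 1 / η) + t + 1 with hK
  have hK0 : 0 < K := by
    have : 0 ≤ (M - 1) ^ 2 + 1 - 2 / 3 * M := by nlinarith [sq_nonneg (M - 4 / 3)]
    rw [hK]; positivity
  have hr : (t / t') ^ 2 < 1 :=
    pow_lt_one₀ (div_nonneg (by linarith) (by linarith)) ((div_lt_one (by linarith)).2 (by linarith))
      two_ne_zero
  obtain ⟨p₀, hp₀⟩ := exists_pow_lt_of_lt_one (show 0 < β * π' / K by positivity) hr
  refine ⟨p₀ + 1, by omega, ?_⟩
  obtain ⟨hU1, hU3, hU3', hsq, hU4, hU2⟩ := fmean_powers hG k (ℓ := fun z => fibre G k z / c)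
    ((measurable_fibre k hG).div_const c) (fun z => div_nonneg (fibre_nonneg k hG z) hc0.le)
    (M := M) (fun z => hMc ▸ div_le_div_of_nonneg_right (fibre_le_max k hG z) hc0.le)
    (show 0 ≤ t by linarith) (show t ≤ t' by linarith) hη (p₀ + 1) hπ
  refine neg_combine hM hU1 hU3 hU3' hsq hU4 hU2 hβ ?_
  have h2 : ((t / t') ^ 2) ^ (p₀ + 1) ≤ ((t / t') ^ 2) ^ p₀ :=
    pow_le_pow_of_le_one (sq_nonneg _) hr.le (by omega)
  have h3 : K * ((t / t') ^ 2) ^ (p₀ + 1) < β * π' :=
    calc K * ((t / t') ^ 2) ^ (p₀ + 1) ≤ K * ((t / t') ^ 2) ^ p₀ :=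
          mul_le_mul_of_nonneg_left h2 hK0.le
      _ < K * (β * π' / K) := mul_lt_mul_of_pos_left hp₀ hK0
      _ = β * π' := mul_div_cancel₀ _ hK0.ne'
  have hb : 0 < (t' ^ (p₀ + 1)) ^ 2 := pow_pos (pow_pos (by linarith) _) 2
  have e : ((t / t') ^ 2) ^ (p₀ + 1) * (t' ^ (p₀ + 1)) ^ 2 = (t ^ (p₀ + 1)) ^ 2 := by
    rw [pow_right_comm (t / t'), ← mul_pow, ← mul_pow, div_mul_cancel₀ t (by linarith : t' ≠ 0)]
  have h4 := mul_lt_mul_of_pos_right h3 hb
  rw [mul_assoc, e] at h4
  exact h4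

end Vale.Agent.P254.CT
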