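import Mathlib
import Vale.Agent.P254.CT.Bracket

/-!
The endgame: the pinned statements imply the centroid-box theorem.
-/

noncomputable section

open MeasureTheory Set Function Filter
open scoped BigOperators Topology

namespace Vale.Agent.P254.CT

variable {m : ℕ} {G : (Fin (m + 1) → ℝ) → ℝ} (hG : IsGauge G) (k : Fin (m + 1))
include hG

/-- The second moment in coordinate `i`, from the fibres in that coordinate. -/
lemma sq_le_max (i : Fin (m + 1)) :
    vol G * (∫ x in body G, x i ^ 2)
      ≤ 2 / 3 * (fibreMax G i / (mom G i / vol G)) * mom G i ^ 2 := by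
  have h1 := integral_body_pow i hG 2 (h := fun _ => (1 : ℝ)) continuous_const
  simp only [one_mul, mul_one] at h1
  rw [h1, mom_eq_fibre hG i]
  have i2 : IntegrableOn (fun z => fibre G i z ^ 2) (orth m) := by
    simpa using integrable_fibre_pow i hG 1 (continuous_const (y := (1 : ℝ)))
  have i3 : IntegrableOn (fun z => fibre G i z ^ 3) (orth m) := by
    simpa using integrable_fibre_pow i hG 2 (continuous_const (y := (1 : ℝ)))
  have h3 : ∫ z in orth m, fibre G i z ^ 3 ≤ fibreMax G i * ∫ z in orth m, fibre G i z ^ 2 := by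
    rw [← integral_const_mul]
    refine setIntegral_mono i3 (i2.const_mul _) fun z => ?_
    show fibre G i z ^ (2 + 1) ≤ _
    rw [pow_succ']
    exact mul_le_mul_of_nonneg_right (fibre_le_max i hG z) (sq_nonneg _)
  have hm : 0 < (∫ z in orth m, fibre G i z ^ 2) / 2 := by
    rw [← mom_eq_fibre hG i]; exact hG.mom_pos i
  have := hG.vol_pos
  rw [show (2 : ℕ) + 1 = 3 from rfl]
  push_cast
  field_simp
  nlinarith [mul_le_mul_of_nonneg_left h3 this.le]

omit hG in
/-- A body all of whose fibre maxima are twice the means is a box. -/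
lemma box_case {G : (Fin (m + 1) → ℝ) → ℝ} (hG : IsGauge G)
    (hall : ∀ i, fibreMax G i / (mom G i / vol G) ≤ 2) :
    ∏ i, (2 * mom G i) ≤ vol G ^ (m + 1 + 1) := by
  have hVp := hG.vol_pos
  have key : ∀ i, 2 * mom G i = fibreMax G i * vol G ∧
      ∀ x ∈ body G, update x i (fibreMax G i) ∈ body G := by
    intro i
    have hA0 := fibreMax_pos i hG
    have i1 : IntegrableOn (fun z => fibre G i z) (orth m) := by
      simpa using integrable_fibre_pow i hG 0 (continuous_const (y := (1 : ℝ)))
    have i2 : IntegrableOn (fun z => fibre G i z ^ 2) (orth m) := by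
      simpa using integrable_fibre_pow i hG 1 (continuous_const (y := (1 : ℝ)))
    have hdiff : ∫ z in orth m, (fibreMax G i * fibre G i z - fibre G i z ^ 2)
        = fibreMax G i * vol G - 2 * mom G i := by
      rw [integral_sub (i1.const_mul _) i2, integral_const_mul, ← vol_eq_fibre hG i,
        mom_eq_fibre hG i]
      ring
    have hnn : ∀ z, 0 ≤ fibreMax G i * fibre G i z - fibre G i z ^ 2 := fun z => by
      nlinarith [fibre_le_max i hG z, fibre_nonneg i hG z]
    have hle : fibreMax G i * vol G ≤ 2 * mom G i := by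
      have := hall i
      rw [div_div_eq_mul_div, div_le_iff₀ (hG.mom_pos i)] at this
      exact this
    have hz0 : ∫ z in orth m, (fibreMax G i * fibre G i z - fibre G i z ^ 2) = 0 :=
      le_antisymm (by linarith) (setIntegral_nonneg measurableSet_orth fun z _ => hnn z)
    refine ⟨by linarith, fun x hx => ?_⟩
    have hae := (setIntegral_eq_zero_iff_of_nonneg_ae (Eventually.of_forall hnn)
      ((i1.const_mul _).sub i2)).1 hz0
    by_contra hnot
    set z := i.removeNth x with hz
    have hzo : z ∈ orth m := fun j => hx.1 _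
    have hins : ∀ y, i.insertNth y z = update x i y := fun y => by
      rw [hz, Fin.insertNth_removeNth]
    have hgt : 1 < G (i.insertNth (fibreMax G i) z) := by
      rw [hins]
      exact lt_of_not_ge fun h => hnot ⟨update_mem_orth hx.1 i hA0.le, h⟩
    have h0 : G (i.insertNth 0 z) ≤ 1 := by
      refine ((ins_mono i hG le_rfl (hx.1 i) hzo)).trans ?_
      rw [hins, update_eq_self]
      exact hx.2
    -- pull the base point slightly inwards
    have hc : ContinuousOn (fun w => G (i.insertNth (fibreMax G i) w)) (orth m) :=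
      hG.continuousOn.comp (Continuous.continuousOn (by fun_prop)) fun _ hw => ins_mem i hA0.le hw
    obtain ⟨W, hW, hzW, hWsub⟩ := mem_nhdsWithin.1 ((hc z hzo).eventually (eventually_gt_nhds hgt))
    obtain ⟨r, hr0, hr1, hrW⟩ : ∃ r : ℝ, 0 < r ∧ r < 1 ∧ r • z ∈ W := by
      have hcont : Tendsto (fun r : ℝ => r • z) (𝓝[<] 1) (𝓝 z) := by
        have : Tendsto (fun r : ℝ => r • z) (𝓝 1) (𝓝 z) :=
          (continuous_id.smul continuous_const : Continuous fun r : ℝ => r • z).tendsto' 1 z
            (one_smul ℝ z)
        exact this.mono_left nhdsWithin_le_nhds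
      obtain ⟨r, hr⟩ := ((hcont.eventually (hW.mem_nhds hzW)).and
        (Ioo_mem_nhdsLT (show (0 : ℝ) < 1 by norm_num))).exists
      exact ⟨r, hr.2.1, hr.2.2, hr.1⟩
    set y := (1 - r) / (2 * G (unit i)) with hy
    have hy0 : 0 < y := div_pos (by linarith) (mul_pos two_pos (hG.unit_pos i))
    have hlt : G (i.insertNth y (r • z)) < 1 := by
      have e : i.insertNth y (r • z) = r • i.insertNth 0 z + y • unit i := by
        funext j
        induction j using Fin.succAboveCases i with
        | x => simp [unit]
        | p j => simp [unit, Fin.succAbove_ne i j]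
      rw [e]
      refine (hG.sub _ (smul_mem_orth (ins_mem i le_rfl hzo) hr0.le) _
        (smul_mem_orth (unit_mem_orth i) hy0.le)).trans_lt ?_
      rw [hG.hom _ (ins_mem i le_rfl hzo) _ hr0.le, hG.hom _ (unit_mem_orth i) _ hy0.le, hy]
      have e2 : (1 - r) / (2 * G (unit i)) * G (unit i) = (1 - r) / 2 := by
        field_simp [(hG.unit_pos i).ne']
      rw [e2]
      nlinarith
    have hpos := slice_pos_near i hG hy0.le (smul_mem_orth hzo hr0.le) hlt hW hrW
    rw [Filter.EventuallyEq, ae_restrict_iff' measurableSet_orth, ae_iff] at hae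
    refine hpos.ne' (measure_mono_null (fun w hw => ?_) hae)
    intro hcon
    have hA : y ≤ fibre G i w := le_fibre i hG hy0.le hw.2
    have heq : fibre G i w = fibreMax G i := by
      have : fibre G i w * (fibreMax G i - fibre G i w) = 0 := by
        have := hcon hw.2.1; simp only [Pi.zero_apply] at this; linarith
      rcases mul_eq_zero.1 this with h | h <;> linarith
    have h0w : w ∈ sliceAt G i 0 := slice_anti i hG le_rfl hy0.le hw.2
    have := (mem_slice_of_le i hG hA0.le h0w heq.ge).2
    linarith [hWsub ⟨hw.1, hw.2.1⟩, show (1 : ℝ) < G (i.insertNth (fibreMax G i) w) from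
      hWsub ⟨hw.1, hw.2.1⟩]
  -- the corner lies in the body
  have hcorner : ∀ s : Finset (Fin (m + 1)),
      (fun j => if j ∈ s then fibreMax G j else 0) ∈ body G := by
    intro s
    induction s using Finset.induction_on with
    | empty =>
      refine ⟨fun j => le_rfl, ?_⟩
      show G (0 : Fin (m + 1) → ℝ) ≤ 1
      rw [hG.zero]; exact zero_le_one
    | insert a s has ih =>
      have := (key a).2 _ ih
      convert this using 1
      funext j
      by_cases hj : j = a
      · subst hj; simp
      · simp [hj]
  have hbox : ∏ i, fibreMax G i ≤ vol G := by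
    have hsub : (univ.pi fun i => Icc 0 (fibreMax G i)) ⊆ body G := by
      intro x hx
      have hxo : x ∈ orth (m + 1) := fun i => (hx i (mem_univ _)).1
      have hb := hcorner Finset.univ
      refine ⟨hxo, (hG.mono x hxo _ hb.1 fun i => ?_).trans hb.2⟩
      simpa using (hx i (mem_univ _)).2
    have := ENNReal.toReal_mono hG.isCompact_body.measure_lt_top.ne (measure_mono (μ := volume) hsub)
    rw [volume_pi_pi, ENNReal.toReal_prod] at this
    refine le_trans (le_of_eq ?_) this
    refine Finset.prod_congr rfl fun i _ => ?_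
    rw [Real.volume_Icc, sub_zero, ENNReal.toReal_ofReal (fibreMax_pos i hG).le]
  rw [Finset.prod_congr rfl fun i _ => (key i).1, Finset.prod_mul_distrib, Finset.prod_const,
    Finset.card_univ, Fintype.card_fin, pow_succ' (vol G) (m + 1)]
  exact mul_le_mul_of_nonneg_right hbox (by positivity)

omit hG in
/-- At a minimiser the theorem holds. -/
lemma centroidBox_min (horth : SegConstOrth) (hid : SlopeIdentity) (hsec : SecondOrder)
    (hvar : VarBound) (hone : OneVariable) {G : (Fin (m + 1) → ℝ) → ℝ} (hmin : IsMin G) :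
    ∏ i, (2 * mom G i) ≤ vol G ^ (m + 1 + 1) := by
  have hG := hmin.1
  obtain ⟨k, hk⟩ := Finite.exists_max fun i => fibreMax G i / (mom G i / vol G)
  rcases le_or_gt (fibreMax G k / (mom G k / vol G)) 2 with h | h
  · exact box_case hG fun i => (hk i).trans h
  exfalso
  obtain ⟨p, hp, hneg⟩ := exists_neg_bracket hG k hone h
  have hlam : 0 < 2 / 3 * (fibreMax G k / (mom G k / vol G)) := by linarith
  have hsq : ∀ i, i ≠ k → vol G * (∫ x in body G, x i ^ 2)
      ≤ 2 / 3 * (fibreMax G k / (mom G k / vol G)) * mom G i ^ 2 := fun i _ =>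
    (sq_le_max hG i).trans (mul_le_mul_of_nonneg_right
      (mul_le_mul_of_nonneg_left (hk i) (by norm_num)) (sq_nonneg _))
  have hslope : slope G k (p + 1) = 0 := by
    obtain ⟨v, c, hc, hv, he⟩ := hid (m + 1) G k (p + 1) hG (by omega)
    rw [horth (m + 1) G v hmin hv] at he
    exact (mul_eq_zero.1 he.symm).resolve_left hc.ne'
  have h2 := hsec (m + 1) G k (p + 1) hmin (by omega) hslope
  have h3 := curv_le hG k hvar hlam hsq p hslope
  have h4 : 0 < (mom G k / vol G) ^ (2 * p) := pow_pos (div_pos (hG.mom_pos k) hG.vol_pos) _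
  nlinarith [mul_neg_of_pos_of_neg h4 hneg]

omit hG in
/-- All the steps together give the centroid-box theorem. -/
theorem centroidBox_of (hex : MinExists) (horth : SegConstOrth) (hid : SlopeIdentity)
    (hsec : SecondOrder) (hvar : VarBound) (hone : OneVariable) : CentroidBox := by
  intro n G hG
  rcases n with _ | m
  · simp only [Finset.univ_eq_empty, Finset.prod_empty, zero_add, pow_one]
    have hb : body G = (univ : Set (Fin 0 → ℝ)) := by
      refine eq_univ_of_forall fun x => ⟨fun i => i.elim0, ?_⟩
      rw [Subsingleton.elim x 0, hG.zero]; exact zero_le_one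
    simp [vol, hb, Measure.pi_empty_univ, volume_pi]
  obtain ⟨H, hH⟩ := hex (m + 1) (by omega)
  have h1 := centroidBox_min horth hid hsec hvar hone hH
  have h2 := hH.2 G hG
  rw [hH.1.fn_eq, hG.fn_eq] at h2
  have pos : ∀ {F : (Fin (m + 1) → ℝ) → ℝ}, IsGauge F → ∀ i, 0 < 2 * mom F i := fun hF i =>
    mul_pos two_pos (hF.mom_pos i)
  have hlog : ∀ {F : (Fin (m + 1) → ℝ) → ℝ}, IsGauge F →
      (∏ i, (2 * mom F i) ≤ vol F ^ (m + 1 + 1) ↔
        ∑ i, Real.log (mom F i) + ((m : ℝ) + 1) * Real.log 2
          ≤ (((m + 1 : ℕ) : ℝ) + 1) * Real.log (vol F)) := by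
    intro F hF
    rw [← Real.log_le_log_iff (Finset.prod_pos fun i _ => pos hF i) (pow_pos hF.vol_pos _),
      Real.log_prod fun i _ => (pos hF i).ne', Real.log_pow]
    simp only [Real.log_mul two_ne_zero (hF.mom_pos _).ne', Finset.sum_add_distrib, Finset.sum_const,
      Finset.card_univ, Fintype.card_fin, nsmul_eq_mul]
    push_cast
    constructor <;> intro h <;> linarith
  rw [hlog hH.1] at h1
  rw [hlog hG]
  linarith

end Vale.Agent.P254.CT
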