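import Mathlib
import Vale.Agent.P254.CT.Base
import Vale.Agent.P254.MidpointPL

/-!
The variance bound for linear functions on a convex downward closed body in the orthant, from the
midpoint Prekopa-Leindler inequality in logarithmic coordinates.
-/

noncomputable section

open MeasureTheory Set Filter Topology
open scoped ENNReal

namespace Vale.Agent.P254.CT

variable {n : ℕ}

lemma pi_proj_det (d : Fin n → ℝ) :
    (ContinuousLinearMap.pi fun i => d i • ContinuousLinearMap.proj (R := ℝ) (φ := fun _ : Fin n => ℝ) i).det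
      = ∏ i, d i := by
  have e : ((ContinuousLinearMap.pi fun i => d i • ContinuousLinearMap.proj (R := ℝ)
      (φ := fun _ : Fin n => ℝ) i) : (Fin n → ℝ) →ₗ[ℝ] (Fin n → ℝ))
      = Matrix.toLin' (Matrix.diagonal d) := by
    refine LinearMap.ext fun x => funext fun i => ?_
    simp [Matrix.toLin'_apply, Matrix.mulVec_diagonal]
  rw [ContinuousLinearMap.det, e, LinearMap.det_toLin', Matrix.det_diagonal]

lemma geom_le_perturbed (a b u : ℝ) :
    2 * (a * b) ≤ a ^ 2 * (1 + u * a ^ 2 + 2 * (u * a ^ 2) ^ 2)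
      + b ^ 2 * (1 - u * b ^ 2 + 2 * (u * b ^ 2) ^ 2) := by
  rcases eq_or_lt_of_le (show 0 ≤ a ^ 6 + b ^ 6 by positivity) with h | h
  · have ha : a = 0 := pow_eq_zero_iff (n := 6) (by norm_num) |>.1 (by
      nlinarith [sq_nonneg (a ^ 3), sq_nonneg (b ^ 3)])
    have hb : b = 0 := pow_eq_zero_iff (n := 6) (by norm_num) |>.1 (by
      nlinarith [sq_nonneg (a ^ 3), sq_nonneg (b ^ 3)])
    simp [ha, hb]
  · refine le_of_sub_nonneg (nonneg_of_mul_nonneg_right (a := 8 * (a ^ 6 + b ^ 6)) ?_ (by linarith))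
    have e : 8 * (a ^ 6 + b ^ 6) * (a ^ 2 * (1 + u * a ^ 2 + 2 * (u * a ^ 2) ^ 2)
        + b ^ 2 * (1 - u * b ^ 2 + 2 * (u * b ^ 2) ^ 2) - 2 * (a * b))
        = (4 * u * (a ^ 6 + b ^ 6) + (a ^ 4 - b ^ 4)) ^ 2 + (a - b) ^ 2 *
          (6 * (a ^ 2 + b ^ 2) * (a ^ 2 - b ^ 2) ^ 2 + (a ^ 2 + b ^ 2) ^ 2 * (a - b) ^ 2) := by
      ring
    rw [e]
    positivity

/-- The perturbation of one coordinate. -/
def pert (ε u x : ℝ) : ℝ := x - u * x ^ 2 - ε * u ^ 2 * x ^ 3

/-- Its derivative. -/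
def pertD (ε u x : ℝ) : ℝ := 1 - 2 * (u * x) - 3 * ε * (u * x) ^ 2

section Pert

variable {ε u x : ℝ} (hε : 0 < ε) (hε1 : ε ≤ 1) (h : |u * x| ≤ ε / 16)
include hε hε1 h

lemma pertD_pos : 0 < pertD ε u x := by
  have h2 : (u * x) ^ 2 ≤ 1 := (sq_le_one_iff_abs_le_one _).2 (by linarith)
  have := abs_le.1 h
  have h3 : (u * x) ^ 2 ≤ |u * x| := by nlinarith [sq_abs (u * x), abs_nonneg (u * x)]
  unfold pertD
  nlinarith [mul_le_mul_of_nonneg_right hε1 (sq_nonneg (u * x))]

lemma pert_pos (hx : 0 < x) : 0 < pert ε u x := by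
  have := abs_le.1 h
  have h3 : (u * x) ^ 2 ≤ |u * x| := by nlinarith [sq_abs (u * x), abs_nonneg (u * x)]
  rw [show pert ε u x = x * (1 - u * x - ε * (u * x) ^ 2) by unfold pert; ring]
  refine mul_pos hx ?_
  nlinarith [mul_le_mul_of_nonneg_right hε1 (sq_nonneg (u * x))]

lemma pert_image_le (hx : 0 ≤ x) :
    pert ε u x * (1 + u * pert ε u x + 2 * (u * pert ε u x) ^ 2) ≤ x := by
  set t := u * x with ht
  set k := 1 - t - ε * t ^ 2 with hk
  have hpk : pert ε u x = x * k := by simp [pert, hk, ht]; ring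
  rw [hpk, show u * (x * k) = t * k by rw [ht]; ring, mul_assoc]
  refine mul_le_of_le_one_right hx ?_
  have hb : -ε + 2 * (k ^ 3 - 1) + t * (1 - 2 * ε) + 2 * ε * t ^ 2 + ε ^ 2 * t ^ 3 ≤ 0 := by
    have ht1 : |t| ≤ 1 / 16 := h.trans (by linarith)
    have h3 : t ^ 2 ≤ |t| / 16 := by nlinarith [sq_abs t, abs_nonneg t]
    have hk1 : |k - 1| ≤ 5 / 4 * |t| := by
      rw [hk, abs_le]
      constructor <;> nlinarith [le_abs_self t, neg_abs_le t, sq_nonneg t,
        mul_le_mul_of_nonneg_right hε1 (sq_nonneg t)]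
    have hq : k ^ 2 + k + 1 ≤ 4 := by nlinarith [abs_le.1 hk1]
    have hq0 : 0 ≤ k ^ 2 + k + 1 := by nlinarith [sq_nonneg (k + 1)]
    have hc : 2 * (k ^ 3 - 1) ≤ 12 * |t| := by
      have : k ^ 3 - 1 = (k - 1) * (k ^ 2 + k + 1) := by ring
      rcases le_total (k - 1) 0 with h0 | h0
      · nlinarith [mul_nonpos_of_nonpos_of_nonneg h0 hq0, abs_nonneg t]
      · nlinarith [mul_le_mul_of_nonneg_left hq h0, le_abs_self (k - 1)]
    have h4 : t * (1 - 2 * ε) ≤ |t| := by
      nlinarith [le_abs_self t, neg_abs_le t]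
    have h5 : ε ^ 2 * t ^ 3 ≤ t ^ 2 := by
      have : t ^ 3 ≤ t ^ 2 := by nlinarith [sq_nonneg t, le_abs_self t]
      nlinarith [mul_le_mul_of_nonneg_left this (sq_nonneg ε),
        mul_le_mul_of_nonneg_right (show ε ^ 2 ≤ 1 by nlinarith) (sq_nonneg t)]
    nlinarith [mul_le_mul_of_nonneg_right hε1 (sq_nonneg t)]
  calc k * (1 + t * k + 2 * (t * k) ^ 2)
      = 1 + t ^ 2 * (-ε + 2 * (k ^ 3 - 1) + t * (1 - 2 * ε) + 2 * ε * t ^ 2 + ε ^ 2 * t ^ 3) := by
        rw [hk]; ring
    _ ≤ 1 := by nlinarith [mul_nonpos_of_nonneg_of_nonpos (sq_nonneg t) hb]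

end Pert

lemma pertD_hasDerivAt (ε u x : ℝ) : HasDerivAt (pert ε u) (pertD ε u x) x := by
  have := ((hasDerivAt_id x).sub ((hasDerivAt_pow 2 x).const_mul u)).sub
    ((hasDerivAt_pow 3 x).const_mul (ε * u ^ 2))
  refine this.congr_deriv ?_
  simp [pertD]; ring

lemma pert_inj {ε u B : ℝ} (hε : 0 < ε) (hε1 : ε ≤ 1) (hu : |u| * B ≤ ε / 16) {x y : ℝ}
    (hx : x ∈ Icc 0 B) (hy : y ∈ Icc 0 B) (h : pert ε u x = pert ε u y) : x = y := by
  refine (strictMonoOn_of_hasDerivWithinAt_pos (convex_Icc 0 B)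
    (fun z _ => (pertD_hasDerivAt ε u z).continuousAt.continuousWithinAt)
    (fun z _ => (pertD_hasDerivAt ε u z).hasDerivWithinAt) fun z hz => ?_).injOn hx hy h
  rw [interior_Icc] at hz
  refine pertD_pos hε hε1 ?_
  rw [abs_mul, abs_of_pos hz.1]
  exact (mul_le_mul_of_nonneg_left hz.2.le (abs_nonneg u)).trans hu

/-- The product of the one-variable Jacobians is a polynomial with known second coefficient. -/
lemma prod_expand (ε : ℝ) (a : Fin n → ℝ) (S : Finset (Fin n)) :
    ∃ r : ℝ × (Fin n → ℝ) → ℝ, Continuous r ∧ ∀ s x,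
      ∏ i ∈ S, pertD ε (s * a i) (x i) = 1 + s * (-2 * ∑ i ∈ S, a i * x i)
        + s ^ 2 * (2 * ((∑ i ∈ S, a i * x i) ^ 2 - ∑ i ∈ S, (a i * x i) ^ 2)
          - 3 * ε * ∑ i ∈ S, (a i * x i) ^ 2) + s ^ 3 * r (s, x) := by
  induction S using Finset.induction_on with
  | empty => exact ⟨fun _ => 0, continuous_const, fun s x => by simp⟩
  | insert j S hj ih =>
    obtain ⟨r, hr, h⟩ := ih
    refine ⟨fun z => (-2 * ∑ i ∈ S, a i * z.2 i) * (-3 * ε * (a j * z.2 j) ^ 2)
      + (2 * ((∑ i ∈ S, a i * z.2 i) ^ 2 - ∑ i ∈ S, (a i * z.2 i) ^ 2)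
          - 3 * ε * ∑ i ∈ S, (a i * z.2 i) ^ 2)
        * (-2 * (a j * z.2 j) + z.1 * (-3 * ε * (a j * z.2 j) ^ 2))
      + r z * pertD ε (z.1 * a j) (z.2 j), by unfold pertD; fun_prop, fun s x => ?_⟩
    rw [Finset.prod_insert hj, h, Finset.sum_insert hj, Finset.sum_insert hj]
    simp only [pertD]
    ring

variable {G : (Fin n → ℝ) → ℝ}

lemma half_mem_body (hG : IsGauge G) {x y z : Fin n → ℝ} (hx : x ∈ body G) (hy : y ∈ body G)
    (hz : z ∈ orth n) (h : ∀ i, z i ≤ (x i + y i) / 2) : z ∈ body G := by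
  refine ⟨hz, (hG.mono z hz _ (smul_mem_orth (add_mem_orth hx.1 hy.1)
    (by norm_num : (0 : ℝ) ≤ 1 / 2)) fun i => ?_).trans ?_⟩
  · simp only [Pi.smul_apply, Pi.add_apply, smul_eq_mul]; linarith [h i]
  · rw [hG.hom _ (add_mem_orth hx.1 hy.1) _ (by norm_num)]
    linarith [hG.sub x hx.1 y hy.1, hx.2, hy.2]

/-- The perturbed bodies: the product of the two volumes is at most the square of the volume. -/
lemma vol_pair (hG : IsGauge G) {a : Fin n → ℝ} {ε s B δ : ℝ} (hε : 0 < ε) (hε1 : ε ≤ 1)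
    (hδ : 0 < δ) (hB : ∀ x ∈ body G, ∀ i, x i ≤ B) (hs : ∀ i, |s * a i| * B ≤ ε / 16) :
    (∫ x in body G ∩ {x | ∀ i, δ ≤ x i}, ∏ i, pertD ε (s * a i) (x i))
      * (∫ x in body G ∩ {x | ∀ i, δ ≤ x i}, ∏ i, pertD ε (-s * a i) (x i)) ≤ vol G ^ 2 := by
  set D := body G ∩ {x | ∀ i, δ ≤ x i} with hD
  have hDc : IsCompact D := hG.isCompact_body.inter_right (by
    rw [ofPred_forall]; exact isClosed_iInter fun i => isClosed_le continuous_const (continuous_apply i))
  have hb : ∀ t : ℝ, |t| = |s| → ∀ x ∈ D, ∀ i, |t * a i * x i| ≤ ε / 16 := fun t ht x hx i => by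
    rw [abs_mul, abs_mul, ht, ← abs_mul, abs_of_nonneg (hx.1.1 i)]
    exact (mul_le_mul_of_nonneg_left (hB x hx.1 i) (abs_nonneg _)).trans (hs i)
  set g : ℝ → (Fin n → ℝ) → (Fin n → ℝ) := fun t x i => Real.log (pert ε (t * a i) (x i)) with hg
  set g' : ℝ → (Fin n → ℝ) → ((Fin n → ℝ) →L[ℝ] (Fin n → ℝ)) := fun t x =>
    ContinuousLinearMap.pi fun i => (pertD ε (t * a i) (x i) / pert ε (t * a i) (x i)) •
      ContinuousLinearMap.proj (R := ℝ) (φ := fun _ : Fin n => ℝ) i with hg'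
  have hp : ∀ t : ℝ, |t| = |s| → ∀ x ∈ D, ∀ i, 0 < pert ε (t * a i) (x i) := fun t ht x hx i =>
    pert_pos hε hε1 (hb t ht x hx i) (hδ.trans_le (hx.2 i))
  have hder : ∀ t : ℝ, |t| = |s| → ∀ x ∈ D, HasFDerivWithinAt (g t) (g' t x) D x :=
    fun t ht x hx => (hasFDerivAt_pi.2 fun i => by
      exact ((pertD_hasDerivAt ε (t * a i) (x i)).log (hp t ht x hx i).ne').comp_hasFDerivAt x
        (hasFDerivAt_apply (𝕜 := ℝ) (F' := fun _ : Fin n => ℝ) i x)).hasFDerivWithinAt
  have hinj : ∀ t : ℝ, |t| = |s| → InjOn (g t) D := fun t ht x hx y hy h => funext fun i =>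
    pert_inj hε hε1 (by rw [abs_mul, ht, ← abs_mul]; exact hs i) ⟨hx.1.1 i, hB x hx.1 i⟩
      ⟨hy.1.1 i, hB y hy.1 i⟩ (Real.log_injOn_pos (hp t ht x hx i) (hp t ht y hy i) (congrFun h i))
  have hcomp : ∀ t : ℝ, |t| = |s| → IsCompact (g t '' D) := fun t ht =>
    hDc.image_of_continuousOn fun x hx => (hder t ht x hx).continuousWithinAt
  set w : (Fin n → ℝ) → ℝ≥0∞ := fun q => ENNReal.ofReal (Real.exp (∑ i, q i)) with hw
  have hlin : ∀ t : ℝ, |t| = |s| → ∫⁻ q, (g t '' D).indicator w q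
      = ENNReal.ofReal (∫ x in D, ∏ i, pertD ε (t * a i) (x i)) := by
    intro t ht
    rw [lintegral_indicator (hcomp t ht).measurableSet,
      lintegral_image_eq_lintegral_abs_det_fderiv_mul _ hDc.measurableSet (hder t ht) (hinj t ht),
      ofReal_integral_eq_lintegral_ofReal
        ((by unfold pertD; fun_prop : Continuous fun x : Fin n → ℝ =>
          ∏ i, pertD ε (t * a i) (x i)).continuousOn.integrableOn_compact hDc)
        ((ae_restrict_mem hDc.measurableSet).mono fun x hx =>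
          Finset.prod_nonneg fun i _ => (pertD_pos hε hε1 (hb t ht x hx i)).le)]
    refine setLIntegral_congr_fun hDc.measurableSet fun x hx => ?_
    show ENNReal.ofReal |(g' t x).det| * ENNReal.ofReal (Real.exp (∑ i, g t x i)) = _
    rw [← ENNReal.ofReal_mul (abs_nonneg _), hg', hg, pi_proj_det, Real.exp_sum,
      Finset.prod_congr rfl fun i _ => Real.exp_log (hp t ht x hx i),
      abs_of_pos (Finset.prod_pos fun i _ => div_pos (pertD_pos hε hε1 (hb t ht x hx i))
        (hp t ht x hx i)), ← Finset.prod_mul_distrib]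
    exact congrArg _ (Finset.prod_congr rfl fun i _ => div_mul_cancel₀ _ (hp t ht x hx i).ne')
  obtain ⟨R, hR⟩ := (((hcomp s rfl).union (hcomp (-s) (abs_neg s))).isBounded).subset_closedBall 0
  set box : Set (Fin n → ℝ) := univ.pi fun _ => Icc (-R) R with hbox
  have hsub : g s '' D ∪ g (-s) '' D ⊆ box := fun q hq i _ => by
    have := (norm_le_pi_norm q i).trans (by simpa using hR hq)
    exact abs_le.1 this
  set L : Set (Fin n → ℝ) := box ∩ (fun q i => Real.exp (q i)) ⁻¹' body G with hL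
  have hLm : MeasurableSet L :=
    (MeasurableSet.univ_pi fun _ => measurableSet_Icc).inter
      ((by fun_prop : Measurable fun (q : Fin n → ℝ) i => Real.exp (q i)) hG.measurableSet_body)
  have hwm : Measurable w := by rw [hw]; fun_prop
  have hdom : ∀ S ⊆ box, ∀ q, S.indicator w q ≤
      box.indicator (fun _ => ENNReal.ofReal (Real.exp (n * R))) q := by
    intro S hS q
    by_cases hq : q ∈ S
    · rw [indicator_of_mem hq, indicator_of_mem (hS hq)]
      refine ENNReal.ofReal_le_ofReal (Real.exp_le_exp.2 ?_)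
      refine (Finset.sum_le_sum fun i _ => (hS hq i (mem_univ i)).2).trans ?_
      simp
    · simp [indicator_of_notMem hq]
  have key := pi_mul_le_sq R (M := ENNReal.ofReal (Real.exp (n * R))) ENNReal.ofReal_ne_top
    (hwm.indicator (hcomp s rfl).measurableSet)
    (hwm.indicator (hcomp (-s) (abs_neg s)).measurableSet) (hwm.indicator hLm)
    (hdom _ (subset_union_left.trans hsub)) (hdom _ (subset_union_right.trans hsub))
    (hdom L inter_subset_left) ?_
  · rw [hlin s rfl, hlin (-s) (abs_neg s)] at key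
    have hLv : ∫⁻ q, L.indicator w q ≤ volume (body G) := by
      rw [lintegral_indicator hLm]
      have e : ∀ q : Fin n → ℝ, w q = ENNReal.ofReal |(ContinuousLinearMap.pi fun i =>
          Real.exp (q i) • ContinuousLinearMap.proj (R := ℝ) (φ := fun _ : Fin n => ℝ) i).det| :=
        fun q => by
          rw [pi_proj_det, abs_of_pos (Finset.prod_pos fun i _ => Real.exp_pos _), hw]
          simp only [Real.exp_sum]
      rw [setLIntegral_congr_fun hLm fun q _ => e q,
        lintegral_abs_det_fderiv_eq_addHaar_image _ hLm (fun q _ => (hasFDerivAt_pi.2 fun i => by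
          exact (Real.hasDerivAt_exp (q i)).comp_hasFDerivAt q (hasFDerivAt_apply (𝕜 := ℝ) (F' := fun _ : Fin n => ℝ) i q)
          ).hasFDerivWithinAt) (fun p _ q _ h => funext fun i => Real.exp_injective (congrFun h i))]
      exact measure_mono (image_subset_iff.2 fun q hq => hq.2)
    have := ENNReal.toReal_mono (ENNReal.pow_ne_top hG.isCompact_body.measure_lt_top.ne)
      (key.trans (pow_le_pow_left₀ zero_le hLv 2))
    have hnn : ∀ t : ℝ, |t| = |s| → 0 ≤ ∫ x in D, ∏ i, pertD ε (t * a i) (x i) := fun t ht =>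
      setIntegral_nonneg hDc.measurableSet fun x hx =>
        Finset.prod_nonneg fun i _ => (pertD_pos hε hε1 (hb t ht x hx i)).le
    rwa [ENNReal.toReal_mul, ENNReal.toReal_pow, ENNReal.toReal_ofReal (hnn s rfl),
      ENNReal.toReal_ofReal (hnn (-s) (abs_neg s))] at this
  · intro p r
    by_cases hp' : p ∈ g s '' D
    · by_cases hr : r ∈ g (-s) '' D
      · have hm : (fun i => (p i + r i) / 2) ∈ L := by
          refine ⟨fun i _ => ?_, ?_⟩
          · have h1 := hsub (Or.inl hp') i (mem_univ i)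
            have h2 := hsub (Or.inr hr) i (mem_univ i)
            simp only [mem_Icc] at h1 h2 ⊢
            constructor <;> linarith [h1.1, h1.2, h2.1, h2.2]
          · obtain ⟨x, hx, rfl⟩ := hp'
            obtain ⟨y, hy, rfl⟩ := hr
            refine half_mem_body hG hx.1 hy.1 (fun i => (Real.exp_pos _).le) fun i => ?_
            have sq : ∀ (t : ℝ) (z : Fin n → ℝ), |t| = |s| → z ∈ D →
                Real.exp (g t z i / 2) ^ 2 = pert ε (t * a i) (z i) := fun t z ht hz => by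
              rw [← Real.exp_nat_mul, show (2 : ℕ) * (g t z i / 2) = g t z i by push_cast; ring]
              exact Real.exp_log (hp t ht z hz i)
            have h1 := pert_image_le hε hε1 (hb s rfl x hx i) (hx.1.1 i)
            have h2 := pert_image_le hε hε1 (hb (-s) (abs_neg s) y hy i) (hy.1.1 i)
            have h3 := geom_le_perturbed (Real.exp (g s x i / 2)) (Real.exp (g (-s) y i / 2)) (s * a i)
            rw [sq s x rfl hx, sq (-s) y (abs_neg s) hy, ← Real.exp_add, ← add_div] at h3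
            rw [show -s * a i = -(s * a i) by ring] at h2 h3
            simp only [neg_mul] at h1 h2 h3 ⊢
            ring_nf at h1 h2 h3 ⊢
            linarith
        rw [indicator_of_mem hp', indicator_of_mem hr, indicator_of_mem hm, hw]
        simp only
        rw [← ENNReal.ofReal_pow (Real.exp_pos _).le, ← ENNReal.ofReal_mul (Real.exp_pos _).le,
          ← Real.exp_add, ← Real.exp_nat_mul, ← Finset.sum_add_distrib, Finset.mul_sum]
        refine le_of_eq (congrArg _ (congrArg _ (Finset.sum_congr rfl fun i _ => ?_)))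
        push_cast; ring
      · simp [indicator_of_notMem hr]
    · simp [indicator_of_notMem hp']

/-- A lower bound for the perturbed volume. -/
lemma vol_lower (hG : IsGauge G) (a : Fin n → ℝ) (ε : ℝ) : ∃ K : ℝ, 0 ≤ K ∧ ∀ t : ℝ, |t| ≤ 1 →
    vol G + t * (-2 * ∫ x in body G, ∑ i, a i * x i)
      + t ^ 2 * (2 * ((∫ x in body G, (∑ i, a i * x i) ^ 2) - ∫ x in body G, ∑ i, (a i * x i) ^ 2)
        - 3 * ε * ∫ x in body G, ∑ i, (a i * x i) ^ 2) - K * |t| ^ 3
      ≤ ∫ x in body G, ∏ i, pertD ε (t * a i) (x i) := by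
  have hint : ∀ f : (Fin n → ℝ) → ℝ, Continuous f → Integrable f (volume.restrict (body G)) :=
    fun f hf => hf.continuousOn.integrableOn_compact hG.isCompact_body
  obtain ⟨r, hr, hexp⟩ := prod_expand ε a Finset.univ
  obtain ⟨C, hC⟩ := ((isCompact_Icc (a := (-1 : ℝ)) (b := 1)).prod hG.isCompact_body
    ).exists_bound_of_continuousOn hr.continuousOn
  refine ⟨max C 0 * vol G, mul_nonneg (le_max_right _ _) hG.vol_pos.le, fun t ht => ?_⟩
  set f1 := fun x : Fin n → ℝ => ∑ i, a i * x i with hf1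
  set f2 := fun x : Fin n → ℝ => (∑ i, a i * x i) ^ 2 with hf2
  set f3 := fun x : Fin n → ℝ => ∑ i, (a i * x i) ^ 2 with hf3
  have i1 : Integrable f1 (volume.restrict (body G)) := hint _ (by rw [hf1]; fun_prop)
  have i2 : Integrable f2 (volume.restrict (body G)) := hint _ (by rw [hf2]; fun_prop)
  have i3 : Integrable f3 (volume.restrict (body G)) := hint _ (by rw [hf3]; fun_prop)
  set k := 1 - max C 0 * |t| ^ 3 with hk
  have ic : Integrable (fun _ : Fin n → ℝ => k) (volume.restrict (body G)) := hint _ continuous_const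
  have j1 := i1.const_mul (-2 * t)
  have j2 := i2.const_mul (2 * t ^ 2)
  have j3 := i3.const_mul ((2 + 3 * ε) * t ^ 2)
  have e : ∫ x in body G, (k + -2 * t * f1 x + 2 * t ^ 2 * f2 x - (2 + 3 * ε) * t ^ 2 * f3 x)
      = k * vol G + -2 * t * (∫ x in body G, f1 x) + 2 * t ^ 2 * (∫ x in body G, f2 x)
        - (2 + 3 * ε) * t ^ 2 * ∫ x in body G, f3 x := by
    have s1 := integral_sub ((ic.add j1).add j2) j3
    have s2 := integral_add (ic.add j1) j2
    have s3 := integral_add ic j1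
    simp only [Pi.add_apply] at s1 s2 s3
    rw [s1, s2, s3, integral_const_mul, integral_const_mul, integral_const_mul, setIntegral_const,
      smul_eq_mul, Measure.real, ← vol, mul_comm (vol G)]
  refine le_of_eq_of_le (show _ = ∫ x in body G,
      (k + -2 * t * f1 x + 2 * t ^ 2 * f2 x - (2 + 3 * ε) * t ^ 2 * f3 x) by rw [e, hk]; ring) ?_
  refine setIntegral_mono_on (((ic.add j1).add j2).sub j3)
    (hint _ (by unfold pertD; fun_prop)) hG.measurableSet_body fun x hx => ?_
  rw [hexp]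
  have hrb := hC (t, x) ⟨abs_le.1 ht, hx⟩
  rw [Real.norm_eq_abs] at hrb
  have h3 : |t ^ 3 * r (t, x)| ≤ |t| ^ 3 * max C 0 := by
    rw [abs_mul, abs_pow]
    exact mul_le_mul_of_nonneg_left (hrb.trans (le_max_left _ _)) (by positivity)
  have := neg_abs_le (t ^ 3 * r (t, x))
  simp only [hf1, hf2, hf3, hk]
  linarith

/-- Extracting the second coefficient. -/
lemma coeff_le {V I c K σ : ℝ} {A : ℝ → ℝ} (hV : 0 < V) (hK : 0 ≤ K) (hσ : 0 < σ)
    (hlow : ∀ t : ℝ, |t| ≤ 1 → V + t * (-2 * I) + t ^ 2 * c - K * |t| ^ 3 ≤ A t)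
    (hpair : ∀ s : ℝ, |s| ≤ σ → A s * A (-s) ≤ V ^ 2) : 2 * V * c - (2 * I) ^ 2 ≤ 0 := by
  refine le_of_forall_pos_le_add fun η hη => ?_
  rw [zero_add]
  set s := min (min 1 σ) (min (V / (2 * |I| + |c| + K + 1)) (η / (2 * V * K + 1))) with hs
  have hs0 : 0 < s := lt_min (lt_min one_pos hσ) (lt_min (by positivity) (by positivity))
  have hs1 : s ≤ 1 := (min_le_left _ _).trans (min_le_left _ _)
  have hsσ : |s| ≤ σ := by
    rw [abs_of_pos hs0]; exact (min_le_left _ _).trans (min_le_right _ _)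
  have hsV : s * (2 * |I| + |c| + K + 1) ≤ V :=
    (le_div_iff₀ (by positivity)).1 ((min_le_right _ _).trans (min_le_left _ _))
  have hsη : s * (2 * V * K + 1) ≤ η :=
    (le_div_iff₀ (by positivity)).1 ((min_le_right _ _).trans (min_le_right _ _))
  clear_value s
  have l1 := hlow s (by rwa [abs_of_pos hs0])
  have l2 := hlow (-s) (by rwa [abs_neg, abs_of_pos hs0])
  rw [abs_neg] at l2
  rw [abs_of_pos hs0] at l1 l2
  have hs2 : s ^ 2 ≤ s := by
    have := mul_le_mul_of_nonneg_left hs1 hs0.le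
    linarith [pow_two s]
  have hs3 : s ^ 3 ≤ s := by
    have := mul_le_mul_of_nonneg_left (hs2.trans hs1) hs0.le
    linarith [show s ^ 3 = s * s ^ 2 by ring]
  have q1 : s ^ 2 * |c| ≤ s * |c| := mul_le_mul_of_nonneg_right hs2 (abs_nonneg _)
  have q2 : K * s ^ 3 ≤ K * s := mul_le_mul_of_nonneg_left hs3 hK
  have q3 := abs_le.1 (show |s ^ 2 * c| ≤ s ^ 2 * |c| by rw [abs_mul, abs_of_nonneg (sq_nonneg s)])
  have q4 := abs_le.1 (show |s * (-2 * I)| ≤ s * (2 * |I|) by
    rw [abs_mul, abs_of_pos hs0, abs_mul]; norm_num)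
  have p1 : 0 ≤ V + s * (-2 * I) + s ^ 2 * c - K * s ^ 3 := by linarith [q4.1, q3.1]
  have p2 : 0 ≤ V + -s * (-2 * I) + (-s) ^ 2 * c - K * s ^ 3 := by
    rw [neg_sq]; linarith [q4.2, q3.1]
  have hp := (mul_le_mul l1 l2 p2 (p1.trans l1)).trans (hpair s hsσ)
  have h5 : s ^ 2 * (2 * V * c - (2 * I) ^ 2 - 2 * V * K * s) ≤ s ^ 2 * 0 := by
    have e : (V + s * (-2 * I) + s ^ 2 * c - K * s ^ 3)
        * (V + -s * (-2 * I) + (-s) ^ 2 * c - K * s ^ 3) - V ^ 2
        = s ^ 2 * (2 * V * c - (2 * I) ^ 2 - 2 * V * K * s) + (s ^ 2 * (c - K * s)) ^ 2 := by ring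
    linarith [sq_nonneg (s ^ 2 * (c - K * s))]
  have := (mul_le_mul_iff_right₀ (show 0 < s ^ 2 by positivity)).1 h5
  linarith

/-- Exhausting the body from inside, the product bound passes to the whole body. -/
lemma vol_pair_full (hG : IsGauge G) {a : Fin n → ℝ} {ε s B : ℝ} (hε : 0 < ε) (hε1 : ε ≤ 1)
    (hB : ∀ x ∈ body G, ∀ i, x i ≤ B) (hs : ∀ i, |s * a i| * B ≤ ε / 16) :
    (∫ x in body G, ∏ i, pertD ε (s * a i) (x i))
      * (∫ x in body G, ∏ i, pertD ε (-s * a i) (x i)) ≤ vol G ^ 2 := by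
  set T : ℕ → Set (Fin n → ℝ) := fun k => body G ∩ {x | ∀ i, (1 : ℝ) / (k + 1) ≤ x i} with hT
  have hTm : ∀ k, MeasurableSet (T k) := fun k => hG.measurableSet_body.inter
    (by rw [ofPred_forall]; exact MeasurableSet.iInter fun i =>
      measurableSet_le measurable_const (measurable_pi_apply i))
  have hmono : Monotone T := fun k l hkl x hx => ⟨hx.1, fun i =>
    (one_div_le_one_div_of_le (by positivity) (by exact_mod_cast Nat.add_le_add_right hkl 1)).trans
      (hx.2 i)⟩
  have hU : (⋃ k, T k) =ᵐ[volume] body G := by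
    refine eventuallyLE_antisymm_iff.2 ⟨?_, ?_⟩
    · exact (iUnion_subset fun k => inter_subset_left).eventuallyLE
    · have hz : ∀ᵐ x : Fin n → ℝ, ∀ i, x i ≠ 0 := ae_all_iff.2 fun i => by
        rw [ae_iff]; simp only [ne_eq, not_not, volume_pi]
        exact Measure.pi_hyperplane (fun _ : Fin n => (volume : Measure ℝ)) i 0
      filter_upwards [hz] with x hx hP
      have hpos : ∀ i, 0 < x i := fun i => lt_of_le_of_ne (hP.1 i) (hx i).symm
      choose k hk using fun i => exists_nat_one_div_lt (hpos i)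
      refine mem_iUnion.2 ⟨∑ i, k i, hP, fun i => le_trans ?_ (hk i).le⟩
      exact one_div_le_one_div_of_le (by positivity) (by
        exact_mod_cast Nat.add_le_add_right
          (Finset.single_le_sum (fun j _ => Nat.zero_le (k j)) (Finset.mem_univ i)) 1)
  have hlim : ∀ t : ℝ, Tendsto (fun k => ∫ x in T k, ∏ i, pertD ε (t * a i) (x i)) atTop
      (𝓝 (∫ x in body G, ∏ i, pertD ε (t * a i) (x i))) := fun t => by
    rw [← setIntegral_congr_set hU]
    exact tendsto_setIntegral_of_monotone hTm hmono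
      (((by unfold pertD; fun_prop : Continuous fun x : Fin n → ℝ => ∏ i, pertD ε (t * a i) (x i)
        ).continuousOn.integrableOn_compact hG.isCompact_body).congr_set_ae hU)
  exact le_of_tendsto ((hlim s).mul (hlim (-s))) (Eventually.of_forall fun k =>
    vol_pair hG hε hε1 (by positivity) hB hs)

/-- The variance bound. -/
theorem varBound : VarBound := by
  intro n G a hG
  have hI3e : ∫ x in body G, ∑ i, (a i * x i) ^ 2 = ∑ i, a i ^ 2 * ∫ x in body G, x i ^ 2 := by
    rw [integral_finsetSum _ fun i _ =>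
      ((by fun_prop : Continuous fun x : Fin n → ℝ => (a i * x i) ^ 2
        ).continuousOn.integrableOn_compact hG.isCompact_body)]
    exact Finset.sum_congr rfl fun i _ => by
      rw [← integral_const_mul]; exact integral_congr_ae (Eventually.of_forall fun x => by ring)
  rw [← hI3e]
  set V := vol G
  set I1 := ∫ x in body G, ∑ i, a i * x i
  set I2 := ∫ x in body G, (∑ i, a i * x i) ^ 2
  set I3 := ∫ x in body G, ∑ i, (a i * x i) ^ 2
  have hV : 0 < V := hG.vol_pos
  have h3n : 0 ≤ I3 := setIntegral_nonneg hG.measurableSet_body fun x _ =>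
    Finset.sum_nonneg fun i _ => sq_nonneg _
  obtain ⟨B₀, hB₀⟩ := hG.isCompact_body.isBounded.subset_closedBall 0
  have hB : ∀ x ∈ body G, ∀ i, x i ≤ max B₀ 0 := fun x hx i => by
    have := (norm_le_pi_norm x i).trans (by simpa using hB₀ hx)
    exact (le_abs_self _).trans (this.trans (le_max_left _ _))
  have key : ∀ ε, 0 < ε → ε ≤ 1 → V * I2 - I1 ^ 2 ≤ V * I3 + 3 / 2 * (V * I3) * ε := by
    intro ε hε hε1
    obtain ⟨K, hK, hlow⟩ := vol_lower hG a ε
    have hS : 0 ≤ max B₀ 0 * ∑ i, |a i| :=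
      mul_nonneg (le_max_right _ _) (Finset.sum_nonneg fun i _ => abs_nonneg _)
    have := coeff_le (A := fun t => ∫ x in body G, ∏ i, pertD ε (t * a i) (x i))
      (σ := ε / (16 * (1 + max B₀ 0 * ∑ i, |a i|))) hV hK (by positivity) hlow
      fun s hs => vol_pair_full hG hε hε1 hB fun i => by
        rw [le_div_iff₀ (by positivity)] at hs
        rw [abs_mul, mul_assoc, le_div_iff₀ (by norm_num)]
        have h1 : |a i| * max B₀ 0 ≤ 1 + max B₀ 0 * ∑ j, |a j| := by
          have := mul_le_mul_of_nonneg_left (Finset.single_le_sum (f := fun j => |a j|)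
            (fun j _ => abs_nonneg _) (Finset.mem_univ i)) (le_max_right B₀ 0)
          linarith
        have := mul_le_mul_of_nonneg_left h1 (abs_nonneg s)
        linarith
    linarith
  by_contra hcon
  push Not at hcon
  rcases eq_or_lt_of_le (mul_nonneg hV.le h3n) with h0 | h0
  · have := key 1 one_pos le_rfl
    rw [← h0] at this hcon
    linarith
  · set X := V * I2 - I1 ^ 2 - V * I3 with hX
    have hX0 : 0 < X := by linarith
    have := key (min 1 (X / (2 * (V * I3)))) (lt_min one_pos (by positivity)) (min_le_left _ _)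
    have h2 := mul_le_mul_of_nonneg_left (min_le_right 1 (X / (2 * (V * I3)))) h0.le
    have h3 : V * I3 * (X / (2 * (V * I3))) = X / 2 := by
      rw [mul_div_assoc', mul_comm (2 : ℝ), mul_div_mul_left _ _ h0.ne']
    linarith

end Vale.Agent.P254.CT
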