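import Mathlib
import Vale.Agent.P254.CT.Base
import Vale.Agent.P254.CT.Var

/-!
Existence of a minimiser: normalise the gauge at the coordinate vectors, take pointwise limits on
a countable dense set, and use dominated convergence.
-/

noncomputable section

open MeasureTheory Set Filter Topology Function
open scoped BigOperators

namespace Vale.Agent.P254.CT

variable {n : ℕ}

/-- Gauges equal to one at every coordinate vector. -/
def IsNormed (G : (Fin n → ℝ) → ℝ) : Prop := IsGauge G ∧ ∀ i, G (unit i) = 1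

lemma isGauge_sum (c : ℝ) (hc : 0 < c) : IsGauge fun x : Fin n → ℝ => c * ∑ i, x i := by
  refine ⟨fun x _ r _ => ?_, fun x _ y _ => le_of_eq ?_, fun x _ y _ hxy => ?_, fun i => ?_⟩
  · simp only [Pi.smul_apply, smul_eq_mul, ← Finset.mul_sum]; ring
  · simp only [Pi.add_apply, Finset.sum_add_distrib]; ring
  · exact mul_le_mul_of_nonneg_left (Finset.sum_le_sum fun i _ => hxy i) hc.le
  · simpa [unit] using hc

/-- Diagonal changes of variable do not change the functional. -/
lemma fn_scale {G : (Fin n → ℝ) → ℝ} (hG : IsGauge G) {r : Fin n → ℝ} (hr : ∀ i, 0 < r i) :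
    IsGauge (fun x => G (r * x)) ∧ Fn (fun x => G (r * x)) = Fn G := by
  have ho : ∀ x ∈ orth n, r * x ∈ orth n := fun x hx i => mul_nonneg (hr i).le (hx i)
  have hg' : IsGauge fun x => G (r * x) := by
    refine ⟨fun x hx t ht => ?_, fun x hx y hy => ?_, fun x hx y hy h => ?_, fun i => ?_⟩
    · rw [mul_smul_comm]; exact hG.hom _ (ho x hx) t ht
    · rw [mul_add]; exact hG.sub _ (ho x hx) _ (ho y hy)
    · exact hG.mono _ (ho x hx) _ (ho y hy) fun i => mul_le_mul_of_nonneg_left (h i) (hr i).le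
    · have e : r * unit i = r i • unit i := by
        funext j
        by_cases h : j = i
        · subst h; simp [unit]
        · simp [unit, h]
      show 0 < G (r * unit i)
      rw [e, hG.hom _ (unit_mem_orth i) _ (hr i).le]
      exact mul_pos (hr i) (hG.unit_pos i)
  refine ⟨hg', ?_⟩
  have hP : 0 < ∏ i, r i := Finset.prod_pos fun i _ => hr i
  have cov : ∀ g : (Fin n → ℝ) → ℝ,
      ∫ x in orth n, g x = (∏ i, r i) * ∫ x in orth n, g (r * x) := by
    intro g
    have him : (fun x => r * x) '' orth n = orth n := by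
      refine Subset.antisymm (image_subset_iff.2 ho) fun y hy => ⟨fun i => y i / r i,
        fun i => div_nonneg (hy i) (hr i).le, funext fun i => ?_⟩
      simp only [Pi.mul_apply]
      field_simp [(hr i).ne']
    have h := integral_image_eq_integral_abs_det_fderiv_smul (μ := (volume : Measure (Fin n → ℝ)))
      measurableSet_orth (f := fun x => r * x) (f' := fun _ => ContinuousLinearMap.pi fun i =>
        r i • ContinuousLinearMap.proj (R := ℝ) (φ := fun _ : Fin n => ℝ) i)
      (fun x _ => (hasFDerivAt_pi.2 fun i => by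
        exact ((hasFDerivAt_apply (𝕜 := ℝ) (F' := fun _ : Fin n => ℝ) i x).const_mul (r i))
        ).hasFDerivWithinAt)
      (fun x _ y _ h => funext fun i => mul_left_cancel₀ (hr i).ne' (congrFun h i)) g
    rw [him, pi_proj_det, abs_of_pos hP] at h
    simpa [smul_eq_mul, integral_const_mul] using h
  have eZ : Zexp G = (∏ i, r i) * Zexp (fun x => G (r * x)) := by
    simpa [Zexp, expInt] using cov fun x => Real.exp (-G x)
  have eM : ∀ i, momExp G i = ((∏ j, r j) * r i) * momExp (fun x => G (r * x)) i := fun i => by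
    have e := cov fun x => x i * Real.exp (-G x)
    simp only [Pi.mul_apply, mul_assoc, integral_const_mul] at e
    rw [mul_assoc]
    exact e
  have el : ∀ i, Real.log (momExp G i) = Real.log (∏ j, r j) + Real.log (r i)
      + Real.log (momExp (fun x => G (r * x)) i) := fun i => by
    rw [eM, Real.log_mul (mul_pos hP (hr i)).ne' (hg'.momExp_pos i).ne',
      Real.log_mul hP.ne' (hr i).ne']
  rw [Fn, Fn, eZ, Real.log_mul hP.ne' hg'.zexp_pos.ne', Finset.sum_congr rfl fun i _ => el i,
    Finset.sum_add_distrib, Finset.sum_add_distrib, Finset.sum_const, Finset.card_univ,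
    Fintype.card_fin, nsmul_eq_mul, ← Real.log_prod fun i _ => (hr i).ne']
  ring

lemma exists_normed {G : (Fin n → ℝ) → ℝ} (hG : IsGauge G) :
    ∃ G' : (Fin n → ℝ) → ℝ, IsNormed G' ∧ Fn G' = Fn G := by
  have hr : ∀ i, 0 < (G (unit i))⁻¹ := fun i => inv_pos.2 (hG.unit_pos i)
  refine ⟨_, ⟨(fn_scale hG hr).1, fun i => ?_⟩, (fn_scale hG hr).2⟩
  have e : (fun j => (G (unit j))⁻¹) * unit i = (G (unit i))⁻¹ • unit i := by
    funext j
    by_cases h : j = i
    · subst h; simp [unit]
    · simp [unit, h]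
  show G ((fun j => (G (unit j))⁻¹) * unit i) = 1
  rw [e, hG.hom _ (unit_mem_orth i) _ (hr i).le, inv_mul_cancel₀ (hG.unit_pos i).ne']

/-- A pointwise limit on a subsequence. -/
lemma exists_subseq_lim (u : ℕ → (Fin n → ℝ) → ℝ) (hu : ∀ k, IsNormed (u k)) :
    ∃ G : (Fin n → ℝ) → ℝ, IsNormed G ∧ ∃ φ : ℕ → ℕ, StrictMono φ ∧
      ∀ x ∈ orth n, Tendsto (fun k => u (φ k) x) atTop (𝓝 (G x)) := by
  haveI : Nonempty (orth n) := ⟨⟨0, zero_mem_orth⟩⟩
  set d := TopologicalSpace.denseSeq (orth n)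
  obtain ⟨v, -, φ, hφ, hv⟩ := (isCompact_univ_pi fun m : ℕ => isCompact_Icc (a := (0 : ℝ))
    (b := ∑ i, (d m : Fin n → ℝ) i)).tendsto_subseq (x := fun k m => u k (d m)) fun k m _ =>
      ⟨(hu k).1.nonneg (d m).2, ((hu k).1.le_sum (d m).2).trans (le_of_eq (by simp [(hu k).2]))⟩
  have hlip : ∀ k, ∀ x ∈ orth n, ∀ y ∈ orth n, |u k x - u k y| ≤ (n : ℝ) * n * dist x y := by
    intro k x hx y hy
    have h1 := (hu k).1.lip hx hy
    simp only [(hu k).2, Finset.sum_const, Finset.card_univ, Fintype.card_fin, nsmul_eq_mul,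
      mul_one] at h1
    refine h1.trans ?_
    rw [mul_assoc]
    refine mul_le_mul_of_nonneg_left ?_ (Nat.cast_nonneg n)
    refine (Finset.sum_le_card_nsmul Finset.univ _ (dist x y) fun i _ => ?_).trans (le_of_eq (by simp))
    rw [← Real.dist_eq]
    exact dist_le_pi_dist x y i
  have hc : ∀ x ∈ orth n, CauchySeq fun k => u (φ k) x := by
    intro x hx
    rw [Metric.cauchySeq_iff]
    intro ε hε
    obtain ⟨m, hm⟩ := (TopologicalSpace.denseRange_denseSeq (orth n)).exists_dist_lt ⟨x, hx⟩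
      (show 0 < ε / (3 * ((n : ℝ) * n + 1)) by positivity)
    rw [Subtype.dist_eq, lt_div_iff₀ (by positivity)] at hm
    have hmc := ((tendsto_pi_nhds.1 hv m)).cauchySeq
    obtain ⟨N, hN⟩ := Metric.cauchySeq_iff.1 hmc (ε / 3) (by positivity)
    refine ⟨N, fun a ha b hb => ?_⟩
    have h := hN a ha b hb
    simp only [comp_apply, Real.dist_eq] at h ⊢
    have h1 := hlip (φ a) x hx _ (d m).2
    have h2 := hlip (φ b) x hx _ (d m).2
    have h3 := abs_sub_le (u (φ a) x) (u (φ a) (d m)) (u (φ b) x)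
    have h4 := abs_sub_le (u (φ a) (d m)) (u (φ b) (d m)) (u (φ b) x)
    rw [abs_sub_comm (u (φ b) (d m))] at h4
    have h5 := dist_nonneg (x := x) (y := (d m : Fin n → ℝ))
    linarith
  set G : (Fin n → ℝ) → ℝ := fun x => limUnder atTop fun k => u (φ k) x with hGdef
  have hlim : ∀ x ∈ orth n, Tendsto (fun k => u (φ k) x) atTop (𝓝 (G x)) := fun x hx =>
    (hc x hx).tendsto_limUnder
  have hunit : ∀ i, G (unit i) = 1 := fun i =>
    tendsto_nhds_unique (hlim _ (unit_mem_orth i)) (by simp [(hu _).2])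
  refine ⟨G, ⟨⟨fun x hx r hr => ?_, fun x hx y hy => ?_, fun x hx y hy h => ?_, fun i => ?_⟩,
    hunit⟩, φ, hφ, hlim⟩
  · refine tendsto_nhds_unique (hlim _ (smul_mem_orth hx hr)) ?_
    simpa [(fun k => (hu (φ k)).1.hom x hx r hr)] using (hlim x hx).const_mul r
  · exact le_of_tendsto_of_tendsto (hlim _ (add_mem_orth hx hy)) ((hlim x hx).add (hlim y hy))
      (Eventually.of_forall fun k => (hu (φ k)).1.sub x hx y hy)
  · exact le_of_tendsto_of_tendsto (hlim x hx) (hlim y hy)
      (Eventually.of_forall fun k => (hu (φ k)).1.mono x hx y hy h)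
  · rw [hunit]; exact one_pos

/-- Dominated convergence for the weights. -/
lemma tendsto_expInt {u : ℕ → (Fin n → ℝ) → ℝ} {G f : (Fin n → ℝ) → ℝ}
    (hu : ∀ k, IsNormed (u k)) (hlim : ∀ x ∈ orth n, Tendsto (fun k => u k x) atTop (𝓝 (G x)))
    (hf : Continuous f) (hfb : ∃ B, ∀ x ∈ orth n, |f x| ≤ B * (1 + ∑ i, x i)) :
    Tendsto (fun k => expInt (u k) f) atTop (𝓝 (expInt G f)) := by
  obtain ⟨B, hB⟩ := hfb
  have hc : (0 : ℝ) < 1 / ((n : ℝ) + 1) := by positivity
  have hG0 := isGauge_sum (n := n) _ hc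
  refine tendsto_integral_of_dominated_convergence
    (fun x => |f x| * Real.exp (-(1 / ((n : ℝ) + 1) * ∑ i, x i))) (fun k => ?_) ?_ (fun k => ?_) ?_
  · exact hf.aestronglyMeasurable.mul ((Real.continuous_exp.comp_continuousOn
      (hu k).1.continuousOn.neg).aestronglyMeasurable measurableSet_orth)
  · refine hG0.integrableOn_exp_mul (B := |B| * ((n : ℝ) + 1)) (p := 1)
      hf.abs.aestronglyMeasurable fun x hx => ?_
    rw [abs_abs, pow_one]
    refine (hB x hx).trans ?_
    have hs : 0 ≤ ∑ i, x i := Finset.sum_nonneg fun i _ => hx i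
    have e : |B| * ((n : ℝ) + 1) * (1 + 1 / ((n : ℝ) + 1) * ∑ i, x i)
        = |B| * (1 + ∑ i, x i) + |B| * n := by field_simp; ring
    rw [e]
    have := mul_le_mul_of_nonneg_right (le_abs_self B) (add_nonneg zero_le_one hs)
    linarith [mul_nonneg (abs_nonneg B) (Nat.cast_nonneg n : (0 : ℝ) ≤ n)]
  · filter_upwards [ae_restrict_mem measurableSet_orth] with x hx
    rw [Real.norm_eq_abs, abs_mul, abs_of_pos (Real.exp_pos _)]
    refine mul_le_mul_of_nonneg_left (Real.exp_le_exp.2 (neg_le_neg ?_)) (abs_nonneg _)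
    rw [one_div, inv_mul_le_iff₀ (by positivity)]
    have h1 : ∑ i, x i ≤ ∑ _i : Fin n, u k x := Finset.sum_le_sum fun i _ => by
      have := (hu k).1.coord_le hx i
      rwa [(hu k).2, mul_one] at this
    rw [Finset.sum_const, Finset.card_univ, Fintype.card_fin, nsmul_eq_mul] at h1
    linarith [(hu k).1.nonneg hx]
  · filter_upwards [ae_restrict_mem measurableSet_orth] with x hx
    exact ((Real.continuous_exp.tendsto _).comp (hlim x hx).neg).const_mul _

/-- A minimiser exists. -/
theorem minExists : MinExists := by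
  intro n _
  set S := {y : ℝ | ∃ G : (Fin n → ℝ) → ℝ, IsNormed G ∧ Fn G = y} with hS
  have hc : IsCompact S := by
    refine IsSeqCompact.isCompact fun y hy => ?_
    choose u hu hy' using hy
    obtain ⟨G, hG, φ, hφ, hlim⟩ := exists_subseq_lim u hu
    refine ⟨Fn G, ⟨G, hG, rfl⟩, φ, hφ, ?_⟩
    have hZ : Tendsto (fun k => Zexp (u (φ k))) atTop (𝓝 (Zexp G)) :=
      tendsto_expInt (fun k => hu (φ k)) hlim continuous_const ⟨1, fun x hx => by
        have := Finset.sum_nonneg fun i (_ : i ∈ Finset.univ) => hx i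
        simp only [abs_one, one_mul]; linarith⟩
    have hM : ∀ i, Tendsto (fun k => momExp (u (φ k)) i) atTop (𝓝 (momExp G i)) := fun i =>
      tendsto_expInt (fun k => hu (φ k)) hlim (continuous_apply i) ⟨1, fun x hx => by
        rw [abs_of_nonneg (hx i), one_mul]
        linarith [Finset.single_le_sum (fun j _ => hx j) (Finset.mem_univ i)]⟩
    have e : y ∘ φ = fun k => Fn (u (φ k)) := funext fun k => (hy' (φ k)).symm
    rw [e]
    exact ((hZ.log hG.1.zexp_pos.ne').const_mul _).sub
      (tendsto_finsetSum _ fun i _ => (hM i).log (hG.1.momExp_pos i).ne')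
  obtain ⟨G₁, hG₁, -⟩ := exists_normed (isGauge_sum (n := n) 1 one_pos)
  obtain ⟨y, ⟨G, hG, rfl⟩, hmin⟩ := hc.exists_isLeast ⟨Fn G₁, G₁, hG₁, rfl⟩
  refine ⟨G, hG.1, fun G' hG' => ?_⟩
  obtain ⟨G'', h1, h2⟩ := exists_normed hG'
  exact h2 ▸ hmin ⟨G'', h1, rfl⟩

end Vale.Agent.P254.CT
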