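import Vale.Agent.P254.CT.Defs

/-!
The one-variable inequality: a log-concave decreasing density on `[0, M)`, `M > 2`, with mass and
mean one, is below `1 / (3 M² - 8 M + 6)` near the end of its support.
-/

noncomputable section

open MeasureTheory Set Filter Topology Real
open scoped Nat

namespace Vale.Agent.P254.CT

lemma hasSum_pow_div_factorial (x : ℝ) : HasSum (fun m : ℕ => x ^ m / m !) (exp x) := by
  rw [Real.exp_eq_exp_ℝ]
  exact NormedSpace.expSeries_div_hasSum_exp x

lemma hasSum_mul_pow_div_factorial (x : ℝ) :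
    HasSum (fun m : ℕ => (m : ℝ) * (x ^ m / m !)) (x * exp x) := by
  refine (hasSum_nat_add_iff' 1).mp ?_
  simp only [Finset.sum_range_one, Nat.cast_zero, zero_mul, sub_zero]
  refine ((hasSum_pow_div_factorial x).mul_left x).congr_fun fun m => ?_
  rw [Nat.factorial_succ, Nat.cast_mul, pow_succ]
  have h1 : (m ! : ℝ) ≠ 0 := by exact_mod_cast m.factorial_ne_zero
  push_cast
  field_simp

lemma hasSum_sq_pow_div_factorial (x : ℝ) :
    HasSum (fun m : ℕ => (m : ℝ) * ((m : ℝ) - 1) * (x ^ m / m !)) (x * (x * exp x)) := by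
  refine (hasSum_nat_add_iff' 1).mp ?_
  simp only [Finset.sum_range_one, Nat.cast_zero, zero_mul, sub_zero]
  refine ((hasSum_mul_pow_div_factorial x).mul_left x).congr_fun fun m => ?_
  rw [Nat.factorial_succ, Nat.cast_mul, pow_succ]
  have h1 : (m ! : ℝ) ≠ 0 := by exact_mod_cast m.factorial_ne_zero
  push_cast
  field_simp
  ring

lemma coeff_bound (m : ℕ) (hm : 7 ≤ m) :
    2 ^ m * (3 * (m : ℝ) ^ 2 - 17 * m + 36) + 8 * (m : ℝ) ^ 2 ≤ 4 * 3 ^ m := by
  induction m, hm using Nat.le_induction with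
  | base => norm_num
  | succ m hm ih =>
    have hm' : (7 : ℝ) ≤ m := by exact_mod_cast hm
    have h2 : (0 : ℝ) ≤ 2 ^ m := by positivity
    have h3 : 0 ≤ 3 * (m : ℝ) ^ 2 - 29 * m + 64 := by nlinarith [sq_nonneg ((m : ℝ) - 7)]
    have h4 := mul_nonneg h2 h3
    push_cast
    rw [pow_succ (2 : ℝ) m, pow_succ (3 : ℝ) m]
    nlinarith [sq_nonneg ((m : ℝ) - 1)]

/-- The exponential inequality. -/
lemma phi_pos {T : ℝ} (hT : 0 < T) :
    0 < exp T ^ 3 + exp T ^ 2 * (-9 + 7 * T - 3 * T ^ 2) + exp T * (15 - 2 * T - 2 * T ^ 2)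
      + (-7 - 5 * T - T ^ 2) := by
  have h3 : exp T ^ 3 = exp (3 * T) := by rw [← Real.exp_nat_mul]; norm_num
  have h2 : exp T ^ 2 = exp (2 * T) := by rw [← Real.exp_nat_mul]; norm_num
  rw [h3, h2]
  set c : ℕ → ℝ := fun m => 3 ^ m + 2 ^ m * (-36 + 17 * (m : ℝ) - 3 * (m : ℝ) ^ 2) / 4
    + 15 - 2 * (m : ℝ) ^ 2 with hc
  have hsum : HasSum (fun m : ℕ => c m * (T ^ m / m !))
      (exp (3 * T) + exp (2 * T) * (-9 + 7 * T - 3 * T ^ 2)
        + exp T * (15 - 2 * T - 2 * T ^ 2)) := by
    have e : exp (3 * T) + exp (2 * T) * (-9 + 7 * T - 3 * T ^ 2)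
        + exp T * (15 - 2 * T - 2 * T ^ 2)
        = exp (3 * T) + (-9 : ℝ) * exp (2 * T) + (7 / 2 : ℝ) * (2 * T * exp (2 * T))
          + (-(3 / 4) : ℝ) * (2 * T * (2 * T * exp (2 * T))) + (15 : ℝ) * exp T
          + (-2 : ℝ) * (T * exp T) + (-2 : ℝ) * (T * (T * exp T)) := by ring
    rw [e]
    refine (((((((hasSum_pow_div_factorial (3 * T)).add
      ((hasSum_pow_div_factorial (2 * T)).mul_left _)).add
      ((hasSum_mul_pow_div_factorial (2 * T)).mul_left _)).add
      ((hasSum_sq_pow_div_factorial (2 * T)).mul_left _)).add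
      ((hasSum_pow_div_factorial T).mul_left _)).add
      ((hasSum_mul_pow_div_factorial T).mul_left _)).add
      ((hasSum_sq_pow_div_factorial T).mul_left _)).congr_fun fun m => ?_
    simp only [hc, mul_pow]
    ring
  have hpos : ∀ m ∉ Finset.range 8, 0 ≤ c m * (T ^ m / m !) := by
    intro m hm
    rw [Finset.mem_range, not_lt] at hm
    have h := coeff_bound m (by omega)
    refine mul_nonneg ?_ (by positivity)
    simp only [hc]
    nlinarith
  have hfin : ∑ m ∈ Finset.range 8, c m * (T ^ m / m !)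
      = 7 + 5 * T + T ^ 2 + 56 * T ^ 7 / 5040 := by
    simp only [Finset.sum_range_succ, Finset.sum_range_zero, hc, Nat.factorial]
    norm_num
    ring
  have := sum_le_hasSum _ hpos hsum
  have : 0 < 56 * T ^ 7 / 5040 := by positivity
  linarith

/-- A concave function, here `log f` minus a decreasing affine one, stays nonnegative. -/
lemma cross_up {M e s : ℝ} {f : ℝ → ℝ} (he : 0 < e) (hs : 0 ≤ s)
    (hanti : AntitoneOn f (Ico 0 M))
    (hlc : ∀ a ∈ Ico 0 M, ∀ b ∈ Ico 0 M, f a * f b ≤ f ((a + b) / 2) ^ 2)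
    (hlow : ∀ t ∈ Ico 0 M, e ≤ f t) {y z : ℝ} (hy : 0 ≤ y) (hyz : y ≤ z) (hzM : z < M)
    (hfy : e * exp (s * (M - y)) ≤ f y) : e * exp (s * (M - z)) ≤ f z := by
  set h : ℝ → ℝ := fun t => log (f t) - log e - s * (M - t) with hh
  have fpos : ∀ t ∈ Ico 0 M, 0 < f t := fun t ht => he.trans_le (hlow t ht)
  have key : ∀ ε : ℝ, 0 < ε → ε ≤ M - z → ∀ k : ℕ, ∃ p q : ℝ, 0 ≤ p ∧ p ≤ z ∧ z ≤ q ∧ q < M ∧
      q - p ≤ (M - y) / 2 ^ k ∧ -(s * ε) ≤ h p ∧ -(s * ε) ≤ h q := by
    intro ε hε hεz k
    have hsε : 0 ≤ s * ε := by positivity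
    induction k with
    | zero =>
      refine ⟨y, M - ε, hy, hyz, by linarith, by linarith, by simp; linarith, ?_, ?_⟩
      · have := log_le_log (by positivity) hfy
        rw [log_mul he.ne' (exp_pos _).ne', log_exp] at this
        simp only [hh]; linarith
      · have := log_le_log he (hlow (M - ε) ⟨by linarith, by linarith⟩)
        simp only [hh, sub_sub_cancel]; linarith
    | succ k ih =>
      obtain ⟨p, q, hp0, hpz, hzq, hqM, hlen, hp, hq⟩ := ih
      have hmid : (p + q) / 2 ∈ Ico 0 M := ⟨by linarith, by linarith⟩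
      have hpm : p ∈ Ico 0 M := ⟨hp0, by linarith⟩
      have hqm : q ∈ Ico 0 M := ⟨by linarith, hqM⟩
      have hm : -(s * ε) ≤ h ((p + q) / 2) := by
        have := log_le_log (mul_pos (fpos p hpm) (fpos q hqm)) (hlc p hpm q hqm)
        rw [log_mul (fpos p hpm).ne' (fpos q hqm).ne', log_pow] at this
        simp only [hh] at hp hq ⊢
        push_cast at this
        linarith
      have hpow : (M - y) / 2 ^ (k + 1) = (M - y) / 2 ^ k / 2 := by rw [pow_succ, div_div]
      rw [hpow]
      rcases le_total z ((p + q) / 2) with hc | hc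
      · exact ⟨p, (p + q) / 2, hp0, hpz, hc, hmid.2, by linarith, hp, hm⟩
      · exact ⟨(p + q) / 2, q, hmid.1, hc, hzq, hqM, by linarith, hm, hq⟩
  have hz : 0 ≤ h z := by
    refine le_of_forall_pos_le_add fun δ hδ => ?_
    rcases hs.eq_or_lt with hs0 | hs0
    · have := log_le_log he (hlow z ⟨by linarith, hzM⟩)
      simp only [hh, ← hs0]; linarith
    set ε := min (M - z) (δ / (2 * s)) with hεdef
    have hε : 0 < ε := lt_min (by linarith) (by positivity)
    obtain ⟨k, hk⟩ := pow_unbounded_of_one_lt (2 * s * (M - y) / δ) one_lt_two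
    obtain ⟨p, q, hp0, hpz, hzq, hqM, hlen, -, hq⟩ := key ε hε (min_le_left _ _) k
    have hd : (M - y) / 2 ^ k ≤ δ / (2 * s) := by
      rw [div_lt_iff₀ hδ] at hk
      rw [div_le_div_iff₀ (by positivity) (by positivity)]
      nlinarith
    have hsd : s * (δ / (2 * s)) = δ / 2 := by field_simp
    have h1 : s * ε ≤ δ / 2 := hsd ▸ mul_le_mul_of_nonneg_left (min_le_right _ _) hs
    have h2 : s * (q - z) ≤ δ / 2 :=
      hsd ▸ mul_le_mul_of_nonneg_left (le_trans (by linarith) (hlen.trans hd)) hs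
    have hzm : z ∈ Ico 0 M := ⟨by linarith, hzM⟩
    have hqm : q ∈ Ico 0 M := ⟨by linarith, hqM⟩
    have := log_le_log (fpos q hqm) (hanti hzm hqm hzq)
    simp only [hh] at hq ⊢
    linarith
  have := fpos z ⟨by linarith, hzM⟩
  rw [← log_le_log_iff (by positivity) this, log_mul he.ne' (exp_pos _).ne', log_exp]
  simp only [hh] at hz
  linarith

/-- Step 5. -/
theorem oneVariable : OneVariable := by
  intro f M hM h0 hanti hlc hmass hmean
  set K : ℝ := 3 * M ^ 2 - 8 * M + 6 with hK
  have hKM : M < K := by rw [hK]; nlinarith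
  have hK0 : 0 < K := by linarith
  by_contra hcon
  push Not at hcon
  have hlow : ∀ t ∈ Ico 0 M, 1 / K ≤ f t := by
    intro t ht
    by_contra hlt
    rw [not_le, lt_div_iff₀ hK0] at hlt
    obtain ⟨u, hu, hu'⟩ := hcon t ht.2 (f t * K) hlt
    have humem : u ∈ Ico 0 M := ⟨ht.1.trans hu.1, hu.2⟩
    have := mul_le_mul_of_nonneg_right (hanti ht humem hu.1) hK0.le
    linarith
  set g : ℝ := K / M with hg
  have hg1 : 1 < g := by rw [hg, one_lt_div (by linarith)]; exact hKM
  obtain ⟨T, hT, hTeq⟩ : ∃ T : ℝ, 0 < T ∧ exp T - 1 = g * T := by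
    have hlg : 0 < log g := log_pos hg1
    have hlg' : log g ≤ g := (log_le_sub_one_of_pos (by linarith)).trans (by linarith)
    have hb := add_one_lt_exp (show -(log g) ≠ 0 by linarith)
    rw [exp_neg, exp_log (by linarith : (0 : ℝ) < g)] at hb
    have h4 := quadratic_le_exp_of_nonneg (show (0 : ℝ) ≤ 4 * g by linarith)
    have hlo : exp (log g) - 1 - g * log g ≤ 0 := by
      rw [exp_log (by linarith)]
      have h5 : g * g⁻¹ = 1 := mul_inv_cancel₀ (by linarith)
      nlinarith
    have hhi : 0 ≤ exp (4 * g) - 1 - g * (4 * g) := by nlinarith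
    obtain ⟨T, hT, hT'⟩ := intermediate_value_Icc (show log g ≤ 4 * g by linarith)
      (Continuous.continuousOn (f := fun T => exp T - 1 - g * T) (by fun_prop)) ⟨hlo, hhi⟩
    exact ⟨T, hlg.trans_le hT.1, by simp only at hT'; linarith⟩
  set s : ℝ := T / M with hs
  have hs0 : 0 < s := by rw [hs]; positivity
  have hsM : s * M = T := by rw [hs]; field_simp
  set l : ℝ → ℝ := fun y => 1 / K * exp (s * (M - y)) with hl
  have hder : ∀ y : ℝ, HasDerivAt (fun y => exp (s * (M - y))) (exp (s * (M - y)) * (-s)) y := by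
    intro y
    have : HasDerivAt (fun y : ℝ => s * (M - y)) (-s) y := by
      simpa using ((hasDerivAt_id y).const_sub M).const_mul s
    exact this.exp
  have hconv : ∀ u : ℝ → ℝ, ∫ y in Ioo 0 M, u y = ∫ y in (0 : ℝ)..M, u y := fun u => by
    rw [intervalIntegral.integral_of_le (by linarith), integral_Ioc_eq_integral_Ioo]
  have hlmass : ∫ y in Ioo 0 M, l y = 1 := by
    rw [hconv, intervalIntegral.integral_eq_sub_of_hasDerivAt
      (f := fun y => -(1 / (K * s)) * exp (s * (M - y))) (fun y _ => ?_)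
      ((by fun_prop : Continuous l).intervalIntegrable _ _)]
    · simp only [sub_self, mul_zero, exp_zero, sub_zero, hsM]
      have e : K * s = g * T := by rw [hg, hs]; field_simp
      have hne : g * T ≠ 0 := by positivity
      rw [e, show exp T = g * T + 1 by linarith]
      field_simp
      ring
    · refine ((hder y).const_mul (-(1 / (K * s)))).congr_deriv ?_
      show _ = 1 / K * exp (s * (M - y))
      field_simp
  have hlmean : ∫ y in Ioo 0 M, y * l y = 1 / s - M / (g * T) := by
    rw [hconv, intervalIntegral.integral_eq_sub_of_hasDerivAt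
      (f := fun y => -(1 / (K * s)) * ((y + 1 / s) * exp (s * (M - y)))) (fun y _ => ?_)
      ((by fun_prop : Continuous fun y => y * l y).intervalIntegrable _ _)]
    · simp only [sub_self, mul_zero, exp_zero, sub_zero, hsM, zero_add, mul_one]
      have e : K * s = g * T := by rw [hg, hs]; field_simp
      rw [e, show exp T = g * T + 1 by linarith]
      field_simp
      ring
    · refine ((((hasDerivAt_id' y).add_const (1 / s)).mul (hder y)).const_mul
        (-(1 / (K * s)))).congr_deriv ?_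
      show _ = y * (1 / K * exp (s * (M - y)))
      field_simp
      ring
  have hfint : IntegrableOn f (Ioo 0 M) :=
    Integrable.of_integral_ne_zero (by rw [hmass]; exact one_ne_zero)
  have hfint' : IntegrableOn (fun y => y * f y) (Ioo 0 M) :=
    Integrable.of_integral_ne_zero (by rw [hmean]; exact one_ne_zero)
  have hlint : IntegrableOn l (Ioo 0 M) :=
    ((by fun_prop : Continuous l).integrableOn_Icc).mono_set Ioo_subset_Icc_self
  have hlint' : IntegrableOn (fun y => y * l y) (Ioo 0 M) :=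
    ((by fun_prop : Continuous fun y => y * l y).integrableOn_Icc).mono_set Ioo_subset_Icc_self
  obtain ⟨c, hc⟩ : ∃ c : ℝ, ∀ y ∈ Ioo 0 M, 0 ≤ (y - c) * (f y - l y) := by
    set A := {y ∈ Ioo 0 M | l y ≤ f y} with hA
    by_cases hne : A.Nonempty
    · have hbdd : BddBelow A := ⟨0, fun y hy => hy.1.1.le⟩
      refine ⟨sInf A, fun y hy => ?_⟩
      rcases lt_trichotomy y (sInf A) with h | h | h
      · refine mul_nonneg_of_nonpos_of_nonpos (by linarith) ?_
        by_contra hpos
        exact absurd (csInf_le hbdd (show y ∈ A from ⟨hy, by linarith [not_le.1 hpos]⟩))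
          (not_le.2 h)
      · simp [h]
      · obtain ⟨a, ha, hay⟩ := exists_lt_of_csInf_lt hne h
        exact mul_nonneg (by linarith) (sub_nonneg.2
          (cross_up (by positivity) hs0.le hanti hlc hlow ha.1.1.le hay.le hy.2 ha.2))
    · refine ⟨M, fun y hy => mul_nonneg_of_nonpos_of_nonpos (by linarith [hy.2]) ?_⟩
      by_contra hpos
      exact hne ⟨y, hy, by linarith [not_le.1 hpos]⟩
  have hge : 0 ≤ ∫ y in Ioo 0 M, (y - c) * (f y - l y) :=
    setIntegral_nonneg measurableSet_Ioo hc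
  have heq : ∫ y in Ioo 0 M, (y - c) * (f y - l y) = 1 - (1 / s - M / (g * T)) := by
    have e : (fun y => (y - c) * (f y - l y))
        = fun y => (y * f y - y * l y) - c * (f y - l y) := by funext y; ring
    have i1 : IntegrableOn (fun y => y * f y - y * l y) (Ioo 0 M) := hfint'.sub hlint'
    have i2 : IntegrableOn (fun y => c * (f y - l y)) (Ioo 0 M) := (hfint.sub hlint).const_mul c
    rw [e, integral_sub i1 i2, integral_sub hfint' hlint', integral_const_mul,
      integral_sub hfint hlint, hmass, hmean, hlmass, hlmean]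
    ring
  rw [heq] at hge
  set E : ℝ := g * T with hE
  have hET : T < E := by rw [hE]; exact lt_mul_of_one_lt_left hT hg1
  have hE0 : 0 < E := by linarith
  have hM0 : M * (E - T) ≤ T * E := by
    have e : 1 / s - M / E = M * (E - T) / (T * E) := by rw [hs]; field_simp
    have : M * (E - T) / (T * E) ≤ 1 := by linarith
    rwa [div_le_one (by positivity)] at this
  set N : ℝ := T * E / (E - T) with hN
  have hMN : M ≤ N := by rw [hN, le_div_iff₀ (by linarith)]; exact hM0
  have hNeq : N * (E - T) = T * E := by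
    rw [hN, div_mul_cancel₀ _ (by linarith : E - T ≠ 0)]
  have hmono : M * E * N ≤ T * (3 * N ^ 2 - 8 * N + 6) * M := by
    have hK' : M * E = T * K := by rw [hE, hg]; field_simp
    rw [hK', hK]
    have := mul_nonneg (sub_nonneg.2 hMN) (show 0 ≤ T * (3 * M * N - 6) by
      apply mul_nonneg hT.le; nlinarith)
    nlinarith
  have hmono' : E * N ≤ T * (3 * N ^ 2 - 8 * N + 6) := by
    refine le_of_mul_le_mul_left ?_ (show 0 < M by linarith)
    linarith
  have hphi := phi_pos hT
  rw [show exp T = E + 1 by linarith] at hphi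
  have h6 : E * N * (E - T) ^ 2 ≤ T * (3 * N ^ 2 - 8 * N + 6) * (E - T) ^ 2 :=
    mul_le_mul_of_nonneg_right hmono' (sq_nonneg _)
  have h7 : E * N * (E - T) ^ 2 = E * (T * E) * (E - T) := by rw [← hNeq]; ring
  have h8 : T * (3 * N ^ 2 - 8 * N + 6) * (E - T) ^ 2
      = T * (3 * (T * E) ^ 2 - 8 * (T * E) * (E - T) + 6 * (E - T) ^ 2) := by rw [← hNeq]; ring
  rw [h7, h8] at h6
  have h9 := mul_pos hT hphi
  nlinarith

end Vale.Agent.P254.CT
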