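import Mathlib
import Vale.Agent.P254.CT.Base

/-!
The path of bodies `x k ↦ x k - s * x k ^ m`: for small `s ≥ 0` the image of a convex downset of
the orthant is again the body of a gauge.
-/

noncomputable section

open MeasureTheory Set Function Filter Topology
open scoped BigOperators Pointwise

namespace Vale.Agent.P254.CT

variable {n : ℕ}

/-- The map of one coordinate used in the path. -/
def pathMap (k : Fin n) (m : ℕ) (s : ℝ) (x : Fin n → ℝ) : Fin n → ℝ :=
  update x k (x k - s * x k ^ m)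

/-- A compact convex neighbourhood of `0` closed under shrinking absolute values has a gauge that
is a gauge on the orthant, with body the nonnegative part of the set. -/
lemma isGauge_of_solid {K : Set (Fin n → ℝ)} (hK : IsCompact K) (hconv : Convex ℝ K)
    (h0 : K ∈ 𝓝 (0 : Fin n → ℝ)) (hD : ∀ x ∈ K, ∀ y, (∀ i, |y i| ≤ |x i|) → y ∈ K) :
    IsGauge (gauge K) ∧ body (gauge K) = K ∩ orth n := by
  have habs : Absorbent ℝ K := absorbent_nhds_zero h0
  have hb : Bornology.IsVonNBounded ℝ K := (NormedSpace.isVonNBounded_iff ℝ).2 hK.isBounded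
  have hmem : ∀ x : Fin n → ℝ, gauge K x ≤ 1 ↔ x ∈ K := fun x => by
    rw [gauge_le_one_iff_mem_closure hconv h0, hK.isClosed.closure_eq]
  refine ⟨⟨fun x _ r hr => gauge_smul_of_nonneg hr x, fun x _ y _ => gauge_add_le hconv habs x y,
    fun x hx y hy hxy => ?_, fun i => (gauge_pos habs hb).2 ?_⟩, ?_⟩
  · rcases eq_or_ne y 0 with rfl | hy0
    · rw [le_antisymm hxy hx]
    set t := gauge K y with ht
    have ht0 : 0 < t := (gauge_pos habs hb).2 hy0
    have h1 : t⁻¹ • y ∈ K := (hmem _).1 (by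
      rw [gauge_smul_of_nonneg (inv_nonneg.2 ht0.le), smul_eq_mul, ← ht, inv_mul_cancel₀ ht0.ne'])
    have h2 : t⁻¹ • x ∈ K := hD _ h1 _ fun j => by
      simp only [Pi.smul_apply, smul_eq_mul, abs_mul]
      exact mul_le_mul_of_nonneg_left (by
        rw [abs_of_nonneg (hx j), abs_of_nonneg (hy j)]; exact hxy j) (abs_nonneg _)
    have h := (hmem _).2 h2
    rwa [gauge_smul_of_nonneg (inv_nonneg.2 ht0.le), smul_eq_mul, inv_mul_le_iff₀ ht0, mul_one] at h
  · intro h
    simpa [unit] using congr_fun h i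
  · ext x
    simp only [body, mem_ofPred_eq, mem_inter_iff, hmem]
    exact and_comm

/-- The bound under which the path map is increasing on the body. -/
lemma path_strictMonoOn {s B : ℝ} {m : ℕ} (hs : 0 ≤ s) (hsB : s * (m * B ^ (m - 1)) ≤ 1 / 2) :
    StrictMonoOn (fun y : ℝ => y - s * y ^ m) (Icc 0 B) := by
  intro a ha b hb hab
  have h1 : b ^ m - a ^ m ≤ (b - a) * (m * B ^ (m - 1)) := by
    refine (le_abs_self _).trans ((abs_pow_sub_pow_le b a m).trans ?_)
    rw [abs_of_nonneg (by linarith : 0 ≤ b - a), mul_assoc]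
    refine mul_le_mul_of_nonneg_left (mul_le_mul_of_nonneg_left
      (pow_le_pow_left₀ (le_max_of_le_left (abs_nonneg _)) ?_ _) (Nat.cast_nonneg _)) (by linarith)
    exact max_le (by rw [abs_of_nonneg hb.1]; exact hb.2) (by rw [abs_of_nonneg ha.1]; exact ha.2)
  have h2 := mul_le_mul_of_nonneg_left h1 hs
  have h3 : s * ((b - a) * (m * B ^ (m - 1))) ≤ (b - a) / 2 := by
    rw [show s * ((b - a) * (m * B ^ (m - 1))) = (b - a) * (s * (m * B ^ (m - 1))) by ring]
    calc (b - a) * (s * (m * B ^ (m - 1))) ≤ (b - a) * (1 / 2) :=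
          mul_le_mul_of_nonneg_left hsB (by linarith)
      _ = (b - a) / 2 := by ring
  show a - s * a ^ m < b - s * b ^ m
  nlinarith

/-- For small `s ≥ 0` the image of the body under the path map is the body of a gauge; moreover
the coordinate map is strictly increasing on the range of `x k` over the body. -/
theorem pathGauge {G : (Fin n → ℝ) → ℝ} (hG : IsGauge G) (k : Fin n) {m : ℕ} (hm : 2 ≤ m) :
    ∃ s₀ : ℝ, 0 < s₀ ∧ ∀ s ∈ Icc 0 s₀,
      (∃ G' : (Fin n → ℝ) → ℝ, IsGauge G' ∧ body G' = pathMap k m s '' body G) ∧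
      (∀ x ∈ body G, x k ∈ Icc 0 (G (unit k))⁻¹) ∧
      StrictMonoOn (fun y : ℝ => y - s * y ^ m) (Icc 0 (G (unit k))⁻¹) := by
  set B : ℝ := (G (unit k))⁻¹ with hBdef
  have hB : 0 < B := inv_pos.2 (hG.unit_pos k)
  have hm0 : (0 : ℝ) < m := by exact_mod_cast (show 0 < m by omega)
  have hxk : ∀ x ∈ body G, x k ∈ Icc 0 B := fun x hx => ⟨hx.1 k, by
    rw [hBdef, inv_eq_one_div, le_div_iff₀ (hG.unit_pos k)]; exact (hG.coord_le hx.1 k).trans hx.2⟩
  refine ⟨1 / (2 * (m * B ^ (m - 1))), by positivity, fun s hs => ?_⟩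
  have hsB : s * (m * B ^ (m - 1)) ≤ 1 / 2 := by
    have h := mul_le_mul_of_nonneg_right hs.2 (show (0 : ℝ) ≤ m * B ^ (m - 1) by positivity)
    refine h.trans (le_of_eq ?_)
    field_simp
  have hmono := path_strictMonoOn hs.1 hsB
  refine ⟨?_, hxk, hmono⟩
  set f : ℝ → ℝ := fun y => y - s * y ^ m with hf
  have hf0 : f 0 = 0 := by simp [hf, show m ≠ 0 by omega]
  have hfle : ∀ y : ℝ, 0 ≤ y → f y ≤ y := fun y hy => by
    have := mul_nonneg hs.1 (pow_nonneg hy m); simp only [hf]; linarith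
  have hfnn : ∀ y ∈ Icc 0 B, 0 ≤ f y := fun y hy => by
    rw [← hf0]; exact hmono.monotoneOn ⟨le_rfl, hB.le⟩ hy hy.1
  have hpm : ∀ (x : Fin n → ℝ) (i : Fin n), pathMap k m s x i = if i = k then f (x k) else x i :=
    fun x i => by
      by_cases hi : i = k
      · subst hi; simp [pathMap, hf]
      · simp [pathMap, hi]
  have hcont : Continuous (pathMap k m s) := by
    refine continuous_pi fun i => ?_
    simp only [hpm]
    by_cases hi : i = k <;> simp only [hi, if_true, if_false, hf] <;> fun_prop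
  have horth : ∀ x ∈ body G, pathMap k m s x ∈ orth n := fun x hx i => by
    rw [hpm]; split_ifs
    · exact hfnn _ (hxk x hx)
    · exact hx.1 i
  -- the image is closed downwards in the orthant
  have hdown : ∀ u ∈ pathMap k m s '' body G, ∀ w ∈ orth n, w ≤ u → w ∈ pathMap k m s '' body G := by
    rintro u ⟨x, hx, rfl⟩ w hw hwu
    have hwk : w k ∈ Icc (f 0) (f (x k)) := ⟨by rw [hf0]; exact hw k, by simpa [hpm] using hwu k⟩
    obtain ⟨z, hz, hzw⟩ := intermediate_value_Icc (hxk x hx).1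
      (show ContinuousOn f (Icc 0 (x k)) by rw [hf]; fun_prop) hwk
    refine ⟨update w k z, ⟨update_mem_orth hw k hz.1, ?_⟩, ?_⟩
    · refine (hG.mono _ (update_mem_orth hw k hz.1) x hx.1 fun i => ?_).trans hx.2
      by_cases hi : i = k
      · subst hi; simpa using hz.2
      · simpa [hi, hpm] using hwu i
    · funext i
      rw [hpm]
      by_cases hi : i = k
      · subst hi; simpa using hzw
      · simp [hi]
  set K : Set (Fin n → ℝ) := {x | (fun i => |x i|) ∈ pathMap k m s '' body G} with hKdef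
  have hD : ∀ x ∈ K, ∀ y, (∀ i, |y i| ≤ |x i|) → y ∈ K := fun x hx y hy =>
    hdown _ hx _ (fun i => abs_nonneg _) hy
  have hKc : IsCompact K := by
    refine Metric.isCompact_of_isClosed_isBounded
      (((hG.isCompact_body.image hcont).isClosed).preimage (continuous_pi fun i =>
        (continuous_apply i).abs)) ?_
    obtain ⟨R, hR⟩ := hG.isCompact_body.isBounded.subset_closedBall 0
    refine (Metric.isBounded_closedBall (x := (0 : Fin n → ℝ)) (r := max R 0)).subset fun x hx => ?_
    obtain ⟨y, hy, hyx⟩ := hx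
    rw [Metric.mem_closedBall, dist_zero_right, pi_norm_le_iff_of_nonneg (le_max_right _ _)]
    intro i
    have h1 : |x i| ≤ y i := by
      rw [← congr_fun hyx i, hpm]
      split_ifs with hi
      · subst hi; exact hfle _ (hy.1 _)
      · exact le_rfl
    have h2 := (norm_le_pi_norm y i).trans (by simpa using hR hy)
    rw [Real.norm_eq_abs, abs_of_nonneg (hy.1 i)] at h2
    exact (h1.trans h2).trans (le_max_left _ _)
  have hKconv : Convex ℝ K := by
    intro x hx x' hx' a b ha hb hab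
    obtain ⟨y, hy, hyx⟩ := hx
    obtain ⟨y', hy', hyx'⟩ := hx'
    have hyb : a • y + b • y' ∈ body G := by
      refine ⟨add_mem_orth (smul_mem_orth hy.1 ha) (smul_mem_orth hy'.1 hb), ?_⟩
      refine (hG.sub _ (smul_mem_orth hy.1 ha) _ (smul_mem_orth hy'.1 hb)).trans ?_
      rw [hG.hom _ hy.1 a ha, hG.hom _ hy'.1 b hb]
      calc a * G y + b * G y' ≤ a * 1 + b * 1 := add_le_add
            (mul_le_mul_of_nonneg_left hy.2 ha) (mul_le_mul_of_nonneg_left hy'.2 hb)
        _ = 1 := by rw [mul_one, mul_one, hab]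
    refine hdown _ ⟨_, hyb, rfl⟩ _ (fun i => abs_nonneg _) fun i => ?_
    have h1 : |(a • x + b • x') i| ≤ a * |x i| + b * |x' i| := by
      simp only [Pi.add_apply, Pi.smul_apply, smul_eq_mul]
      refine (abs_add_le _ _).trans ?_
      rw [abs_mul, abs_mul, abs_of_nonneg ha, abs_of_nonneg hb]
    refine h1.trans ?_
    have e1 : |x i| = pathMap k m s y i := (congr_fun hyx i).symm
    have e2 : |x' i| = pathMap k m s y' i := (congr_fun hyx' i).symm
    rw [e1, e2, hpm, hpm, hpm]
    split_ifs with hi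
    · have h := (convexOn_pow m).2 (mem_Ici.2 (hy.1 k)) (mem_Ici.2 (hy'.1 k)) ha hb hab
      have h' := mul_le_mul_of_nonneg_left h hs.1
      simp only [hf, Pi.add_apply, Pi.smul_apply, smul_eq_mul] at h' ⊢
      linarith
    · simp
  have hK0 : K ∈ 𝓝 (0 : Fin n → ℝ) := by
    set ε : ℝ := (1 + ∑ i, G (unit i))⁻¹ with hεdef
    have hsum : 0 ≤ ∑ i, G (unit i) := Finset.sum_nonneg fun i _ => (hG.unit_pos i).le
    have hε : 0 < ε := inv_pos.2 (by linarith)
    have hbox : (fun _ : Fin n => ε) ∈ body G := by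
      refine ⟨fun _ => hε.le, (hG.le_sum fun _ => hε.le).trans ?_⟩
      rw [← Finset.mul_sum, hεdef, inv_mul_le_iff₀ (by linarith)]
      linarith
    have hfe : 0 < f ε := by
      rw [← hf0]; exact hmono ⟨le_rfl, hB.le⟩ (hxk _ hbox) hε
    refine mem_of_superset (Metric.closedBall_mem_nhds 0 hfe) fun x hx => ?_
    rw [Metric.mem_closedBall, dist_zero_right, pi_norm_le_iff_of_nonneg hfe.le] at hx
    refine hdown _ ⟨_, hbox, rfl⟩ _ (fun i => abs_nonneg _) fun i => ?_
    rw [hpm]
    have h := hx i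
    rw [Real.norm_eq_abs] at h
    split_ifs
    · exact h
    · exact h.trans (hfle ε hε.le)
  obtain ⟨hg, hbody⟩ := isGauge_of_solid hKc hKconv hK0 hD
  refine ⟨gauge K, hg, hbody.trans (Set.ext fun x => ⟨fun hx => ?_, fun hx => ?_⟩)⟩
  · have e : (fun i => |x i|) = x := funext fun i => abs_of_nonneg (hx.2 i)
    have h := hx.1
    rwa [hKdef, mem_ofPred_eq, e] at h
  · obtain ⟨y, hy, rfl⟩ := hx
    refine ⟨?_, horth y hy⟩
    rw [hKdef, mem_ofPred_eq]
    exact ⟨y, hy, funext fun i => (abs_of_nonneg (horth y hy i)).symm⟩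

end Vale.Agent.P254.CT
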