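import Mathlib
import Vale.Agent.P254.CT.Base
import Vale.Agent.P254.CT.Var
import Vale.Agent.P254.CT.PathBody

/-!
The second variation along the path that moves coordinate `k` to `x k - s * x k ^ m`.
-/

noncomputable section

open MeasureTheory Set Filter Topology Function
open scoped BigOperators

namespace Vale.Agent.P254.CT

variable {n : ℕ}

/-- The geometric input: small perturbations of the body are bodies of gauges. -/
def PathStep : Prop := ∀ (n : ℕ) (G : (Fin n → ℝ) → ℝ) (k : Fin n) (m : ℕ), IsGauge G → 2 ≤ m →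
  ∃ s₀ : ℝ, 0 < s₀ ∧ ∀ s ∈ Icc 0 s₀, ∃ G' : (Fin n → ℝ) → ℝ, IsGauge G' ∧
    body G' = (fun x => update x k (x k - s * x k ^ m)) '' body G

/-- Second-order expansion of the logarithm. -/
lemma tendsto_log_expand (a b : ℝ) :
    Tendsto (fun s : ℝ => (Real.log (1 - (a * s + b * s ^ 2)) + a * s) / s ^ 2) (𝓝[>] 0)
      (𝓝 (-(b + a ^ 2 / 2))) := by
  have hz : Tendsto (fun s : ℝ => |a * s + b * s ^ 2|) (𝓝 0) (𝓝 0) := by
    simpa using ((by fun_prop : Continuous fun s : ℝ => |a * s + b * s ^ 2|).tendsto 0)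
  have hb : Tendsto (fun s : ℝ => |s| * |a + b * s| ^ 3 * 2) (𝓝[>] 0) (𝓝 0) :=
    tendsto_nhdsWithin_of_tendsto_nhds (by
      simpa using ((by fun_prop : Continuous fun s : ℝ => |s| * |a + b * s| ^ 3 * 2).tendsto 0))
  have h1 : Tendsto (fun s : ℝ => (a * s + b * s ^ 2 + (a * s + b * s ^ 2) ^ 2 / 2
      + Real.log (1 - (a * s + b * s ^ 2))) / s ^ 2) (𝓝[>] 0) (𝓝 0) := by
    refine squeeze_zero_norm' ?_ hb
    filter_upwards [self_mem_nhdsWithin, nhdsWithin_le_nhds
      (hz.eventually_lt_const (by norm_num : (0 : ℝ) < 1 / 2))] with s hs hsmall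
    have h := Real.abs_log_sub_add_sum_range_le (x := a * s + b * s ^ 2) (by linarith) 2
    simp only [Finset.sum_range_succ, Finset.sum_range_zero] at h
    norm_num at h
    rw [Real.norm_eq_abs, abs_div, abs_of_pos (pow_pos (mem_Ioi.1 hs) 2),
      div_le_iff₀ (pow_pos (mem_Ioi.1 hs) 2)]
    refine h.trans ?_
    rw [div_le_iff₀ (by linarith)]
    have e : |a * s + b * s ^ 2| ^ 3 = |s| * |a + b * s| ^ 3 * s ^ 2 := by
      rw [show a * s + b * s ^ 2 = s * (a + b * s) by ring, abs_mul, mul_pow,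
        show |s| ^ 3 = |s| * |s| ^ 2 by ring, sq_abs]
      ring
    rw [e]
    have hnn : 0 ≤ |s| * |a + b * s| ^ 3 * s ^ 2 := by positivity
    nlinarith
  have h2 : Tendsto (fun s : ℝ => -b - (a + b * s) ^ 2 / 2) (𝓝[>] 0) (𝓝 (-(b + a ^ 2 / 2))) :=
    tendsto_nhdsWithin_of_tendsto_nhds (by
      have := (by fun_prop : Continuous fun s : ℝ => -b - (a + b * s) ^ 2 / 2).tendsto 0
      convert this using 2; ring)
  have h3 := h1.add h2
  rw [zero_add] at h3
  refine h3.congr' ?_
  filter_upwards [self_mem_nhdsWithin] with s hs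
  have hs' : s ≠ 0 := ne_of_gt (mem_Ioi.1 hs)
  field_simp
  ring

/-- Integrals over the perturbed body. -/
lemma setIntegral_path {G : (Fin n → ℝ) → ℝ} (hG : IsGauge G) (k : Fin n) {m : ℕ} {s B : ℝ}
    (hB : ∀ x ∈ body G, x k ≤ B) (hm : 1 ≤ m) (hs : 0 ≤ s) (hsB : s * (m * B ^ (m - 1)) < 1)
    (g : (Fin n → ℝ) → ℝ) :
    ∫ y in (fun x => update x k (x k - s * x k ^ m)) '' body G, g y
      = ∫ x in body G, (1 - s * (m * x k ^ (m - 1))) * g (update x k (x k - s * x k ^ m)) := by
  have hd : ∀ y : ℝ, HasDerivAt (fun y => y - s * y ^ m) (1 - s * (m * y ^ (m - 1))) y := fun y =>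
    (hasDerivAt_id y).sub ((hasDerivAt_pow m y).const_mul s)
  have hpos : ∀ y ∈ Icc 0 B, 0 < 1 - s * (m * y ^ (m - 1)) := fun y hy => by
    have := mul_le_mul_of_nonneg_left (mul_le_mul_of_nonneg_left
      (pow_le_pow_left₀ hy.1 hy.2 (m - 1)) (Nat.cast_nonneg m : (0 : ℝ) ≤ m)) hs
    linarith
  have hinj : InjOn (fun x => update x k (x k - s * x k ^ m)) (body G) := fun x hx y hy h => by
    have hk : x k = y k := by
      refine (strictMonoOn_of_hasDerivWithinAt_pos (convex_Icc 0 B)
        (fun z _ => (hd z).continuousAt.continuousWithinAt)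
        (fun z _ => (hd z).hasDerivWithinAt) fun z hz => hpos z (interior_subset hz)).injOn
        ⟨hx.1 k, hB x hx⟩ ⟨hy.1 k, hB y hy⟩ ?_
      simpa using congrFun h k
    funext i
    by_cases hi : i = k
    · subst hi; exact hk
    · simpa [hi] using congrFun h i
  rw [integral_image_eq_integral_abs_det_fderiv_smul (μ := (volume : Measure (Fin n → ℝ)))
    hG.measurableSet_body (f' := fun x => ContinuousLinearMap.pi fun i =>
      update (fun _ => (1 : ℝ)) k (1 - s * (m * x k ^ (m - 1))) i
        • ContinuousLinearMap.proj (R := ℝ) (φ := fun _ : Fin n => ℝ) i) (fun x _ =>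
      (hasFDerivAt_pi.2 fun i => by
        by_cases hi : i = k
        · subst hi
          simp only [update_self]
          exact (hd (x i)).comp_hasFDerivAt x
            (hasFDerivAt_apply (𝕜 := ℝ) (F' := fun _ : Fin n => ℝ) i x)
        · simpa [hi] using hasFDerivAt_apply (𝕜 := ℝ) (F' := fun _ : Fin n => ℝ) i x
        ).hasFDerivWithinAt) hinj g]
  refine setIntegral_congr_fun hG.measurableSet_body fun x hx => ?_
  simp only [pi_proj_det, smul_eq_mul, Finset.prod_update_of_mem (Finset.mem_univ k),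
    Finset.prod_const_one, mul_one]
  rw [abs_of_pos (hpos _ ⟨hx.1 k, hB x hx⟩)]

lemma log_sub_eq {V x : ℝ} (hV : 0 < V) (hx : 0 < V - x) :
    Real.log (V - x) = Real.log V + Real.log (1 - x / V) := by
  rw [← Real.log_mul hV.ne' (by rw [one_sub_div hV.ne']; exact (div_pos hx hV).ne'), mul_sub,
    mul_one, mul_div_cancel₀ _ hV.ne']

/-- The second variation is nonnegative at a critical direction. -/
theorem secondOrder_of (hpath : PathStep) : SecondOrder := by
  intro n G k m hmin hm hslope
  obtain ⟨hG, hle⟩ := hmin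
  obtain ⟨s₀, hs₀, hbody⟩ := hpath n G k m hG hm
  have hint : ∀ f : (Fin n → ℝ) → ℝ, Continuous f → IntegrableOn f (body G) := fun f hf =>
    hf.continuousOn.integrableOn_compact hG.isCompact_body
  obtain ⟨B₀, hB₀⟩ := hG.isCompact_body.isBounded.subset_closedBall 0
  have hB : ∀ x ∈ body G, x k ≤ max B₀ 0 := fun x hx => by
    have := (norm_le_pi_norm x k).trans (by simpa using hB₀ hx)
    exact (le_abs_self _).trans (this.trans (le_max_left _ _))
  set V := vol G
  set A := ∫ x in body G, (m : ℝ) * x k ^ (m - 1) with hA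
  set Bi : Fin n → ℝ := fun i => ∫ x in body G, (m : ℝ) * x k ^ (m - 1) * x i with hBi
  set I := ∫ x in body G, x k ^ m with hI
  set J := ∫ x in body G, x k ^ (2 * m - 1) with hJ
  set Mk := mom G k with hMk
  have hV : 0 < V := hG.vol_pos
  have hM : ∀ i, 0 < mom G i := hG.mom_pos
  have hpow : ∀ y : ℝ, y ^ (m - 1) * y = y ^ m := fun y => by
    rw [← pow_succ, Nat.sub_add_cancel (by omega : 1 ≤ m)]
  have hBk : Bi k = m * I := by
    rw [hBi, hI, ← integral_const_mul]
    exact integral_congr_ae (Eventually.of_forall fun x => by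
      show (m : ℝ) * x k ^ (m - 1) * x k = _
      rw [mul_assoc, hpow])
  set a0 := A / V with ha0
  set bi : Fin n → ℝ := fun i => Bi i / mom G i with hbi
  set c := ((m : ℝ) + 1) * I / Mk with hc
  set d := -((m : ℝ) * J / Mk) with hd
  have hsl : ∑ i ∈ Finset.univ.erase k, bi i + c - ((n : ℝ) + 1) * a0 = 0 := by
    rw [← hslope, slope, ← Finset.add_sum_erase _ _ (Finset.mem_univ k)]
    have e : Bi k / mom G k + I / mom G k = c := by rw [hBk, hc, hMk]; ring
    simp only [hBi] at e
    simp only [hbi, hBi, ha0, hA]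
    rw [← e]
    ring
  have hlim := ((tendsto_log_expand a0 0).const_mul ((n : ℝ) + 1)).sub
    ((tendsto_finsetSum (Finset.univ.erase k) fun i _ => tendsto_log_expand (bi i) 0).add
      (tendsto_log_expand c d))
  have hval : ((n : ℝ) + 1) * -(0 + a0 ^ 2 / 2) - (∑ i ∈ Finset.univ.erase k, -(0 + bi i ^ 2 / 2)
      + -(d + c ^ 2 / 2)) = curv G k m / 2 := by
    simp only [zero_add, Finset.sum_neg_distrib, ← Finset.sum_div, curv, hbi, hBi, ha0, hc, hd, hA,
      hI, hJ, hMk]
    ring
  rw [hval] at hlim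
  suffices h : 0 ≤ curv G k m / 2 by linarith
  refine ge_of_tendsto hlim ?_
  have small : ∀ f : ℝ → ℝ, Continuous f → 0 < f 0 → ∀ᶠ s in 𝓝[>] (0 : ℝ), 0 < f s :=
    fun f hf h0 => nhdsWithin_le_nhds ((hf.tendsto 0).eventually_const_lt h0)
  have hM' : ∀ᶠ s in 𝓝[>] (0 : ℝ), ∀ i, 0 < mom G i - s * Bi i :=
    eventually_all.2 fun i => small _ (by fun_prop) (by simpa using hM i)
  filter_upwards [self_mem_nhdsWithin, Ioo_mem_nhdsGT hs₀,
    small (fun s => 1 - s * (m * max B₀ 0 ^ (m - 1))) (by fun_prop) (by simp),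
    small (fun s => V - s * A) (by fun_prop) (by simpa using hV), hM',
    small (fun s => Mk - (s * ((m + 1) * I) - s ^ 2 * (m * J))) (by fun_prop)
      (by simpa using hM k)] with s hs hs1 hsB hVs hMs hMks
  obtain ⟨G', hG', hbd⟩ := hbody s ⟨(mem_Ioi.1 hs).le, hs1.2.le⟩
  have key := setIntegral_path hG k hB (by omega : 1 ≤ m) (mem_Ioi.1 hs).le (by linarith : s * _ < 1)
  have evol : vol G' = V - s * A := by
    have e := key fun _ => 1
    rw [setIntegral_const, smul_eq_mul, mul_one, Measure.real, ← hbd, ← vol] at e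
    simp only [mul_one] at e
    rw [e, integral_sub (hint _ continuous_const) (hint _ (by fun_prop)), setIntegral_const,
      smul_eq_mul, mul_one, Measure.real, ← vol, integral_const_mul]
  have emom : ∀ i, i ≠ k → mom G' i = mom G i - s * Bi i := by
    intro i hi
    have e := key fun y => y i
    rw [← hbd, ← mom] at e
    rw [e, hBi, ← integral_const_mul, mom, ← integral_sub (hint _ (by fun_prop))
      (hint _ (by fun_prop))]
    exact integral_congr_ae (Eventually.of_forall fun x => by simp [hi]; ring)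
  have emk : mom G' k = Mk - (s * ((m + 1) * I) - s ^ 2 * (m * J)) := by
    have e := key fun y => y k
    rw [← hbd, ← mom] at e
    have hJ2 : ∀ y : ℝ, y ^ (m - 1) * y ^ m = y ^ (2 * m - 1) := fun y => by
      rw [← pow_add]; congr 1; omega
    rw [e, hMk, hI, hJ, mom, ← integral_const_mul, ← integral_const_mul, ← integral_const_mul,
      ← integral_const_mul, ← integral_sub (hint _ (by fun_prop)) (hint _ (by fun_prop)),
      ← integral_sub (hint _ (by fun_prop)) (hint _ (by fun_prop))]
    exact integral_congr_ae (Eventually.of_forall fun x => by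
      simp only [update_self]
      linear_combination (-s * (m : ℝ)) * hpow (x k) + s ^ 2 * (m : ℝ) * hJ2 (x k))
  have es : ∑ i ∈ Finset.univ.erase k, Real.log (mom G' i) = ∑ i ∈ Finset.univ.erase k,
      Real.log (mom G i) + ∑ i ∈ Finset.univ.erase k, Real.log (1 - s * Bi i / mom G i) := by
    rw [← Finset.sum_add_distrib]
    exact Finset.sum_congr rfl fun i hi => by
      rw [emom i (Finset.ne_of_mem_erase hi), log_sub_eq (hM i) (hMs i)]
  have hF := hle G' hG'
  rw [hG.fn_eq, hG'.fn_eq, ← Finset.add_sum_erase _ _ (Finset.mem_univ k),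
    ← Finset.add_sum_erase _ (fun i => Real.log (mom G' i)) (Finset.mem_univ k), evol, emk,
    es, log_sub_eq hV hVs, log_sub_eq (hM k) hMks] at hF
  simp only [← hMk] at hF
  rw [mul_div_assoc', ← Finset.sum_div, ← add_div, ← sub_div]
  refine div_nonneg ?_ (sq_nonneg s)
  rw [Finset.sum_add_distrib, ← Finset.sum_mul]
  have e1 : s * A / V = a0 * s + 0 * s ^ 2 := by rw [ha0]; ring
  have e2 : ∀ i, s * Bi i / mom G i = bi i * s + 0 * s ^ 2 := fun i => by rw [hbi]; ring
  have e3 : (s * ((m + 1) * I) - s ^ 2 * (m * J)) / Mk = c * s + d * s ^ 2 := by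
    rw [hc, hd]; ring
  simp only [e1, e2, e3] at hF
  nlinarith [congrArg (fun z => z * s) hsl]

/-- The second variation, in the pinned form. -/
theorem secondOrder : SecondOrder := secondOrder_of fun _ G k m hG hm => by
  obtain ⟨s₀, hs₀, h⟩ := pathGauge hG k hm
  exact ⟨s₀, hs₀, fun s hs => (h s hs).1⟩

end Vale.Agent.P254.CT
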