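import Mathlib
import Vale.Agent.P254.CT.Base

/-!
First-order condition at a minimiser, and the orthogonality of `wsum G - G` to all functions that
are constant on segments (from the first-order condition and the averaging step).
-/

noncomputable section

open MeasureTheory Set Function Filter Topology
open scoped BigOperators Nat

namespace Vale.Agent.P254.CT

variable {n : ℕ}

/-- Linear growth with respect to `G`, and measurable on the orthant. -/
def LinGrowth (G a : (Fin n → ℝ) → ℝ) : Prop :=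
  AEStronglyMeasurable a (volume.restrict (orth n)) ∧
    ∃ A : ℝ, 0 ≤ A ∧ ∀ x ∈ orth n, |a x| ≤ A * G x

lemma IsSub.linGrowth {G Ψ : (Fin n → ℝ) → ℝ} (h : IsSub Ψ) (hG : IsGauge G) : LinGrowth G Ψ :=
  ⟨h.aestronglyMeasurable, h.abs_le hG⟩

lemma IsSegConst.linGrowth {G v : (Fin n → ℝ) → ℝ} (h : IsSegConst G v) (hG : IsGauge G) :
    LinGrowth G v := by
  obtain ⟨B, hB⟩ := h.bound
  exact ⟨h.meas.aestronglyMeasurable, |B|, abs_nonneg _, fun x hx =>
    (hB x hx).trans (mul_le_mul_of_nonneg_right (le_abs_self B) (hG.nonneg hx))⟩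

lemma LinGrowth.add {G a b : (Fin n → ℝ) → ℝ} (ha : LinGrowth G a) (hb : LinGrowth G b) :
    LinGrowth G fun x => a x + b x := by
  obtain ⟨A, hA0, hA⟩ := ha.2
  obtain ⟨B, hB0, hB⟩ := hb.2
  exact ⟨ha.1.add hb.1, A + B, by positivity, fun x hx => by
    rw [add_mul]; exact (abs_add_le _ _).trans (add_le_add (hA x hx) (hB x hx))⟩

lemma LinGrowth.const_mul {G a : (Fin n → ℝ) → ℝ} (ha : LinGrowth G a) (c : ℝ) :
    LinGrowth G fun x => c * a x := by
  obtain ⟨A, hA0, hA⟩ := ha.2
  exact ⟨ha.1.const_mul c, |c| * A, by positivity, fun x hx => by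
    rw [abs_mul, mul_assoc]; exact mul_le_mul_of_nonneg_left (hA x hx) (abs_nonneg c)⟩

lemma LinGrowth.sub {G a b : (Fin n → ℝ) → ℝ} (ha : LinGrowth G a) (hb : LinGrowth G b) :
    LinGrowth G fun x => a x - b x := by
  simpa [sub_eq_add_neg] using ha.add (hb.const_mul (-1))

lemma IsGauge.linGrowth_self {G : (Fin n → ℝ) → ℝ} (hG : IsGauge G) : LinGrowth G G :=
  hG.isSub.linGrowth hG

lemma LinGrowth.integrable {G a b : (Fin n → ℝ) → ℝ} (hG : IsGauge G) (ha : LinGrowth G a)
    (hb : LinGrowth G b) : IntegrableOn (fun x => a x * b x * Real.exp (-G x)) (orth n) := by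
  obtain ⟨A, _, hA⟩ := ha.2
  obtain ⟨B, _, hB⟩ := hb.2
  exact hG.integrable_pair ha.1 hb.1 hA hB

lemma ip_comm (G a b : (Fin n → ℝ) → ℝ) : ip G a b = ip G b a := by
  simp only [ip, expInt, mul_comm (a _) (b _)]

lemma ip_combo_left {G a b c : (Fin n → ℝ) → ℝ} (hG : IsGauge G) (ha : LinGrowth G a)
    (hb : LinGrowth G b) (hc : LinGrowth G c) (p q : ℝ) :
    ip G (fun x => p * a x + q * b x) c = p * ip G a c + q * ip G b c := by
  simp only [ip, expInt]
  rw [← integral_const_mul, ← integral_const_mul,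
    ← integral_add ((ha.integrable hG hc).const_mul p) ((hb.integrable hG hc).const_mul q)]
  exact integral_congr_ae (Eventually.of_forall fun x => by ring)

lemma ip_sub_right {G a b c : (Fin n → ℝ) → ℝ} (hG : IsGauge G) (ha : LinGrowth G a)
    (hb : LinGrowth G b) (hc : LinGrowth G c) :
    ip G a (fun x => b x - c x) = ip G a b - ip G a c := by
  simp only [ip, expInt]
  rw [← integral_sub (ha.integrable hG hb) (ha.integrable hG hc)]
  exact integral_congr_ae (Eventually.of_forall fun x => by ring)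

lemma ip_self_nonneg (G a : (Fin n → ℝ) → ℝ) : 0 ≤ ip G a a :=
  integral_nonneg fun x => mul_nonneg (mul_self_nonneg _) (Real.exp_pos _).le

lemma two_abs_ip_le {G a b : (Fin n → ℝ) → ℝ} (hG : IsGauge G) (ha : LinGrowth G a)
    (hb : LinGrowth G b) {s : ℝ} (hs : 0 < s) :
    2 * |ip G a b| ≤ ip G a a / s + s * ip G b b := by
  have key : ∀ t : ℝ, t * t = 1 → 2 * (t * ip G a b) ≤ ip G a a / s + s * ip G b b := by
    intro t ht
    have hc : LinGrowth G fun x => 1 * a x + (-(t * s)) * b x :=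
      (ha.const_mul 1).add (hb.const_mul _)
    have h0 := ip_self_nonneg G fun x => 1 * a x + (-(t * s)) * b x
    rw [ip_combo_left hG ha hb hc, ip_comm G a, ip_comm G b, ip_combo_left hG ha hb ha,
      ip_combo_left hG ha hb hb, ip_comm G b a] at h0
    refine le_of_mul_le_mul_right ?_ hs
    rw [add_mul, div_mul_cancel₀ _ hs.ne']
    have e : t * s * (t * s) * ip G b b = s * ip G b b * s := by
      rw [show t * s * (t * s) = t * t * (s * s) by ring, ht]; ring
    linarith
  rcases abs_cases (ip G a b) with h | h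
  · rw [h.1]; simpa using key 1 (by norm_num)
  · rw [h.1]; simpa using key (-1) (by norm_num)

lemma aestronglyMeasurable_exp_neg {G : (Fin n → ℝ) → ℝ} (hG : IsGauge G) :
    AEStronglyMeasurable (fun x => Real.exp (-G x)) (volume.restrict (orth n)) :=
  (Real.continuous_exp.comp_continuousOn hG.continuousOn.neg).aestronglyMeasurable
    measurableSet_orth

/-- Derivative of the weighted integral when the weight moves in the direction `Ψ`. -/
lemma hasDerivAt_expInt {G Ψ f : (Fin n → ℝ) → ℝ} (hG : IsGauge G) (hΨ : IsSub Ψ)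
    (hf : AEStronglyMeasurable f (volume.restrict (orth n))) {B : ℝ} {p : ℕ}
    (hb : ∀ x ∈ orth n, |f x| ≤ B * (1 + G x) ^ p) :
    HasDerivAt (fun ε : ℝ => expInt (fun x => G x + ε * Ψ x) f)
      (-expInt G fun x => f x * Ψ x) 0 := by
  obtain ⟨K, hK0, hK⟩ := hΨ.abs_le hG
  have hG2 : IsGauge fun x => G x / 2 := by
    refine ⟨fun x hx r hr => ?_, fun x hx y hy => ?_, fun x hx y hy h => ?_, fun i => ?_⟩
    · rw [hG.hom x hx r hr]; ring
    · linarith [hG.sub x hx y hy]
    · linarith [hG.mono x hx y hy h]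
    · linarith [hG.unit_pos i]
  have hmeas : ∀ ε : ℝ, AEStronglyMeasurable (fun x => Real.exp (-(G x + ε * Ψ x)))
      (volume.restrict (orth n)) := fun ε =>
    (Real.continuous_exp.comp_continuousOn
      (hG.continuousOn.add (hΨ.continuousOn.const_smul ε)).neg).aestronglyMeasurable
        measurableSet_orth
  have hbound : IntegrableOn
      (fun x => (|f x| * |Ψ x|) * Real.exp (-(G x / 2))) (orth n) := by
    refine hG2.integrableOn_exp_mul (B := |B| * K * 2 ^ (p + 1)) (p := p + 1)
      ((hf.norm.mul hΨ.aestronglyMeasurable.norm)) fun x hx => ?_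
    have hg := hG.nonneg hx
    calc abs (|f x| * |Ψ x|) = |f x| * |Ψ x| := abs_of_nonneg (by positivity)
      _ ≤ (|B| * (1 + G x) ^ p) * (K * (1 + G x)) := by
          refine mul_le_mul ((hb x hx).trans (mul_le_mul_of_nonneg_right (le_abs_self B)
            (by positivity))) ((hK x hx).trans (mul_le_mul_of_nonneg_left (by linarith) hK0))
            (abs_nonneg _) (by positivity)
      _ = |B| * K * (1 + G x) ^ (p + 1) := by ring
      _ ≤ |B| * K * (2 * (1 + G x / 2)) ^ (p + 1) := by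
          refine mul_le_mul_of_nonneg_left (pow_le_pow_left₀ (by positivity) (by linarith) _)
            (by positivity)
      _ = |B| * K * 2 ^ (p + 1) * (1 + G x / 2) ^ (p + 1) := by rw [mul_pow]; ring
  have hδ : (0 : ℝ) < 1 / (2 * (K + 1)) := by positivity
  have key := (hasDerivAt_integral_of_dominated_loc_of_deriv_le (μ := volume.restrict (orth n))
    (F := fun ε x => f x * Real.exp (-(G x + ε * Ψ x)))
    (F' := fun ε x => -(f x * Ψ x * Real.exp (-(G x + ε * Ψ x))))
    (x₀ := (0 : ℝ)) (bound := fun x => (|f x| * |Ψ x|) * Real.exp (-(G x / 2)))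
    (Metric.ball_mem_nhds (0 : ℝ) hδ) (Eventually.of_forall fun ε => hf.mul (hmeas ε))
    ?_ ?_ ?_ hbound ?_).2
  · have e : (∫ x in orth n, -(f x * Ψ x * Real.exp (-(G x + 0 * Ψ x))))
        = -expInt G fun x => f x * Ψ x := by simp [expInt, integral_neg]
    rw [e] at key
    exact key
  · have h0 := hG.integrableOn_exp_mul hf hb
    simpa [IntegrableOn] using h0
  · exact ((hf.mul hΨ.aestronglyMeasurable).mul (hmeas 0)).neg
  · filter_upwards [ae_restrict_mem measurableSet_orth] with x hx ε hε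
    rw [Metric.mem_ball, dist_zero_right, Real.norm_eq_abs] at hε
    rw [Real.norm_eq_abs, abs_neg, abs_mul, abs_mul, abs_of_pos (Real.exp_pos _)]
    refine mul_le_mul_of_nonneg_left (Real.exp_le_exp.2 ?_) (by positivity)
    have hg := hG.nonneg hx
    have h1 : |ε * Ψ x| ≤ 1 / (2 * (K + 1)) * (K * G x) := by
      rw [abs_mul]
      exact mul_le_mul hε.le (hK x hx) (abs_nonneg _) hδ.le
    have h2 : 1 / (2 * (K + 1)) * (K * G x) ≤ G x / 2 := by
      rw [div_mul_eq_mul_div, one_mul, div_le_div_iff₀ (by positivity) (by norm_num)]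
      nlinarith [mul_nonneg hK0 hg]
    linarith [(abs_le.1 h1).1]
  · refine Eventually.of_forall fun x ε _ => ?_
    have h1 := ((((hasDerivAt_id ε).mul_const (Ψ x)).const_add (G x)).neg).exp.const_mul (f x)
    refine h1.congr_deriv ?_
    simp only [id_eq, one_mul, Pi.neg_apply]
    ring

/-- A measurable version of a function continuous on the orthant. -/
lemma measurable_indicator_orth {f : (Fin n → ℝ) → ℝ} (hf : ContinuousOn f (orth n)) :
    Measurable ((orth n).indicator f) := by
  classical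
  rw [← piecewise_eq_indicator]
  exact hf.measurable_piecewise continuousOn_const measurableSet_orth

lemma expInt_congr {G f g : (Fin n → ℝ) → ℝ} (h : ∀ x ∈ orth n, f x = g x) :
    expInt G f = expInt G g :=
  setIntegral_congr_fun measurableSet_orth fun x hx => by
    show f x * Real.exp (-G x) = g x * Real.exp (-G x)
    rw [h x hx]

/-- Euler's identity for homogeneous integrands. -/
lemma expInt_mul_gauge {G f : (Fin n → ℝ) → ℝ} (hG : IsGauge G) {d : ℕ} {B : ℝ}
    (hf : ContinuousOn f (orth n))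
    (hhom : ∀ x ∈ orth n, ∀ r : ℝ, 0 < r → f (r • x) = r ^ d * f x)
    (hb : ∀ x ∈ orth n, |f x| ≤ B * (1 + G x) ^ d) :
    expInt G (fun x => f x * G x) = ((n + d : ℕ) : ℝ) * expInt G f := by
  set g : (Fin n → ℝ) → ℝ := (orth n).indicator f with hgdef
  have hgm : Measurable g := measurable_indicator_orth hf
  have hfg : ∀ x ∈ orth n, g x = f x := fun x hx => indicator_of_mem hx f
  have hghom : ∀ x ∈ orth n, ∀ r : ℝ, 0 < r → g (r • x) = r ^ d * g x := fun x hx r hr => by
    rw [hfg x hx, hfg _ (smul_mem_orth hx hr.le), hhom x hx r hr]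
  have hscale : ∀ ε : ℝ, -(1 / 2) < ε → ε < 1 →
      expInt (fun x => G x + ε * G x) f = ((1 + ε)⁻¹) ^ (n + d) * expInt G f := by
    intro ε h1 h2
    have hc : 0 < 1 + ε := by linarith
    have hcG : IsGauge fun x => G x + ε * G x := by
      refine ⟨fun x hx r hr => ?_, fun x hx y hy => ?_, fun x hx y hy h => ?_, fun i => ?_⟩
      · rw [hG.hom x hx r hr]; ring
      · nlinarith [hG.sub x hx y hy]
      · nlinarith [hG.mono x hx y hy h]
      · nlinarith [hG.unit_pos i]
    have hset : body (fun x => G x + ε * G x) = {x | x ∈ orth n ∧ G x ≤ (1 + ε)⁻¹} := by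
      ext x
      refine and_congr_right fun _ => ?_
      rw [inv_eq_one_div, le_div_iff₀ hc]
      constructor <;> intro h <;> linarith
    rw [expInt_congr (g := g) fun x hx => (hfg x hx).symm,
      expInt_congr (G := G) (g := g) fun x hx => (hfg x hx).symm,
      hcG.radial (B := |B| * 2 ^ d) (p := d) hgm hghom (fun x hx => ?_),
      hG.radial (B := B) (p := d) hgm hghom (fun x hx => by rw [hfg x hx]; exact hb x hx),
      hset, hG.setIntegral_dilate hghom (inv_pos.2 hc)]
    · ring
    · rw [hfg x hx]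
      refine (hb x hx).trans ((mul_le_mul_of_nonneg_right (le_abs_self B)
        (pow_nonneg (by linarith [hG.nonneg hx]) d)).trans ?_)
      rw [mul_assoc, ← mul_pow]
      refine mul_le_mul_of_nonneg_left (pow_le_pow_left₀ (by linarith [hG.nonneg hx]) ?_ d)
        (abs_nonneg B)
      nlinarith [hG.nonneg hx]
  have h1 := hasDerivAt_expInt hG hG.isSub (hf.aestronglyMeasurable measurableSet_orth) hb
  have h2 : HasDerivAt (fun ε : ℝ => ((1 + ε)⁻¹) ^ (n + d) * expInt G f)
      (-((n + d : ℕ) : ℝ) * expInt G f) 0 := by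
    have h3 := ((((hasDerivAt_id (0 : ℝ)).const_add 1).inv (by norm_num)).pow (n + d)).mul_const
      (expInt G f)
    refine h3.congr_deriv ?_
    simp
  have h4 := h1.unique (h2.congr_of_eventuallyEq ?_)
  · linarith
  · filter_upwards [Ioo_mem_nhds (show (-(1 / 2) : ℝ) < 0 by norm_num) one_pos] with ε hε
    exact hscale ε hε.1 hε.2

lemma ip_isSub_gauge {G Ψ : (Fin n → ℝ) → ℝ} (hG : IsGauge G) (hΨ : IsSub Ψ) :
    ip G Ψ G = ((n : ℝ) + 1) * expInt G Ψ := by
  obtain ⟨K, hK0, hK⟩ := hΨ.abs_le hG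
  rw [ip, expInt_mul_gauge hG (d := 1) (B := K) hΨ.continuousOn
    (fun x hx r hr => by rw [hΨ.hom x hx r hr.le, pow_one])
    (fun x hx => (hK x hx).trans (mul_le_mul_of_nonneg_left
      (by rw [pow_one]; linarith) hK0))]
  push_cast
  ring

lemma expInt_gauge {G : (Fin n → ℝ) → ℝ} (hG : IsGauge G) : expInt G G = n * Zexp G := by
  have h := expInt_mul_gauge hG (f := fun _ => (1 : ℝ)) (d := 0) (B := 1) continuousOn_const
    (fun _ _ _ _ => by simp) (fun _ _ => by simp)
  simpa [Zexp] using h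

lemma ip_wsum {G Ψ : (Fin n → ℝ) → ℝ} (hG : IsGauge G) (hΨ : LinGrowth G Ψ) :
    ip G Ψ (wsum G) = ∑ i, Zexp G / momExp G i * expInt G (fun x => x i * Ψ x) := by
  simp only [ip, expInt, wsum]
  have hi : ∀ i : Fin n, IntegrableOn (fun x => x i * Ψ x * Real.exp (-G x)) (orth n) := fun i =>
    LinGrowth.integrable hG ⟨(continuous_apply i).aestronglyMeasurable, (G (unit i))⁻¹,
      (inv_pos.2 (hG.unit_pos i)).le, fun x hx => by
        rw [abs_of_nonneg (hx i), inv_mul_eq_div, le_div_iff₀ (hG.unit_pos i)]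
        exact hG.coord_le hx i⟩ hΨ
  rw [Finset.sum_congr rfl fun i _ => (integral_const_mul _ _).symm,
    ← integral_finsetSum _ fun i _ => (hi i).const_mul _]
  refine integral_congr_ae (Eventually.of_forall fun x => ?_)
  show Ψ x * (∑ i, x i * (Zexp G / momExp G i)) * Real.exp (-G x) = _
  rw [Finset.mul_sum, Finset.sum_mul]
  exact Finset.sum_congr rfl fun i _ => by ring

lemma expInt_wsum {G : (Fin n → ℝ) → ℝ} (hG : IsGauge G) : expInt G (wsum G) = n * Zexp G := by
  have h1 : ∀ i : Fin n, IntegrableOn (fun x => x i * Real.exp (-G x)) (orth n) := fun i =>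
    hG.integrableOn_exp_mul (B := (G (unit i))⁻¹) (p := 1) (continuous_apply i).aestronglyMeasurable
      fun x hx => by
        rw [pow_one, abs_of_nonneg (hx i), inv_mul_eq_div, le_div_iff₀ (hG.unit_pos i)]
        linarith [hG.coord_le hx i]
  have h2 : expInt G (wsum G) = ∑ i, Zexp G / momExp G i * momExp G i := by
    simp only [momExp, expInt, wsum]
    rw [Finset.sum_congr rfl fun i _ => (integral_const_mul _ _).symm,
      ← integral_finsetSum _ fun i _ => (h1 i).const_mul _]
    refine integral_congr_ae (Eventually.of_forall fun x => ?_)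
    simp only [Finset.sum_mul]
    exact Finset.sum_congr rfl fun i _ => by ring
  rw [h2, Finset.sum_congr rfl fun i _ => div_mul_cancel₀ _ (hG.momExp_pos i).ne']
  simp

/-- The gauge is orthogonal to `wsum G - G`. -/
lemma ip_gauge_resid {G : (Fin n → ℝ) → ℝ} (hG : IsGauge G) :
    ip G G (fun x => wsum G x - G x) = 0 := by
  rw [ip_sub_right hG hG.linGrowth_self ((isSub_wsum G).linGrowth hG) hG.linGrowth_self,
    ip_comm G G (wsum G), ip_isSub_gauge hG (isSub_wsum G), ip_isSub_gauge hG hG.isSub,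
    expInt_wsum hG, expInt_gauge hG, sub_self]

lemma monotone_of_monIn {Ψ : (Fin n → ℝ) → ℝ} (h : ∀ j, MonIn j Ψ) {x y : Fin n → ℝ}
    (hx : x ∈ orth n) (hxy : x ≤ y) : Ψ x ≤ Ψ y := by
  have key : ∀ S : Finset (Fin n), Ψ x ≤ Ψ (x + ∑ i ∈ S, (y i - x i) • unit i) := by
    intro S
    induction S using Finset.induction_on with
    | empty => simp
    | insert a S haS ih =>
      refine ih.trans ?_
      rw [Finset.sum_insert haS, add_comm ((y a - x a) • unit a), ← add_assoc]
      refine h a _ (add_mem_orth hx fun j => ?_) _ (sub_nonneg.2 (hxy a))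
      rw [Finset.sum_apply]
      exact Finset.sum_nonneg fun i _ =>
        (smul_mem_orth (unit_mem_orth i) (sub_nonneg.2 (hxy i))) j
  have e : x + ∑ i, (y i - x i) • unit i = y := by
    rw [sum_smul_unit (fun i => y i - x i)]
    funext i
    simp
  simpa [e] using key Finset.univ

lemma isGauge_add_smul {G Ψ : (Fin n → ℝ) → ℝ} (hG : IsGauge G) (hΨ : IsSub Ψ)
    (hm : ∀ j, MonIn j Ψ) {ε : ℝ} (hε : 0 ≤ ε) : IsGauge fun x => G x + ε * Ψ x := by
  refine ⟨fun x hx r hr => ?_, fun x hx y hy => ?_, fun x hx y hy h => ?_, fun i => ?_⟩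
  · rw [hG.hom x hx r hr, hΨ.hom x hx r hr]; ring
  · have := mul_le_mul_of_nonneg_left (hΨ.sub x hx y hy) hε
    linarith [hG.sub x hx y hy]
  · have := mul_le_mul_of_nonneg_left (monotone_of_monIn hm hx h) hε
    linarith [hG.mono x hx y hy h]
  · have h0 := monotone_of_monIn hm zero_mem_orth (unit_mem_orth i : (0 : Fin n → ℝ) ≤ unit i)
    rw [hΨ.zero] at h0
    linarith [hG.unit_pos i, mul_nonneg hε h0]

/-- Step 1: the first-order condition at a minimiser. -/
theorem firstOrder : FirstOrder := by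
  intro n G Ψ hmin hΨ hm
  obtain ⟨hG, hle⟩ := hmin
  have hZ := hG.zexp_pos
  have hd1 := hasDerivAt_expInt hG hΨ (f := fun _ => (1 : ℝ)) aestronglyMeasurable_const (B := 1)
    (p := 0) (fun _ _ => by simp)
  have hd2 : ∀ i : Fin n, HasDerivAt (fun ε : ℝ => expInt (fun x => G x + ε * Ψ x) fun x => x i)
      (-expInt G fun x => x i * Ψ x) 0 := fun i =>
    hasDerivAt_expInt hG hΨ (continuous_apply i).aestronglyMeasurable (B := (G (unit i))⁻¹) (p := 1)
      fun x hx => by
        rw [pow_one, abs_of_nonneg (hx i), inv_mul_eq_div, le_div_iff₀ (hG.unit_pos i)]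
        linarith [hG.coord_le hx i]
  have e0 : (fun x => G x + 0 * Ψ x) = G := funext fun x => by simp
  have hZ0 : expInt (fun x => G x + 0 * Ψ x) (fun _ => (1 : ℝ)) = Zexp G := by rw [e0]; rfl
  have hM0 : ∀ i, expInt (fun x => G x + 0 * Ψ x) (fun x => x i) = momExp G i := fun i => by
    rw [e0]; rfl
  have hD : HasDerivAt (fun ε : ℝ => Fn fun x => G x + ε * Ψ x)
      (((n : ℝ) + 1) * ((-expInt G fun x => 1 * Ψ x) / Zexp G)
        - ∑ i, (-expInt G fun x => x i * Ψ x) / momExp G i) 0 := by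
    have h1 := (hd1.log (by rw [hZ0]; exact hZ.ne')).const_mul ((n : ℝ) + 1)
    have h2 := HasDerivAt.fun_sum (u := Finset.univ) fun i _ =>
      (hd2 i).log (by rw [hM0 i]; exact (hG.momExp_pos i).ne')
    refine (h1.sub h2).congr_deriv ?_
    rw [hZ0, Finset.sum_congr rfl fun i _ => by rw [hM0 i]]
  have hpos : 0 ≤ ((n : ℝ) + 1) * ((-expInt G fun x => 1 * Ψ x) / Zexp G)
      - ∑ i, (-expInt G fun x => x i * Ψ x) / momExp G i := by
    have ht := hD.tendsto_slope.mono_left (nhdsWithin_mono (0 : ℝ)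
      (fun x hx => ne_of_gt (mem_Ioi.1 hx) : Ioi (0 : ℝ) ⊆ {0}ᶜ))
    refine ge_of_tendsto ht ?_
    filter_upwards [self_mem_nhdsWithin] with ε hε
    rw [slope_def_field]
    refine div_nonneg ?_ (by simpa using (mem_Ioi.1 hε).le)
    rw [e0]
    linarith [hle _ (isGauge_add_smul hG hΨ hm (mem_Ioi.1 hε).le)]
  rw [ip_sub_right hG (hΨ.linGrowth hG) ((isSub_wsum G).linGrowth hG) hG.linGrowth_self,
    ip_isSub_gauge hG hΨ, ip_wsum hG (hΨ.linGrowth hG)]
  simp only [one_mul, neg_div, Finset.sum_neg_distrib, sub_neg_eq_add] at hpos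
  have h3 := mul_nonneg hZ.le hpos
  rw [mul_add, Finset.mul_sum, mul_neg, mul_neg, mul_left_comm, mul_div_cancel₀ _ hZ.ne',
    Finset.sum_congr rfl fun i _ => (mul_div_left_comm (Zexp G) _ (momExp G i))] at h3
  have e : ∀ i, Zexp G / momExp G i * expInt G (fun x => x i * Ψ x)
      = expInt G (fun x => x i * Ψ x) * (Zexp G / momExp G i) := fun i => mul_comm _ _
  rw [Finset.sum_congr rfl fun i _ => e i]
  linarith

/-- A sweep of the averaging step over all coordinates in `S`. -/
lemma sweep (h2 : OperatorStep) {G v : (Fin n → ℝ) → ℝ} (hG : IsGauge G) (hv : IsSegConst G v)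
    {δ : ℝ} (hδ : 0 < δ) (S : Finset (Fin n)) {Ψ : (Fin n → ℝ) → ℝ} (hΨ : IsSub Ψ) (d : ℝ) :
    ∃ (Ψ' : (Fin n → ℝ) → ℝ) (c : ℝ), IsSub Ψ' ∧ (∀ j ∈ S, MonIn j Ψ') ∧
      (ip G (fun x => Ψ' x + c * G x) fun x => Ψ' x + c * G x)
        ≤ (ip G (fun x => Ψ x + d * G x) fun x => Ψ x + d * G x) + S.card * δ ∧
      |(ip G (fun x => Ψ' x + c * G x) v) - ip G (fun x => Ψ x + d * G x) v| ≤ S.card * δ := by
  induction S using Finset.induction_on with
  | empty => exact ⟨Ψ, d, hΨ, by simp, by simp, by simp⟩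
  | insert a S haS ih =>
    obtain ⟨Φ, c, hΦ, hmon, hn, hp⟩ := ih
    obtain ⟨Φ', c', hΦ', ha, hkeep, hn', hp'⟩ := h2 n G Φ v a c δ hG hΦ hv hδ
    refine ⟨Φ', c', hΦ', fun j hj => ?_, ?_, ?_⟩
    · rcases Finset.mem_insert.1 hj with rfl | hj
      · exact ha
      · exact hkeep j (hmon j hj)
    · rw [Finset.card_insert_of_notMem haS]
      push_cast
      linarith
    · rw [Finset.card_insert_of_notMem haS]
      push_cast
      have := abs_sub_le (ip G (fun x => Φ' x + c' * G x) v) (ip G (fun x => Φ x + c * G x) v)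
        (ip G (fun x => Ψ x + d * G x) v)
      linarith

lemma IsSub.combo {Ψ : (Fin n → ℝ) → ℝ} (h : IsSub Ψ) {p : ℝ} (hp : 0 ≤ p) (a : Fin n → ℝ) :
    IsSub fun x => p * Ψ x + ∑ i, x i * a i := by
  have hl := isSub_linear a
  obtain ⟨L, hL0, hL⟩ := h.lip
  obtain ⟨L', hL0', hL'⟩ := hl.lip
  refine ⟨fun x hx r hr => ?_, fun x hx y hy => ?_, p * L + L', by positivity, fun x hx y hy => ?_⟩
  · rw [h.hom x hx r hr, hl.hom x hx r hr]; ring
  · have h1 := mul_le_mul_of_nonneg_left (h.sub x hx y hy) hp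
    have h2 := hl.sub x hx y hy
    linarith
  · have h2 := hL' x hx y hy
    rw [show p * Ψ x + ∑ i, x i * a i - (p * Ψ y + ∑ i, y i * a i)
      = p * (Ψ x - Ψ y) + (∑ i, x i * a i - ∑ i, y i * a i) by ring, add_mul, mul_assoc]
    refine (abs_add_le _ _).trans (add_le_add ?_ h2)
    rw [abs_mul, abs_of_nonneg hp]
    exact mul_le_mul_of_nonneg_left (hL x hx y hy) hp

/-- Step 2: from the first-order condition and the averaging step. -/
theorem segConstOrth_of (h1 : FirstOrder) (h2 : OperatorStep) : SegConstOrth := by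
  intro n G v hmin hv
  have hG := hmin.1
  set r : (Fin n → ℝ) → ℝ := fun x => wsum G x - G x with hr
  have hgG := hG.linGrowth_self
  have hgW := (isSub_wsum G).linGrowth hG
  have hgr : LinGrowth G r := hgW.sub hgG
  have hgv := hv.linGrowth hG
  set R := ip G r r with hR
  set V := ip G v v with hV
  have hR0 : 0 ≤ R := ip_self_nonneg G r
  have hV0 : 0 ≤ V := ip_self_nonneg G v
  rw [ip_comm]
  by_contra hne
  set b := ip G r v with hb
  have hbpos : 0 < |b| := abs_pos.2 hne
  -- parameters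
  obtain ⟨η, hη0, hη1, hηb⟩ : ∃ η : ℝ, 0 < η ∧ η < 1 ∧ η + √η * (R + 1 + V) < |b| / 2 := by
    have hc : Continuous fun η : ℝ => η + √η * (R + 1 + V) := by fun_prop
    have ht := (hc.tendsto 0).mono_left (nhdsWithin_le_nhds (s := Ioi 0))
    have hev : ∀ᶠ η in 𝓝[>] (0 : ℝ), η + √η * (R + 1 + V) < |b| / 2 :=
      ht.eventually (gt_mem_nhds (by simpa using half_pos hbpos))
    obtain ⟨η, h3, h4, h5⟩ :=
      (hev.and (eventually_mem_nhdsWithin.and (nhdsWithin_le_nhds (gt_mem_nhds one_pos)))).exists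
    exact ⟨η, h4, h5, h3⟩
  set δ : ℝ := η ^ 2 / ((n : ℝ) + 1) with hδdef
  have hδ : 0 < δ := by positivity
  have hnδ : (n : ℝ) * δ ≤ η ^ 2 := by
    rw [hδdef, mul_div_assoc', div_le_iff₀ (by positivity)]
    nlinarith [sq_nonneg η]
  -- the iteration
  have iter : ∀ i : ℕ, ∃ (Ψ : (Fin n → ℝ) → ℝ) (c : ℝ), IsSub Ψ ∧ (∀ j, MonIn j Ψ) ∧
      (ip G (fun x => Ψ x + c * G x) fun x => Ψ x + c * G x) ≤ η * (R + 1) ∧
      |ip G (fun x => Ψ x + c * G x) v + (1 - (1 - η) ^ i) * b| ≤ η := by
    intro i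
    induction i with
    | zero =>
      refine ⟨fun _ => 0, 0, ⟨fun _ _ _ _ => by simp, fun _ _ _ _ => by simp, 0, le_rfl,
        fun _ _ _ _ => by simp⟩, fun j x _ s _ => le_rfl, ?_, ?_⟩
      · simp [ip, expInt]; positivity
      · simp [ip, expInt]; positivity
    | succ i ih =>
      obtain ⟨Ψ, c, hΨ, hmon, hn, hp⟩ := ih
      set Φ : (Fin n → ℝ) → ℝ :=
        fun x => (1 - η) * Ψ x + ∑ j, x j * (-η * (Zexp G / momExp G j)) with hΦdef
      have hΦ : IsSub Φ := hΨ.combo (by linarith) _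
      obtain ⟨Ψ', c', hΨ', hmon', hn', hp'⟩ :=
        sweep h2 hG hv hδ Finset.univ hΦ ((1 - η) * c + η)
      refine ⟨Ψ', c', hΨ', fun j => hmon' j (Finset.mem_univ _), ?_⟩
      rw [Finset.card_univ, Fintype.card_fin] at hn' hp'
      set w : (Fin n → ℝ) → ℝ := fun x => Ψ x + c * G x with hwdef
      have hgw : LinGrowth G w := (hΨ.linGrowth hG).add (hgG.const_mul c)
      have e : (fun x => Φ x + ((1 - η) * c + η) * G x)
          = fun x => (1 - η) * w x + (-η) * r x := by
        funext x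
        have es : ∑ j, x j * (-η * (Zexp G / momExp G j)) = -η * wsum G x := by
          rw [wsum, Finset.mul_sum]
          exact Finset.sum_congr rfl fun j _ => by ring
        simp only [hΦdef, hwdef, hr, es]
        ring
      rw [e] at hn' hp'
      have hcomb : LinGrowth G fun x => (1 - η) * w x + (-η) * r x :=
        (hgw.const_mul _).add (hgr.const_mul _)
      rw [ip_combo_left hG hgw hgr hcomb, ip_comm G w, ip_comm G r,
        ip_combo_left hG hgw hgr hgw, ip_combo_left hG hgw hgr hgr, ip_comm G r w] at hn'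
      rw [ip_combo_left hG hgw hgr hgv, ← hb] at hp'
      have hwr : 0 ≤ ip G w r := by
        have e2 : ip G w r = 1 * ip G Ψ r + c * ip G G r := by
          rw [← ip_combo_left hG (hΨ.linGrowth hG) hgG hgr]
          exact congrArg (fun a => ip G a r) (funext fun x => by simp [hwdef])
        rw [e2, hr, ip_gauge_resid hG, mul_zero, add_zero, one_mul]
        exact h1 n G Ψ hmin hΨ hmon
      constructor
      · have t1 : 0 ≤ (1 - η) * η * ip G w r :=
          mul_nonneg (mul_nonneg (by linarith) hη0.le) hwr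
        have t2 : (1 - η) * ((1 - η) * ip G w w) ≤ (1 - η) * (η * (R + 1)) := by
          refine mul_le_mul_of_nonneg_left ?_ (by linarith)
          refine le_trans ?_ hn
          nlinarith [ip_self_nonneg G w]
        have hR' : ip G r r = R := rfl
        rw [hR'] at hn'
        nlinarith [hnδ, hn', t1, t2, sq_nonneg η]
      · have t3 : |(1 - η) * (ip G w v + (1 - (1 - η) ^ i) * b)| ≤ (1 - η) * η := by
          rw [abs_mul, abs_of_nonneg (by linarith : (0 : ℝ) ≤ 1 - η)]
          exact mul_le_mul_of_nonneg_left hp (by linarith)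
        have e3 : ip G (fun x => Ψ' x + c' * G x) v + (1 - (1 - η) ^ (i + 1)) * b
            = (ip G (fun x => Ψ' x + c' * G x) v - ((1 - η) * ip G w v + -η * b))
              + (1 - η) * (ip G w v + (1 - (1 - η) ^ i) * b) := by rw [pow_succ]; ring
        rw [e3]
        refine (abs_add_le _ _).trans ?_
        nlinarith [hp', t3, hnδ]
  obtain ⟨i, hi⟩ := exists_pow_lt_of_lt_one (show (0 : ℝ) < 1 / 2 by norm_num)
    (show 1 - η < 1 by linarith)
  obtain ⟨Ψ, c, hΨ, -, hn, hp⟩ := iter i
  set w : (Fin n → ℝ) → ℝ := fun x => Ψ x + c * G x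
  have hgw : LinGrowth G w := (hΨ.linGrowth hG).add (hgG.const_mul c)
  have hs : 0 < √η := Real.sqrt_pos.2 hη0
  have hcs := two_abs_ip_le hG hgw hgv hs
  have h4 : ip G w w / √η ≤ √η * (R + 1) := by
    rw [div_le_iff₀ hs]
    nlinarith [Real.mul_self_sqrt hη0.le]
  have h5 : (1 - (1 - η) ^ i) * |b| ≤ η + |ip G w v| := by
    have h := abs_sub_le ((1 - (1 - η) ^ i) * b) (-ip G w v) 0
    rw [sub_zero, sub_neg_eq_add, abs_mul, abs_of_nonneg (by linarith : (0 : ℝ) ≤ 1 - (1 - η) ^ i),
      sub_zero, abs_neg, add_comm ((1 - (1 - η) ^ i) * b)] at h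
    linarith
  nlinarith [abs_nonneg (ip G w v)]

end Vale.Agent.P254.CT
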