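import Vale.Agent.P254.CT.Base

/-!
The identity: pairing a segment-constant test function with the first-order residual gives the
slope along the path `x k ↦ x k - s * x k ^ m`.
-/

noncomputable section

open MeasureTheory Set Function Filter Topology
open scoped BigOperators Nat

namespace Vale.Agent.P254.CT

variable {n : ℕ}

/-- Projection to the orthant. -/
def clamp (x : Fin n → ℝ) : Fin n → ℝ := fun i => max (x i) 0

lemma clamp_mem (x : Fin n → ℝ) : clamp x ∈ orth n := fun i => le_max_right _ _

lemma clamp_eq {x : Fin n → ℝ} (hx : x ∈ orth n) : clamp x = x :=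
  funext fun i => max_eq_left (hx i)

lemma continuous_clamp : Continuous (clamp (n := n)) :=
  continuous_pi fun i => (continuous_apply i).max continuous_const

/-- Continuous extension of a function on the orthant. -/
def ext0 (G : (Fin n → ℝ) → ℝ) (x : Fin n → ℝ) : ℝ := G (clamp x)

lemma IsGauge.continuous_ext0 {G : (Fin n → ℝ) → ℝ} (hG : IsGauge G) : Continuous (ext0 G) :=
  hG.continuousOn.comp_continuous continuous_clamp clamp_mem

/-- The difference quotient in coordinate `k`. -/
def quot (G : (Fin n → ℝ) → ℝ) (k : Fin n) (t : ℝ) (x : Fin n → ℝ) : ℝ :=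
  (ext0 G (x + t • unit k) - ext0 G x) / t

/-- The right derivative in coordinate `k`. -/
def rder (G : (Fin n → ℝ) → ℝ) (k : Fin n) (x : Fin n → ℝ) : ℝ :=
  ⨅ N : ℕ, quot G k ((N : ℝ) + 1)⁻¹ x

section

variable {G : (Fin n → ℝ) → ℝ} (hG : IsGauge G) (k : Fin n)
include hG

lemma quot_eq {x : Fin n → ℝ} (hx : x ∈ orth n) {t : ℝ} (ht : 0 ≤ t) :
    quot G k t x = (G (x + t • unit k) - G x) / t := by
  rw [quot, ext0, ext0, clamp_eq hx, clamp_eq (add_mem_orth hx (smul_mem_orth (unit_mem_orth k) ht))]

lemma quot_bounds {x : Fin n → ℝ} (hx : x ∈ orth n) {t : ℝ} (ht : 0 < t) :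
    0 ≤ quot G k t x ∧ quot G k t x ≤ G (unit k) := by
  rw [quot_eq hG k hx ht.le]
  refine ⟨div_nonneg (sub_nonneg.2 (hG.monIn k x hx t ht.le)) ht.le, ?_⟩
  rw [div_le_iff₀ ht]
  have := hG.sub x hx _ (smul_mem_orth (unit_mem_orth k) ht.le)
  rw [hG.hom _ (unit_mem_orth k) t ht.le] at this
  linarith

lemma gauge_comb {x y : Fin n → ℝ} (hx : x ∈ orth n) (hy : y ∈ orth n) {a b : ℝ} (ha : 0 ≤ a)
    (hb : 0 ≤ b) : G (a • x + b • y) ≤ a * G x + b * G y := by
  have := hG.sub _ (smul_mem_orth hx ha) _ (smul_mem_orth hy hb)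
  rwa [hG.hom x hx a ha, hG.hom y hy b hb] at this

lemma quot_mono {x : Fin n → ℝ} (hx : x ∈ orth n) {s t : ℝ} (hs : 0 < s) (hst : s ≤ t) :
    quot G k s x ≤ quot G k t x := by
  have ht : 0 < t := hs.trans_le hst
  rw [quot_eq hG k hx hs.le, quot_eq hG k hx ht.le, div_le_div_iff₀ hs ht]
  have e : x + s • unit k = (1 - s / t) • x + (s / t) • (x + t • unit k) := by
    funext i
    simp only [Pi.add_apply, Pi.smul_apply, smul_eq_mul]
    field_simp
    ring
  have h := gauge_comb hG hx (add_mem_orth hx (smul_mem_orth (unit_mem_orth k) ht.le))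
    (a := 1 - s / t) (b := s / t) (by rw [sub_nonneg, div_le_one ht]; exact hst) (by positivity)
  rw [← e] at h
  have h2 := mul_le_mul_of_nonneg_left h ht.le
  have e2 : t * ((1 - s / t) * G x + s / t * G (x + t • unit k))
      = (t - s) * G x + s * G (x + t • unit k) := by field_simp
  rw [e2] at h2
  linarith

lemma rder_le_quot {x : Fin n → ℝ} (hx : x ∈ orth n) {t : ℝ} (ht : 0 < t) :
    rder G k x ≤ quot G k t x := by
  obtain ⟨N, hN⟩ := exists_nat_one_div_lt ht
  refine le_trans (ciInf_le ⟨0, ?_⟩ N) (quot_mono hG k hx (by positivity) ?_)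
  · rintro - ⟨M, rfl⟩
    exact (quot_bounds hG k hx (by positivity)).1
  · rw [one_div] at hN; exact hN.le

lemma rder_bounds {x : Fin n → ℝ} (hx : x ∈ orth n) :
    0 ≤ rder G k x ∧ rder G k x ≤ G (unit k) :=
  ⟨le_ciInf fun N => (quot_bounds hG k hx (by positivity)).1,
    (rder_le_quot hG k hx one_pos).trans (quot_bounds hG k hx one_pos).2⟩

lemma tendsto_quot {x : Fin n → ℝ} (hx : x ∈ orth n) :
    Tendsto (fun t => quot G k t x) (𝓝[>] 0) (𝓝 (rder G k x)) := by
  rw [tendsto_order]
  refine ⟨fun a ha => ?_, fun a ha => ?_⟩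
  · filter_upwards [self_mem_nhdsWithin] with t ht
    exact ha.trans_le (rder_le_quot hG k hx ht)
  · obtain ⟨N, hN⟩ := exists_lt_of_ciInf_lt ha
    filter_upwards [Ioo_mem_nhdsGT (show (0 : ℝ) < ((N : ℝ) + 1)⁻¹ by positivity)] with t ht
    exact (quot_mono hG k hx ht.1 ht.2.le).trans_lt hN

lemma hasDerivWithinAt_line {x : Fin n → ℝ} (hx : x ∈ orth n) :
    HasDerivWithinAt (fun t : ℝ => ext0 G (x + t • unit k)) (rder G k x) (Ioi 0) 0 := by
  rw [hasDerivWithinAt_iff_tendsto_slope' self_notMem_Ioi]
  refine (tendsto_quot hG k hx).congr fun t => ?_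
  simp [slope_def_field, quot]

lemma rder_smul {x : Fin n → ℝ} (hx : x ∈ orth n) {r : ℝ} (hr : 0 < r) :
    rder G k (r • x) = rder G k x := by
  have hmap : Tendsto (fun t : ℝ => t / r) (𝓝[>] 0) (𝓝[>] 0) := by
    refine tendsto_nhdsWithin_iff.2 ⟨?_, ?_⟩
    · exact tendsto_nhdsWithin_of_tendsto_nhds (by simpa using (continuous_id.div_const r).tendsto 0)
    · filter_upwards [self_mem_nhdsWithin] with t ht
      exact div_pos ht hr
  refine tendsto_nhds_unique (tendsto_quot hG k (smul_mem_orth hx hr.le))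
    (((tendsto_quot hG k hx).comp hmap).congr' ?_)
  filter_upwards [self_mem_nhdsWithin] with t ht
  have ht' : (0 : ℝ) < t / r := div_pos ht hr
  have hy : x + (t / r) • unit k ∈ orth n :=
    add_mem_orth hx (smul_mem_orth (unit_mem_orth k) ht'.le)
  have e : r • x + t • unit k = r • (x + (t / r) • unit k) := by
    rw [smul_add, smul_smul, mul_div_cancel₀ _ hr.ne']
  rw [comp_apply, quot_eq hG k hx ht'.le, quot_eq hG k (smul_mem_orth hx hr.le) (le_of_lt ht), e,
    hG.hom _ hy r hr.le, hG.hom x hx r hr.le]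
  field_simp

lemma measurable_rder : Measurable (rder G k) := by
  refine Measurable.iInf fun N => ?_
  exact (((hG.continuous_ext0.comp (continuous_id.add continuous_const)).sub
    hG.continuous_ext0).div_const _).measurable

/-- The derivative is constant inside segments in another coordinate. -/
lemma rder_segment {j : Fin n} {p : Fin n → ℝ} (hp : p ∈ orth n) {b : ℝ} (hb : 0 < b)
    (hseg : G (p + b • unit j) = G p) {y₁ y₂ : ℝ} (hy₁ : y₁ ∈ Ioo 0 b) (hy₂ : y₂ ∈ Ioo 0 b) :
    rder G k (p + y₁ • unit j) = rder G k (p + y₂ • unit j) := by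
  have flat : ∀ y ∈ Icc 0 b, G (p + y • unit j) = G p := by
    intro y hy
    refine le_antisymm ?_ (hG.monIn j p hp y hy.1)
    rw [← hseg]
    have := hG.monIn j (p + y • unit j) (add_mem_orth hp (smul_mem_orth (unit_mem_orth j) hy.1))
      (b - y) (sub_nonneg.2 hy.2)
    rwa [add_assoc, ← add_smul, add_sub_cancel] at this
  suffices key : ∀ y ∈ Ioo 0 b, ∀ y' ∈ Icc 0 b,
      rder G k (p + y • unit j) ≤ rder G k (p + y' • unit j) from
    le_antisymm (key y₁ hy₁ y₂ (Ioo_subset_Icc_self hy₂)) (key y₂ hy₂ y₁ (Ioo_subset_Icc_self hy₁))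
  intro y hy y' hy'
  obtain ⟨z, hz, θ, hθ0, hθ1, hyeq⟩ : ∃ z ∈ Icc 0 b, ∃ θ : ℝ, 0 ≤ θ ∧ θ < 1 ∧
      y = (1 - θ) * y' + θ * z := by
    rcases lt_trichotomy y' y with h | h | h
    · refine ⟨b, right_mem_Icc.2 hb.le, (y - y') / (b - y'), ?_, ?_, ?_⟩
      · exact div_nonneg (by linarith) (by linarith [hy.2])
      · rw [div_lt_one (by linarith [hy.2])]; linarith [hy.2]
      · have : b - y' ≠ 0 := by linarith [hy.2]
        field_simp
        ring
    · exact ⟨b, right_mem_Icc.2 hb.le, 0, le_rfl, zero_lt_one, by linarith⟩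
    · refine ⟨0, left_mem_Icc.2 hb.le, 1 - y / y', ?_, ?_, ?_⟩
      · rw [sub_nonneg, div_le_one (hy.1.trans h)]; exact h.le
      · linarith [div_pos hy.1 (hy.1.trans h)]
      · have : y' ≠ 0 := (hy.1.trans h).ne'
        field_simp
        ring
  have hpy : ∀ w ∈ Icc 0 b, p + w • unit j ∈ orth n := fun w hw =>
    add_mem_orth hp (smul_mem_orth (unit_mem_orth j) hw.1)
  refine ge_of_tendsto (tendsto_quot hG k (hpy y' hy')) ?_
  filter_upwards [self_mem_nhdsWithin] with t ht
  have ht0 : (0 : ℝ) < t := ht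
  have hs : 0 < (1 - θ) * t := mul_pos (by linarith) ht0
  refine (rder_le_quot hG k (hpy y (Ioo_subset_Icc_self hy)) hs).trans ?_
  rw [quot_eq hG k (hpy y (Ioo_subset_Icc_self hy)) hs.le, quot_eq hG k (hpy y' hy') ht0.le,
    flat y (Ioo_subset_Icc_self hy), flat y' hy', div_le_div_iff₀ hs ht0]
  have e : p + y • unit j + ((1 - θ) * t) • unit k
      = (1 - θ) • (p + y' • unit j + t • unit k) + θ • (p + z • unit j) := by
    rw [hyeq]; funext i; simp only [Pi.add_apply, Pi.smul_apply, smul_eq_mul]; ring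
  have h := gauge_comb hG (add_mem_orth (hpy y' hy') (smul_mem_orth (unit_mem_orth k) ht0.le))
    (hpy z hz) (a := 1 - θ) (b := θ) (by linarith) hθ0
  rw [← e, flat z hz] at h
  have := mul_le_mul_of_nonneg_left h ht0.le
  linarith

end

/-- The test function. -/
def slopeTest (G : (Fin n → ℝ) → ℝ) (k : Fin n) (m : ℕ) (x : Fin n → ℝ) : ℝ :=
  rder G k x * (x k ^ m / ext0 G x ^ (m - 1))

lemma slopeTest_segConst {G : (Fin n → ℝ) → ℝ} (hG : IsGauge G) (k : Fin n) (m : ℕ) (hm : 1 ≤ m) :
    IsSegConst G (slopeTest G k m) := by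
  refine ⟨(measurable_rder hG k).mul (((measurable_pi_apply k).pow_const m).div
    (hG.continuous_ext0.measurable.pow_const _)), ⟨G (unit k) * (G (unit k))⁻¹ ^ m, fun x hx => ?_⟩,
    fun j x hx b hb heq y₁ hy₁ y₂ hy₂ => ?_⟩
  · have hgu := hG.unit_pos k
    obtain ⟨h1, h2⟩ := rder_bounds hG k hx
    have hd : 0 ≤ x k ^ m / ext0 G x ^ (m - 1) :=
      div_nonneg (pow_nonneg (hx k) _) (pow_nonneg (hG.nonneg (clamp_mem x)) _)
    rw [slopeTest, abs_of_nonneg (mul_nonneg h1 hd), mul_assoc]
    refine mul_le_mul h2 ?_ hd hgu.le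
    rw [ext0, clamp_eq hx]
    have hxk : x k ≤ (G (unit k))⁻¹ * G x := by
      rw [inv_mul_eq_div, le_div_iff₀ hgu]; exact hG.coord_le hx k
    rcases (hG.nonneg hx).eq_or_lt with h0 | h0
    · have : x k = 0 := le_antisymm (by simpa [← h0] using hxk) (hx k)
      simp [this, ← h0, show m ≠ 0 by omega]
    · rw [div_le_iff₀ (pow_pos h0 _)]
      calc x k ^ m ≤ ((G (unit k))⁻¹ * G x) ^ m := pow_le_pow_left₀ (hx k) hxk m
        _ = (G (unit k))⁻¹ ^ m * G x * G x ^ (m - 1) := by
            rw [mul_pow, mul_assoc, ← pow_succ', Nat.sub_add_cancel hm]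
  · set p := update x j 0 with hpdef
    have hp : p ∈ orth n := update_mem_orth hx j le_rfl
    have hup : ∀ y, update x j y = p + y • unit j := fun y => update_eq_add_smul x j y
    rw [hup] at heq
    have hmem : ∀ {y}, y ∈ Ioo 0 b → p + y • unit j ∈ orth n := fun {y} hy =>
      add_mem_orth hp (smul_mem_orth (unit_mem_orth j) hy.1.le)
    have flat : ∀ {y}, y ∈ Icc 0 b → G (p + y • unit j) = G p := by
      intro y hy
      refine le_antisymm ?_ (hG.monIn j p hp y hy.1)
      rw [← heq]
      have := hG.monIn j (p + y • unit j) (add_mem_orth hp (smul_mem_orth (unit_mem_orth j) hy.1))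
        (b - y) (sub_nonneg.2 hy.2)
      rwa [add_assoc, ← add_smul, add_sub_cancel] at this
    rw [hup, hup]
    by_cases hjk : j = k
    · subst hjk
      have hz : ∀ {y}, y ∈ Ioo 0 b → rder G j (p + y • unit j) = 0 := by
        intro y hy
        refine le_antisymm ((rder_le_quot hG j (hmem hy) (sub_pos.2 hy.2)).trans ?_)
          (rder_bounds hG j (hmem hy)).1
        rw [quot_eq hG j (hmem hy) (sub_nonneg.2 hy.2.le), add_assoc, ← add_smul, add_sub_cancel,
          flat (right_mem_Icc.2 hb.le), flat (Ioo_subset_Icc_self hy), sub_self, zero_div]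
      simp [slopeTest, hz hy₁, hz hy₂]
    · simp only [slopeTest, ext0, clamp_eq (hmem hy₁), clamp_eq (hmem hy₂),
        flat (Ioo_subset_Icc_self hy₁), flat (Ioo_subset_Icc_self hy₂),
        rder_segment hG k hp hb heq hy₁ hy₂]
      simp [unit, Ne.symm hjk]

/-- Powers of the gauge inside the body. -/
lemma IsGauge.body_pow {G f : (Fin n → ℝ) → ℝ} (hG : IsGauge G) {d : ℕ} (hnd : 0 < n)
    (hf : Measurable f) {B : ℝ} (hb : ∀ x ∈ body G, |f x| ≤ B)
    (hhom : ∀ x ∈ orth n, ∀ r : ℝ, 0 < r → f (r • x) = r ^ d * f x) (p : ℕ) :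
    ∫ x in body G, f x * G x ^ p = ((n + d : ℝ) / (n + d + p)) * ∫ x in body G, f x := by
  rcases Nat.eq_zero_or_pos p with hp | hp
  · subst hp
    have : (0 : ℝ) < n := by exact_mod_cast hnd
    simp [div_self (show (n + d : ℝ) ≠ 0 by positivity)]
  set G' := ext0 G with hG'
  set S : Set ((Fin n → ℝ) × ℝ) := {z | G' z.1 ≤ z.2} with hS
  have hSm : MeasurableSet S :=
    measurableSet_le (hG.continuous_ext0.measurable.comp measurable_fst) measurable_snd
  set u : (Fin n → ℝ) → ℝ → ℝ :=
    fun x r => S.indicator (fun z => f z.1 * ((p : ℝ) * z.2 ^ (p - 1))) (x, r) with hu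
  have hum : Measurable (Function.uncurry u) :=
    ((hf.comp measurable_fst).mul (measurable_const.mul (measurable_snd.pow_const _))).indicator hSm
  have : IsFiniteMeasure (volume.restrict (body G)) :=
    isFiniteMeasure_restrict.2 hG.isCompact_body.measure_lt_top.ne
  have : IsFiniteMeasure (volume.restrict (Ioc (0 : ℝ) 1)) :=
    isFiniteMeasure_restrict.2 measure_Ioc_lt_top.ne
  have hint : Integrable (Function.uncurry u)
      ((volume.restrict (body G)).prod (volume.restrict (Ioc (0 : ℝ) 1))) := by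
    refine Integrable.mono' (integrable_const (|B| * p)) hum.aestronglyMeasurable ?_
    rw [Measure.prod_restrict]
    filter_upwards [ae_restrict_mem (hG.measurableSet_body.prod measurableSet_Ioc)] with z hz
    obtain ⟨x, r⟩ := z
    show ‖u x r‖ ≤ _
    by_cases hr : (x, r) ∈ S
    · simp only [hu, indicator_of_mem hr, Real.norm_eq_abs, abs_mul, Nat.abs_cast, abs_pow]
      refine mul_le_mul ((hb x hz.1).trans (le_abs_self B))
        (mul_le_of_le_one_right (Nat.cast_nonneg p) (pow_le_one₀ (abs_nonneg r) ?_))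
        (by positivity) (abs_nonneg B)
      rw [abs_of_pos hz.2.1]; exact hz.2.2
    · simp only [hu, indicator_of_notMem hr, norm_zero]; positivity
  have hswap := integral_integral_swap hint
  have hl : ∀ x ∈ body G, ∫ r in Ioc (0 : ℝ) 1, u x r = f x - f x * G x ^ p := by
    intro x hx
    have e : u x = (Ici (G x)).indicator fun r => f x * ((p : ℝ) * r ^ (p - 1)) := by
      funext r
      by_cases hr : G x ≤ r <;> simp [hu, hS, hG', ext0, clamp_eq hx.1, hr]
    have hset : (Ioc (0 : ℝ) 1 ∩ Ici (G x) : Set ℝ) =ᵐ[volume] Ioc (G x) 1 := by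
      refine ((ae_eq_refl (Ioc (0 : ℝ) 1)).inter Ioi_ae_eq_Ici.symm).trans ?_
      rw [Ioc_inter_Ioi, sup_eq_right.2 (hG.nonneg hx.1)]; exact ae_eq_refl _
    rw [e, setIntegral_indicator measurableSet_Ici, setIntegral_congr_set hset,
      ← intervalIntegral.integral_of_le hx.2, intervalIntegral.integral_const_mul,
      intervalIntegral.integral_eq_sub_of_hasDerivAt (f := fun r => r ^ p)
        (fun r _ => hasDerivAt_pow p r) (Continuous.intervalIntegrable (by fun_prop) _ _)]
    ring
  have hr : ∀ r ∈ Ioc (0 : ℝ) 1, ∫ x in body G, u x r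
      = (∫ x in body G, f x) * ((p : ℝ) * r ^ (n + d + p - 1)) := by
    intro r hr
    have e : ∀ x, u x r = {x | G' x ≤ r}.indicator (fun x => f x * ((p : ℝ) * r ^ (p - 1))) x :=
      fun x => by by_cases hx : G' x ≤ r <;> simp [hu, hS, hx]
    simp only [e]
    rw [setIntegral_indicator (measurableSet_le hG.continuous_ext0.measurable measurable_const),
      show body G ∩ {x | G' x ≤ r} = {x | x ∈ orth n ∧ G x ≤ r} by
        ext x
        constructor
        · rintro ⟨h1, h2⟩
          rw [mem_ofPred_eq, hG', ext0, clamp_eq h1.1] at h2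
          exact ⟨h1.1, h2⟩
        · rintro ⟨h1, h2⟩
          refine ⟨⟨h1, h2.trans hr.2⟩, ?_⟩
          rw [mem_ofPred_eq, hG', ext0, clamp_eq h1]; exact h2,
      integral_mul_const, hG.setIntegral_dilate hhom hr.1,
      show n + d + p - 1 = (n + d) + (p - 1) by omega]
    ring
  rw [setIntegral_congr_fun hG.measurableSet_body hl, setIntegral_congr_fun measurableSet_Ioc hr,
    integral_const_mul] at hswap
  have hI : ∫ r in Ioc (0 : ℝ) 1, (p : ℝ) * r ^ (n + d + p - 1) = p / (n + d + p : ℝ) := by
    rw [← intervalIntegral.integral_of_le zero_le_one, intervalIntegral.integral_const_mul,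
      integral_pow, show n + d + p - 1 + 1 = n + d + p by omega, zero_pow (by omega), one_pow,
      sub_zero, show ((n + d + p - 1 : ℕ) : ℝ) + 1 = ((n + d + p : ℕ) : ℝ) by
        exact_mod_cast (show n + d + p - 1 + 1 = n + d + p by omega)]
    push_cast
    ring
  have hfi : IntegrableOn f (body G) :=
    Integrable.mono' (integrable_const |B|) hf.aestronglyMeasurable
      ((ae_restrict_mem hG.measurableSet_body).mono fun x hx => (hb x hx).trans (le_abs_self B))
  have hfpi : IntegrableOn (fun x => f x * G x ^ p) (body G) := by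
    refine Integrable.mono' (integrable_const |B|) (hf.aestronglyMeasurable.mul
      (((hG.continuousOn.mono fun x hx => hx.1).pow p).aestronglyMeasurable hG.measurableSet_body)) ?_
    filter_upwards [ae_restrict_mem hG.measurableSet_body] with x hx
    rw [Real.norm_eq_abs, abs_mul, abs_pow, abs_of_nonneg (hG.nonneg hx.1)]
    exact (mul_le_of_le_one_right (abs_nonneg _) (pow_le_one₀ (hG.nonneg hx.1) hx.2)).trans
      ((hb x hx).trans (le_abs_self B))
  rw [integral_sub hfi hfpi, hI] at hswap
  have hne : (n + d + p : ℝ) ≠ 0 := by positivity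
  rw [show ((n + d : ℝ) / (n + d + p)) = 1 - p / (n + d + p) by
    rw [eq_sub_iff_add_eq, ← add_div, div_self hne]]
  linarith

/-- The linear form with coefficients `a`. -/
def lform (a : Fin n → ℝ) (x : Fin n → ℝ) : ℝ := ∑ i, x i * a i

lemma lform_add_unit (a x : Fin n → ℝ) (k : Fin n) (t : ℝ) :
    lform a (x + t • unit k) = lform a x + t * a k := by
  simp [lform, unit, add_mul, Finset.sum_add_distrib, Pi.single_apply, Finset.sum_ite_eq']

lemma continuous_lform (a : Fin n → ℝ) : Continuous (lform a) :=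
  continuous_finset_sum _ fun i _ => (continuous_apply i).mul continuous_const

/-- The potential whose coordinate derivative is integrated. -/
def fpot (G : (Fin n → ℝ) → ℝ) (k : Fin n) (a : Fin n → ℝ) (m : ℕ) (x : Fin n → ℝ) : ℝ :=
  x k ^ m * (lform a x - ext0 G x - 1) * Real.exp (-ext0 G x)

lemma abs_exp_diff {g u : ℝ} (hu : 0 ≤ u) :
    |Real.exp (-(g + u)) - Real.exp (-g)| ≤ u * Real.exp (-g) := by
  rw [neg_add, Real.exp_add, show Real.exp (-g) * Real.exp (-u) - Real.exp (-g)
    = -(Real.exp (-g) * (1 - Real.exp (-u))) by ring, abs_neg,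
    abs_of_nonneg (mul_nonneg (Real.exp_pos _).le
      (sub_nonneg.2 (Real.exp_le_one_iff.2 (by linarith)))), mul_comm u]
  exact mul_le_mul_of_nonneg_left (by linarith [Real.add_one_le_exp (-u)]) (Real.exp_pos _).le

section

variable {G : (Fin n → ℝ) → ℝ} (hG : IsGauge G) (k : Fin n) (a : Fin n → ℝ) (m : ℕ)
include hG

lemma abs_affine_le : ∃ D : ℝ, 0 ≤ D ∧ ∀ x ∈ orth n, ∀ t : ℝ, 0 ≤ t → t ≤ 1 →
    |lform a x + t * a k - G (x + t • unit k) - 1| ≤ D * (1 + G x) := by
  obtain ⟨K, hK0, hK⟩ := (isSub_linear a).abs_le hG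
  have hgu := hG.unit_pos k
  refine ⟨K + 2 + G (unit k) + |a k|, by positivity, fun x hx t ht0 ht1 => ?_⟩
  have hg := hG.nonneg hx
  have h1 : |lform a x| ≤ K * G x := hK x hx
  have h2 : |t * a k| ≤ |a k| := by
    rw [abs_mul, abs_of_nonneg ht0]; exact mul_le_of_le_one_left (abs_nonneg _) ht1
  have h3 := hG.nonneg (add_mem_orth hx (smul_mem_orth (unit_mem_orth k) ht0))
  have h4 := hG.sub x hx _ (smul_mem_orth (unit_mem_orth k) ht0)
  rw [hG.hom _ (unit_mem_orth k) t ht0] at h4
  have h5 := mul_le_of_le_one_left hgu.le ht1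
  have h6 := mul_nonneg hgu.le hg
  have h7 := mul_nonneg (abs_nonneg (a k)) hg
  have h8 := abs_nonneg (a k)
  have e : (K + 2 + G (unit k) + |a k|) * (1 + G x)
      = K + 2 + G (unit k) + |a k| + K * G x + 2 * G x + G (unit k) * G x + |a k| * G x := by
    ring
  rw [abs_le] at h1 h2 ⊢
  constructor <;> linarith [h1.1, h1.2, h2.1, h2.2]

lemma coord_add_one_le : ∃ c : ℝ, 1 ≤ c ∧ ∀ x ∈ orth n, x k + 1 ≤ c * (1 + G x) := by
  have hgu := hG.unit_pos k
  refine ⟨1 + (G (unit k))⁻¹, by linarith [inv_pos.2 hgu], fun x hx => ?_⟩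
  have h1 : x k ≤ (G (unit k))⁻¹ * G x := by
    rw [inv_mul_eq_div, le_div_iff₀ hgu]; exact hG.coord_le hx k
  have e : (1 + (G (unit k))⁻¹) * (1 + G x)
      = 1 + G x + (G (unit k))⁻¹ + (G (unit k))⁻¹ * G x := by ring
  linarith [inv_pos.2 hgu, hG.nonneg hx]

lemma fpot_diff_le : ∃ B : ℝ, 0 ≤ B ∧ ∀ x ∈ orth n, ∀ t : ℝ, 0 < t → t ≤ 1 →
    |fpot G k a m (x + t • unit k) - fpot G k a m x|
      ≤ t * B * (1 + G x) ^ (m + 1) * Real.exp (-G x) := by
  obtain ⟨D, hD0, hD⟩ := abs_affine_le hG k a
  obtain ⟨c, hc1, hc⟩ := coord_add_one_le hG k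
  have hgu := hG.unit_pos k
  refine ⟨c ^ m * (G (unit k) * D + m * D + (|a k| + G (unit k))), by positivity,
    fun x hx t ht0 ht1 => ?_⟩
  have hxt : x + t • unit k ∈ orth n := add_mem_orth hx (smul_mem_orth (unit_mem_orth k) ht0.le)
  have hxk : (x + t • unit k) k = x k + t := by simp [unit]
  obtain ⟨hq1, hq2⟩ := quot_bounds hG k hx ht0
  rw [quot_eq hG k hx ht0.le, le_div_iff₀ ht0, zero_mul] at hq1
  rw [quot_eq hG k hx ht0.le, div_le_iff₀ ht0, mul_comm] at hq2
  have hg := hG.nonneg hx
  have hA := hD x hx t ht0.le ht1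
  set u := G (x + t • unit k) - G x with hu
  set g := G x with hgdef
  have hgu' : G (x + t • unit k) = g + u := by rw [hu]; ring
  rw [hgu'] at hA
  set A' := lform a x + t * a k - (g + u) - 1
  set e := Real.exp (-g)
  set e' := Real.exp (-(g + u))
  have hep : 0 < e := Real.exp_pos _
  have eF : fpot G k a m (x + t • unit k) - fpot G k a m x
      = (e' - e) * ((x k + t) ^ m * A')
        + e * (((x k + t) ^ m - x k ^ m) * A' + x k ^ m * (t * a k - u)) := by
    simp only [fpot, ext0, clamp_eq hx, clamp_eq hxt, lform_add_unit, hxk, hgu', A', e, e', g]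
    ring
  have hW0 : 1 ≤ c * (1 + g) := one_le_mul_of_one_le_of_one_le hc1 (by linarith)
  have hy := hc x hx
  have hx0 := hx k
  set W := (c * (1 + g)) ^ m with hW
  have hWp : 0 ≤ W := pow_nonneg (by linarith) _
  have h1 : |e' - e| ≤ t * G (unit k) * e :=
    (abs_exp_diff hq1).trans (mul_le_mul_of_nonneg_right hq2 hep.le)
  have h2 : |(x k + t) ^ m| ≤ W := by
    rw [abs_of_nonneg (pow_nonneg (by linarith) _)]
    exact pow_le_pow_left₀ (by linarith) (by linarith) m
  have h3 : |x k ^ m| ≤ W := by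
    rw [abs_of_nonneg (pow_nonneg hx0 _)]
    exact pow_le_pow_left₀ hx0 (by linarith) m
  have h4 : |(x k + t) ^ m - x k ^ m| ≤ t * m * W := by
    refine (abs_pow_sub_pow_le _ _ _).trans ?_
    rw [add_sub_cancel_left, abs_of_pos ht0]
    refine mul_le_mul_of_nonneg_left ?_ (by positivity)
    refine (pow_le_pow_left₀ (le_max_of_le_left (abs_nonneg _))
      (max_le ?_ ?_) _).trans (pow_le_pow_right₀ hW0 (Nat.sub_le m 1))
    · rw [abs_of_nonneg (by linarith : 0 ≤ x k + t)]; linarith
    · rw [abs_of_nonneg hx0]; linarith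
  have h5 : |t * a k - u| ≤ t * (|a k| + G (unit k)) * (1 + g) := by
    refine le_trans ?_ (le_mul_of_one_le_right (by positivity) (by linarith))
    refine (abs_sub _ _).trans ?_
    rw [abs_mul, abs_of_pos ht0, abs_of_nonneg hq1, mul_add]
    linarith
  calc |fpot G k a m (x + t • unit k) - fpot G k a m x|
      ≤ |e' - e| * (|(x k + t) ^ m| * |A'|)
        + e * (|(x k + t) ^ m - x k ^ m| * |A'| + |x k ^ m| * |t * a k - u|) := by
        rw [eF]
        refine (abs_add_le _ _).trans (add_le_add (by rw [abs_mul, abs_mul]) ?_)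
        rw [abs_mul, abs_of_pos hep]
        exact mul_le_mul_of_nonneg_left ((abs_add_le _ _).trans_eq (by rw [abs_mul, abs_mul])) hep.le
    _ ≤ t * G (unit k) * e * (W * (D * (1 + g)))
        + e * (t * m * W * (D * (1 + g)) + W * (t * (|a k| + G (unit k)) * (1 + g))) := by
        refine add_le_add (mul_le_mul h1 (mul_le_mul h2 hA (abs_nonneg _) hWp) (by positivity)
          (by positivity)) (mul_le_mul_of_nonneg_left (add_le_add
          (mul_le_mul h4 hA (abs_nonneg _) (by positivity))
          (mul_le_mul h3 h5 (abs_nonneg _) hWp)) hep.le)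
    _ = _ := by rw [hW, mul_pow]; ring

lemma fpot_tendsto {x : Fin n → ℝ} (hx : x ∈ orth n) :
    Tendsto (fun t : ℝ => (fpot G k a m (x + t • unit k) - fpot G k a m x) / t) (𝓝[>] 0)
      (𝓝 ((m * x k ^ (m - 1) * (lform a x - G x - 1) + a k * x k ^ m
        - rder G k x * x k ^ m * (lform a x - G x)) * Real.exp (-G x))) := by
  have dG := hasDerivWithinAt_line hG k hx
  have dy : HasDerivWithinAt (fun t : ℝ => (x k + t) ^ m) (m * x k ^ (m - 1)) (Ioi 0) 0 := by
    simpa using (((hasDerivAt_id' (0 : ℝ)).const_add (x k)).fun_pow m).hasDerivWithinAt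
  have dl : HasDerivWithinAt (fun t : ℝ => lform a x + t * a k) (a k) (Ioi 0) 0 := by
    simpa using (((hasDerivAt_id' (0 : ℝ)).mul_const (a k)).const_add (lform a x)).hasDerivWithinAt
  have d := (dy.fun_mul ((dl.fun_sub dG).sub_const 1)).fun_mul dG.fun_neg.exp
  have e : (fun t : ℝ => fpot G k a m (x + t • unit k))
      = fun t : ℝ => (x k + t) ^ m * (lform a x + t * a k - ext0 G (x + t • unit k) - 1)
        * Real.exp (-ext0 G (x + t • unit k)) := by
    funext t
    simp only [fpot, lform_add_unit]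
    simp [unit]
  rw [← e, hasDerivWithinAt_iff_tendsto_slope' self_notMem_Ioi] at d
  refine (d.congr' (Eventually.of_forall fun t => ?_)).trans (le_of_eq (congrArg 𝓝 ?_))
  · simp [slope_def_field]
  · simp only [zero_smul, add_zero, zero_mul, ext0, clamp_eq hx]
    ring

/-- The fundamental theorem of calculus in coordinate `k`, integrated over the orthant. -/
lemma integral_rder (hm : 1 ≤ m) :
    expInt G (fun x => rder G k x * x k ^ m * (lform a x - ext0 G x))
      = expInt G (fun x => m * x k ^ (m - 1) * (lform a x - ext0 G x - 1) + a k * x k ^ m) := by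
  obtain ⟨B, hB0, hB⟩ := fpot_diff_le hG k a m
  obtain ⟨D, hD0, hD⟩ := abs_affine_le hG k a
  obtain ⟨c, hc1, hc⟩ := coord_add_one_le hG k
  have hext : ∀ x ∈ orth n, ext0 G x = G x := fun x hx => by rw [ext0, clamp_eq hx]
  have hA : ∀ x ∈ orth n, |lform a x - G x - 1| ≤ D * (1 + G x) := fun x hx => by
    simpa using hD x hx 0 le_rfl zero_le_one
  have hW : ∀ x ∈ orth n, ∀ j ≤ m, x k ^ j ≤ c ^ m * (1 + G x) ^ m := fun x hx j hj => by
    rw [← mul_pow]
    refine (pow_le_pow_left₀ (hx k) (by linarith [hc x hx]) j).trans (pow_le_pow_right₀ ?_ hj)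
    exact one_le_mul_of_one_le_of_one_le hc1 (by linarith [hG.nonneg hx])
  have hA2 := (continuous_lform a).sub hG.continuous_ext0
  have hFc : Continuous (fpot G k a m) :=
    (((continuous_apply k).pow m).mul (hA2.sub continuous_const)).mul hG.continuous_ext0.neg.rexp
  have hint : ∀ {f : (Fin n → ℝ) → ℝ}, Measurable f → ∀ C : ℝ,
      (∀ x ∈ orth n, |f x| ≤ C * (1 + G x) ^ (m + 1)) →
      IntegrableOn (fun x => f x * Real.exp (-G x)) (orth n) :=
    fun hf C hfC => hG.integrableOn_exp_mul hf.aestronglyMeasurable hfC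
  have hdom : ∀ C : ℝ, 0 ≤ C →
      IntegrableOn (fun x => C * (1 + G x) ^ (m + 1) * Real.exp (-G x)) (orth n) := fun C hC =>
    hG.integrableOn_exp_mul (f := fun x => C * (1 + G x) ^ (m + 1)) (B := C) (p := m + 1)
      ((continuousOn_const.mul ((continuousOn_const.add hG.continuousOn).pow _)).aestronglyMeasurable
        measurableSet_orth) fun x hx => by
      rw [abs_of_nonneg (mul_nonneg hC (pow_nonneg (by linarith [hG.nonneg hx]) _))]
  have hFi : IntegrableOn (fpot G k a m) (orth n) := by
    refine (hint (f := fun x => x k ^ m * (lform a x - ext0 G x - 1))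
      (((continuous_apply k).pow m).mul (hA2.sub continuous_const)).measurable (c ^ m * D)
      fun x hx => ?_).congr_fun (fun x hx => ?_) measurableSet_orth
    · rw [abs_mul, hext x hx, abs_of_nonneg (pow_nonneg (hx k) _), pow_succ, mul_mul_mul_comm]
      exact mul_le_mul (hW x hx m le_rfl) (hA x hx) (abs_nonneg _)
        (mul_nonneg (by positivity) (pow_nonneg (by linarith [hG.nonneg hx]) _))
    · simp only [fpot, hext x hx]
  set h : ℕ → ℝ := fun N => ((N : ℝ) + 1)⁻¹ with hh
  have hpos : ∀ N, 0 < h N := fun N => by simp only [hh]; positivity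
  have hle : ∀ N, h N ≤ 1 := fun N => inv_le_one_of_one_le₀ (by simp)
  have hlim : Tendsto h atTop (𝓝[>] 0) := by
    refine tendsto_nhdsWithin_iff.2 ⟨?_, Eventually.of_forall fun N => hpos N⟩
    simpa [hh, one_div] using tendsto_one_div_add_atTop_nhds_zero_nat (𝕜 := ℝ)
  have hS : ∀ N, ∫ x in orth n, (fpot G k a m (x + h N • unit k) - fpot G k a m x) / h N
      = -∫ x in orth n,
        {x : Fin n → ℝ | x k < h N}.indicator (fun x => fpot G k a m x / h N) x := by
    intro N
    set v := h N • unit k with hv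
    have hvk : v k = h N := by simp [hv, unit]
    set S : Set (Fin n → ℝ) := orth n ∩ {x | h N ≤ x k} with hSdef
    have hSm : MeasurableSet S :=
      measurableSet_orth.inter (measurableSet_le measurable_const (measurable_pi_apply k))
    have hiff : ∀ x, x + v ∈ S ↔ x ∈ orth n := by
      intro x
      constructor
      · rintro ⟨h1, h2⟩ i
        by_cases hi : i = k
        · subst hi; simpa [hvk] using h2
        · simpa [hv, unit, hi] using h1 i
      · intro hx
        exact ⟨add_mem_orth hx (smul_mem_orth (unit_mem_orth k) (hpos N).le),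
          by simpa [hvk] using hx k⟩
    have hind : ∀ x, S.indicator (fpot G k a m) (x + v)
        = (orth n).indicator (fun y => fpot G k a m (y + v)) x := fun x => by
      by_cases hx : x ∈ orth n <;> simp [hx, hiff x]
    have htr : ∫ x in orth n, fpot G k a m (x + v) = ∫ x in S, fpot G k a m x := by
      rw [← integral_indicator measurableSet_orth, ← integral_indicator hSm,
        ← integral_add_right_eq_self (S.indicator (fpot G k a m)) v]
      simp only [hind]
    have hsh : IntegrableOn (fun x => fpot G k a m (x + v)) (orth n) := by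
      refine (integrable_indicator_iff measurableSet_orth).1 ?_
      simpa only [hind] using ((integrable_indicator_iff hSm).2
        (hFi.mono_set inter_subset_left)).comp_add_right v
    have hlt : MeasurableSet {x : Fin n → ℝ | x k < h N} :=
      measurableSet_lt (measurable_pi_apply k) measurable_const
    rw [integral_div, integral_sub hsh hFi, htr, setIntegral_indicator hlt, integral_div,
      ← neg_div]
    congr 1
    have := setIntegral_union (f := fpot G k a m) (μ := volume) (s := S)
      (t := orth n ∩ {x | x k < h N})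
      (Set.disjoint_left.2 fun x h1 h2 => not_le.2 (show x k < h N from h2.2) h1.2) (measurableSet_orth.inter hlt)
      (hFi.mono_set inter_subset_left) (hFi.mono_set inter_subset_left)
    rw [show S ∪ (orth n ∩ {x | x k < h N}) = orth n by
      rw [hSdef, ← inter_union_distrib_left]
      exact inter_eq_left.2 fun x _ => le_or_gt (h N) (x k)] at this
    linarith
  have L1 : Tendsto
      (fun N => ∫ x in orth n, (fpot G k a m (x + h N • unit k) - fpot G k a m x) / h N) atTop
      (𝓝 (∫ x in orth n, (m * x k ^ (m - 1) * (lform a x - G x - 1) + a k * x k ^ m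
        - rder G k x * x k ^ m * (lform a x - G x)) * Real.exp (-G x))) := by
    refine tendsto_integral_of_dominated_convergence _
      (fun N => (((hFc.comp (continuous_id.add continuous_const)).sub hFc).div_const
        _).aestronglyMeasurable) (hdom B hB0) (fun N => ?_) ?_
    · filter_upwards [ae_restrict_mem measurableSet_orth] with x hx
      rw [Real.norm_eq_abs, abs_div, abs_of_pos (hpos N), div_le_iff₀ (hpos N)]
      exact (hB x hx _ (hpos N) (hle N)).trans_eq (by ring)
    · filter_upwards [ae_restrict_mem measurableSet_orth] with x hx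
      exact (fpot_tendsto hG k a m hx).comp hlim
  have L2 : Tendsto
      (fun N => ∫ x in orth n,
        {x : Fin n → ℝ | x k < h N}.indicator (fun x => fpot G k a m x / h N) x)
      atTop (𝓝 (∫ _x in orth n, (0 : ℝ))) := by
    refine tendsto_integral_of_dominated_convergence _
      (fun N => ((hFc.div_const _).measurable.indicator
        (measurableSet_lt (measurable_pi_apply k) measurable_const)).aestronglyMeasurable)
      (hdom D hD0) (fun N => ?_) ?_
    · filter_upwards [ae_restrict_mem measurableSet_orth] with x hx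
      have hg0 := hG.nonneg hx
      by_cases hxk : x ∈ {x : Fin n → ℝ | x k < h N}
      · rw [indicator_of_mem hxk, Real.norm_eq_abs, abs_div, abs_of_pos (hpos N),
          div_le_iff₀ (hpos N)]
        simp only [fpot, hext x hx, abs_mul, Real.abs_exp, abs_of_nonneg (pow_nonneg (hx k) m)]
        have h1 : x k ^ m ≤ h N :=
          (pow_le_of_le_one (hx k) ((le_of_lt hxk).trans (hle N)) (by omega)).trans (le_of_lt hxk)
        refine (mul_le_mul_of_nonneg_right (mul_le_mul h1 ((hA x hx).trans
          (mul_le_mul_of_nonneg_left (le_self_pow₀ (by linarith) (by omega : m + 1 ≠ 0)) hD0))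
          (abs_nonneg _) (hpos N).le) (Real.exp_pos _).le).trans_eq (by ring)
      · rw [indicator_of_notMem hxk, norm_zero]
        positivity
    · have hnull : ∀ᵐ x ∂volume.restrict (orth n), x k ≠ 0 := by
        refine ae_restrict_of_ae ?_
        rw [ae_iff]; simp only [not_not]
        rw [volume_pi]; exact Measure.pi_hyperplane (fun _ : Fin n => (volume : Measure ℝ)) k 0
      filter_upwards [ae_restrict_mem measurableSet_orth, hnull] with x hx hx0
      have hxp : 0 < x k := lt_of_le_of_ne (hx k) (Ne.symm hx0)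
      refine tendsto_const_nhds.congr' ?_
      filter_upwards [(tendsto_nhds_of_tendsto_nhdsWithin hlim).eventually (Iio_mem_nhds hxp)]
        with N hN
      exact (indicator_of_notMem (s := {x : Fin n → ℝ | x k < h N}) (not_lt.2 (le_of_lt hN)) _).symm
  have hz := tendsto_nhds_unique L1 (L2.neg.congr fun N => (hS N).symm)
  rw [integral_zero, neg_zero] at hz
  obtain ⟨Cu, hu0, hu⟩ : ∃ Cu, 0 ≤ Cu ∧ ∀ x ∈ orth n,
      |lform a x - G x| ≤ Cu * (1 + G x) := ⟨D + 1, by linarith, fun x hx => by
    calc |lform a x - G x| = |(lform a x - G x - 1) + 1| := by rw [sub_add_cancel]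
      _ ≤ |lform a x - G x - 1| + |(1 : ℝ)| := abs_add_le _ _
      _ ≤ D * (1 + G x) + (1 + G x) :=
        add_le_add (hA x hx) (by rw [abs_one]; linarith [hG.nonneg hx])
      _ = _ := by ring⟩
  have hPi : IntegrableOn (fun x => (m * x k ^ (m - 1) * (lform a x - G x - 1) + a k * x k ^ m)
      * Real.exp (-G x)) (orth n) := by
    refine (hint (f := fun x => m * x k ^ (m - 1) * (lform a x - ext0 G x - 1) + a k * x k ^ m)
      ((continuous_const.mul ((continuous_apply k).pow _)).mul (hA2.sub continuous_const) |>.add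
        (continuous_const.mul ((continuous_apply k).pow _))).measurable
      (c ^ m * (m * D + |a k|)) fun x hx => ?_).congr_fun (fun x hx => by simp only [hext x hx])
      measurableSet_orth
    have hg := hG.nonneg hx
    rw [hext x hx]
    refine (abs_add_le _ _).trans ?_
    rw [abs_mul, abs_mul, abs_mul, Nat.abs_cast, abs_of_nonneg (pow_nonneg (hx k) _),
      abs_of_nonneg (pow_nonneg (hx k) _)]
    calc (m : ℝ) * x k ^ (m - 1) * |lform a x - G x - 1| + |a k| * x k ^ m
        ≤ m * (c ^ m * (1 + G x) ^ m) * (D * (1 + G x))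
          + |a k| * (c ^ m * (1 + G x) ^ m * (1 + G x)) :=
          add_le_add (mul_le_mul (mul_le_mul_of_nonneg_left (hW x hx _ (Nat.sub_le m 1))
            (Nat.cast_nonneg m)) (hA x hx) (abs_nonneg _) (by positivity))
            (mul_le_mul_of_nonneg_left ((hW x hx m le_rfl).trans
              (le_mul_of_one_le_right (by positivity) (by linarith))) (abs_nonneg _))
      _ = _ := by ring
  have hQi : IntegrableOn (fun x => (rder G k x * x k ^ m * (lform a x - G x))
      * Real.exp (-G x)) (orth n) := by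
    refine (hint (f := fun x => rder G k x * x k ^ m * (lform a x - ext0 G x))
      (((measurable_rder hG k).mul ((measurable_pi_apply k).pow_const _)).mul hA2.measurable)
      (G (unit k) * c ^ m * Cu) fun x hx => ?_).congr_fun (fun x hx => by simp only [hext x hx])
      measurableSet_orth
    have hg := hG.nonneg hx
    have hgu := hG.unit_pos k
    obtain ⟨r1, r2⟩ := rder_bounds hG k hx
    rw [hext x hx, abs_mul, abs_mul, abs_of_nonneg r1, abs_of_nonneg (pow_nonneg (hx k) _)]
    exact (mul_le_mul (mul_le_mul r2 (hW x hx m le_rfl) (pow_nonneg (hx k) _) hgu.le) (hu x hx)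
      (abs_nonneg _) (by positivity)).trans_eq (by ring)
  simp only [sub_mul] at hz
  rw [integral_sub hPi hQi, sub_eq_zero] at hz
  refine (Eq.trans ?_ hz.symm).trans ?_
  · exact setIntegral_congr_fun measurableSet_orth fun x hx => by simp only [hext x hx]
  · exact setIntegral_congr_fun measurableSet_orth fun x hx => by simp only [hext x hx]

end

/-- Step 3, the identity. -/
theorem slopeIdentity : SlopeIdentity := by
  intro n G k m hG hm
  set V := vol G with hV
  refine ⟨slopeTest G k m, (n ! : ℝ) * V, mul_pos (by positivity) hG.vol_pos,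
    slopeTest_segConst hG k m hm, ?_⟩
  have hn : 0 < n := k.pos
  have hext : ∀ x ∈ orth n, ext0 G x = G x := fun x hx => by rw [ext0, clamp_eq hx]
  set a : Fin n → ℝ := fun i => Zexp G / momExp G i with ha
  have hai : ∀ i, a i = V / (((n : ℝ) + 1) * mom G i) := fun i => by
    simp only [ha]
    rw [hG.zexp_eq, hG.momExp_eq, Nat.factorial_succ]
    have := hG.mom_pos i
    push_cast
    simp only [hV]
    field_simp
  have hgu := hG.unit_pos k
  obtain ⟨K, hK0, hK⟩ := (isSub_linear a).abs_le hG
  have hG1 : ∀ x ∈ body G, G x ≤ 1 := fun x hx => hx.2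
  have hxle : ∀ x ∈ orth n, x k ≤ (G (unit k))⁻¹ * G x := fun x hx => by
    rw [inv_mul_eq_div, le_div_iff₀ hgu]; exact hG.coord_le hx k
  have hlhom : ∀ x : Fin n → ℝ, ∀ r : ℝ, lform a (r • x) = r * lform a x := fun x r => by
    simp [lform, Finset.mul_sum, mul_assoc]
  have hextm := hG.continuous_ext0.measurable
  have hlm := (continuous_lform a).measurable
  set f : (Fin n → ℝ) → ℝ := fun x => slopeTest G k m x * (lform a x - ext0 G x) with hf
  set hfun : (Fin n → ℝ) → ℝ := fun x => rder G k x * x k ^ m * (lform a x - ext0 G x) with hhf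
  obtain ⟨Bv, hBv⟩ := (slopeTest_segConst hG k m hm).bound
  have hfm : Measurable f := (slopeTest_segConst hG k m hm).meas.mul (hlm.sub hextm)
  have hfb : ∀ x ∈ orth n, |f x| ≤ |Bv| * (K + 1) * G x ^ 2 := fun x hx => by
    have hg := hG.nonneg hx
    simp only [hf, hext x hx, abs_mul]
    refine (mul_le_mul ((hBv x hx).trans (mul_le_mul_of_nonneg_right (le_abs_self Bv) hg))
      (show |lform a x - G x| ≤ (K + 1) * G x from ?_) (abs_nonneg _) (by positivity)).trans
      (le_of_eq (by ring))
    refine (abs_sub _ _).trans ?_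
    have : |lform a x| ≤ K * G x := hK x hx
    rw [abs_of_nonneg hg]; linarith
  have hfhom : ∀ x ∈ orth n, ∀ r : ℝ, 0 < r → f (r • x) = r ^ 2 * f x := by
    intro x hx r hr
    simp only [hf, slopeTest, hext x hx, hext _ (smul_mem_orth hx hr.le), hG.hom x hx r hr.le,
      rder_smul hG k hx hr, hlhom, Pi.smul_apply, smul_eq_mul, mul_pow]
    have : r ^ m / r ^ (m - 1) = r := by
      rw [div_eq_iff (pow_ne_zero _ hr.ne'), ← pow_succ', Nat.sub_add_cancel hm]
    rw [mul_div_mul_comm, this]
    ring
  have hfG : ∀ x ∈ orth n, hfun x = f x * G x ^ (m - 1) := by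
    intro x hx
    simp only [hhf, hf, slopeTest, hext x hx]
    rcases (hG.nonneg hx).eq_or_lt with h0 | h0
    · have : x k = 0 := le_antisymm (by simpa [← h0] using hxle x hx) (hx k)
      simp [this, show m ≠ 0 by omega]
    · field_simp
  have e1 : ip G (slopeTest G k m) (fun x => wsum G x - G x)
      = ((n + 2)! : ℝ) * ∫ x in body G, f x := by
    rw [← hG.radial (d := 2) (B := |Bv| * (K + 1)) (p := 2) hfm hfhom fun x hx => (hfb x hx).trans
      (mul_le_mul_of_nonneg_left (pow_le_pow_left₀ (hG.nonneg hx) (by linarith) 2) (by positivity))]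
    refine setIntegral_congr_fun measurableSet_orth fun x hx => ?_
    simp only [hf, hext x hx]
    rfl
  have e2 : expInt G hfun = ((n + (m + 1))! : ℝ) *
      (((n + 2 : ℝ) / (n + 2 + (m - 1 : ℕ))) * ∫ x in body G, f x) := by
    rw [hG.radial (f := hfun) (d := m + 1) (B := |Bv| * (K + 1)) (p := m + 1)
      (((measurable_rder hG k).mul ((measurable_pi_apply k).pow_const m)).mul (hlm.sub hextm))
      (fun x hx r hr => ?_) (fun x hx => ?_)]
    · congr 1
      rw [setIntegral_congr_fun hG.measurableSet_body fun x hx => hfG x hx.1,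
        hG.body_pow hn hfm (B := |Bv| * (K + 1)) (fun x hx => (hfb x hx.1).trans
          (mul_le_of_le_one_right (by positivity) (pow_le_one₀ (hG.nonneg hx.1) hx.2))) hfhom]
      norm_num
    · rw [hfG _ (smul_mem_orth hx hr.le), hfG x hx, hfhom x hx r hr, hG.hom x hx r hr.le, mul_pow,
        show r ^ (m + 1) = r ^ 2 * r ^ (m - 1) by rw [← pow_add]; congr 1; omega]
      ring
    · rw [hfG x hx, abs_mul, abs_pow, abs_of_nonneg (hG.nonneg hx)]
      refine (mul_le_mul_of_nonneg_right (hfb x hx) (pow_nonneg (hG.nonneg hx) _)).trans ?_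
      rw [mul_assoc, ← pow_add, show 2 + (m - 1) = m + 1 by omega]
      exact mul_le_mul_of_nonneg_left (pow_le_pow_left₀ (hG.nonneg hx) (by linarith) _) (by positivity)
  set J := ∫ x in body G, x k ^ (m - 1) with hJ
  set I1 := ∫ x in body G, lform a x * x k ^ (m - 1) with hI1
  set I2 := ∫ x in body G, x k ^ m with hI2
  have e3 : expInt G (fun x => m * x k ^ (m - 1) * (lform a x - ext0 G x - 1) + a k * x k ^ m)
      = ((n + m)! : ℝ) * (m * I1 - m * J + a k * I2) := by
    obtain ⟨t, rfl⟩ : ∃ t, m = t + 1 := ⟨m - 1, by omega⟩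
    simp only [Nat.add_sub_cancel] at hJ hI1 ⊢
    set c := (G (unit k))⁻¹ with hc
    have hc0 : 0 ≤ c := inv_nonneg.2 hgu.le
    have hpb : ∀ x ∈ orth n, ∀ j : ℕ, x k ^ j ≤ c ^ j * (1 + G x) ^ j := fun x hx j => by
      rw [← mul_pow]
      exact pow_le_pow_left₀ (hx k) ((hxle x hx).trans (mul_le_mul_of_nonneg_left (by linarith) hc0)) j
    have d1 : expInt G (fun x => x k ^ t) = ((n + t)! : ℝ) * J := by
      rw [hJ]
      refine hG.radial (B := c ^ t) (p := t) ((measurable_pi_apply k).pow_const t)
        (fun x _ r _ => by simp [mul_pow]) fun x hx => ?_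
      rw [abs_of_nonneg (pow_nonneg (hx k) _)]; exact hpb x hx t
    have d2 : expInt G (fun x => x k ^ (t + 1)) = ((n + (t + 1))! : ℝ) * I2 := by
      rw [hI2]
      refine hG.radial (B := c ^ (t + 1)) (p := t + 1) ((measurable_pi_apply k).pow_const _)
        (fun x _ r _ => by simp [mul_pow]) fun x hx => ?_
      rw [abs_of_nonneg (pow_nonneg (hx k) _)]; exact hpb x hx _
    have bb : ∀ (u : (Fin n → ℝ) → ℝ) (B : ℝ), (∀ x ∈ orth n, |u x| ≤ B * G x) → ∀ x ∈ orth n,
        |u x * x k ^ t| ≤ |B| * c ^ t * (1 + G x) ^ (t + 1) := fun u B hu x hx => by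
      have hg := hG.nonneg hx
      rw [abs_mul, abs_of_nonneg (pow_nonneg (hx k) _), pow_succ]
      refine (mul_le_mul ((hu x hx).trans (mul_le_mul (le_abs_self B)
        (show G x ≤ 1 + G x by linarith) hg (abs_nonneg B))) (hpb x hx t) (pow_nonneg (hx k) _)
        (by positivity)).trans (le_of_eq (by ring))
    have d3 : expInt G (fun x => lform a x * x k ^ t) = ((n + (t + 1))! : ℝ) * I1 := by
      rw [hI1]
      exact hG.radial (B := |K| * c ^ t) (p := t + 1) (hlm.mul ((measurable_pi_apply k).pow_const t))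
        (fun x _ r _ => by simp [hlhom, mul_pow]; ring) (bb _ K fun x hx => hK x hx)
    have hGb : ∀ x ∈ orth n, |ext0 G x| ≤ 1 * G x := fun x hx => by
      rw [hext x hx, abs_of_nonneg (hG.nonneg hx), one_mul]
    have d4 : expInt G (fun x => ext0 G x * x k ^ t)
        = ((n + (t + 1))! : ℝ) * (((n + t : ℝ) / (n + t + (1 : ℕ))) * J) := by
      rw [hG.radial (f := fun x => ext0 G x * x k ^ t) (d := t + 1) (B := |(1 : ℝ)| * c ^ t)
        (p := t + 1) (hextm.mul ((measurable_pi_apply k).pow_const t)) (fun x hx r hr => ?_)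
        (bb _ 1 hGb)]
      · congr 1
        rw [hJ, ← hG.body_pow hn (f := fun x => x k ^ t) ((measurable_pi_apply k).pow_const t)
          (B := c ^ t) (fun x hx => ?_) (fun x _ r _ => by simp [mul_pow]) 1]
        · refine setIntegral_congr_fun hG.measurableSet_body fun x hx => ?_
          simp only [hext x hx.1, pow_one]; ring
        · rw [abs_of_nonneg (pow_nonneg (hx.1 k) _)]
          exact pow_le_pow_left₀ (hx.1 k) ((hxle x hx.1).trans (mul_le_of_le_one_right hc0 hx.2)) t
      · simp only [hext x hx, hext _ (smul_mem_orth hx hr.le), hG.hom x hx r hr.le, Pi.smul_apply,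
          smul_eq_mul, mul_pow]
        ring
    have ii : ∀ (u : (Fin n → ℝ) → ℝ) (B : ℝ) (p : ℕ), Measurable u →
        (∀ x ∈ orth n, |u x| ≤ B * (1 + G x) ^ p) →
        IntegrableOn (fun x => u x * Real.exp (-G x)) (orth n) :=
      fun u B p hu hb => hG.integrableOn_exp_mul hu.aestronglyMeasurable hb
    have i1 := ii (fun x => lform a x * x k ^ t) _ _ (hlm.mul ((measurable_pi_apply k).pow_const t))
      (bb _ K fun x hx => hK x hx)
    have i4 := ii (fun x => ext0 G x * x k ^ t) _ _
      (hextm.mul ((measurable_pi_apply k).pow_const t)) (bb _ 1 hGb)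
    have i0 := ii (fun x => x k ^ t) (c ^ t) t ((measurable_pi_apply k).pow_const t) fun x hx => by
      rw [abs_of_nonneg (pow_nonneg (hx k) _)]; exact hpb x hx t
    have i2 := ii (fun x => x k ^ (t + 1)) (c ^ (t + 1)) (t + 1)
      ((measurable_pi_apply k).pow_const _) fun x hx => by
        rw [abs_of_nonneg (pow_nonneg (hx k) _)]; exact hpb x hx _
    unfold expInt at d1 d2 d3 d4 ⊢
    have i12 : IntegrableOn (fun x => lform a x * x k ^ t * Real.exp (-G x)
        - ext0 G x * x k ^ t * Real.exp (-G x)) (orth n) := i1.sub i4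
    have i120 : IntegrableOn (fun x => lform a x * x k ^ t * Real.exp (-G x)
        - ext0 G x * x k ^ t * Real.exp (-G x) - x k ^ t * Real.exp (-G x)) (orth n) := i12.sub i0
    rw [setIntegral_congr_fun (g := fun x => ((t + 1 : ℕ) : ℝ) * (lform a x * x k ^ t * Real.exp (-G x)
        - ext0 G x * x k ^ t * Real.exp (-G x) - x k ^ t * Real.exp (-G x))
        + a k * (x k ^ (t + 1) * Real.exp (-G x))) measurableSet_orth (fun x _ => by simp only; ring),
      integral_add (i120.const_mul _) (i2.const_mul _), integral_const_mul,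
      integral_const_mul, integral_sub i12 i0, integral_sub i1 i4, d1, d2, d3, d4,
      show n + (t + 1) = n + t + 1 by omega, Nat.factorial_succ]
    have : (n + t + 1 : ℝ) ≠ 0 := by positivity
    push_cast
    field_simp
    ring
  have key := integral_rder hG k a m hm
  rw [e2, e3] at key
  have hbr : (m : ℝ) * I1 - m * J + a k * I2 = V / ((n : ℝ) + 1) * slope G k m := by
    have hmono : ∀ i : Fin n, IntegrableOn (fun x => x i * x k ^ (m - 1)) (body G) := fun i =>
      ((continuous_apply i).mul ((continuous_apply k).pow _)).continuousOn.integrableOn_compact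
        hG.isCompact_body
    have hI1' : I1 = ∑ i, a i * ∫ x in body G, x i * x k ^ (m - 1) := by
      rw [hI1, setIntegral_congr_fun (g := fun x => ∑ i, a i * (x i * x k ^ (m - 1)))
        hG.measurableSet_body (fun x _ => by
          simp only [lform, Finset.sum_mul]; exact Finset.sum_congr rfl fun i _ => by ring),
        integral_finset_sum _ fun i _ => (hmono i).const_mul (a i)]
      exact Finset.sum_congr rfl fun i _ => integral_const_mul _ _
    have hs1 : ∀ i : Fin n, (∫ x in body G, (m : ℝ) * x k ^ (m - 1) * x i)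
        = m * ∫ x in body G, x i * x k ^ (m - 1) := fun i => by
      rw [← integral_const_mul]
      exact setIntegral_congr_fun hG.measurableSet_body fun x _ => by ring
    have hVpos := hG.vol_pos
    have hn1 : ((n : ℝ) + 1) ≠ 0 := by positivity
    simp only [slope, hs1, integral_const_mul, ← hJ, ← hI2, ← hV]
    rw [hI1', mul_sub, mul_add, Finset.mul_sum, Finset.mul_sum, hai k]
    have e : ∀ i, (m : ℝ) * (a i * ∫ x in body G, x i * x k ^ (m - 1))
        = V / ((n : ℝ) + 1) * (m * (∫ x in body G, x i * x k ^ (m - 1)) / mom G i) := fun i => by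
      rw [hai i]; have := hG.mom_pos i; field_simp
    rw [Finset.sum_congr rfl fun i _ => e i]
    have := hG.mom_pos k
    rw [← hV] at hVpos
    field_simp
    ring
  rw [hbr] at key
  rw [e1]
  have hf1 : ((n + (m + 1))! : ℝ) = ((n + m + 1 : ℕ) : ℝ) * ((n + m)! : ℝ) := by
    rw [show n + (m + 1) = n + m + 1 by omega, Nat.factorial_succ]; push_cast; ring
  have hf2 : ((n + 2)! : ℝ) = ((n : ℝ) + 2) * ((n : ℝ) + 1) * (n ! : ℝ) := by
    rw [Nat.factorial_succ, Nat.factorial_succ]; push_cast; ring
  rw [hf1, Nat.cast_sub hm] at key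
  rw [hf2]
  have hfp : ((n + m)! : ℝ) ≠ 0 := by positivity
  push_cast at key
  rw [show (n : ℝ) + 2 + ((m : ℝ) - 1) = n + m + 1 by ring] at key
  field_simp at key
  linear_combination (n ! : ℝ) * key

end Vale.Agent.P254.CT
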