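import Vale.Agent.P254.CT.Endgame
import Vale.Agent.P254.CT.Exists
import Vale.Agent.P254.CT.Operator
import Vale.Agent.P254.CT.OneVariable
import Vale.Agent.P254.CT.SegConst
import Vale.Agent.P254.CT.Second
import Vale.Agent.P254.CT.Slope
import Vale.Agent.P254.CT.Var

/-!
The centroid-box theorem, unconditionally.
-/

namespace Vale.Agent.P254.CT

/-- Every convex downset in the orthant has volume at least the product of twice its centroid
coordinates. -/
theorem centroidBox : CentroidBox :=
  centroidBox_of minExists (segConstOrth_of firstOrder operatorStep) slopeIdentity secondOrder
    varBound oneVariable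

end Vale.Agent.P254.CT
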